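import Mathlib

/-!
Row 132: averages over `[0, 2π]` and over circles.
-/

set_option autoImplicit false

open scoped Real ComplexConjugate
open Metric Set MeasureTheory

namespace Crest.Agent.R132

/-- Mean value over `[0, 2π]`. -/
noncomputable def av (f : ℝ → ℂ) : ℂ := (2 * π)⁻¹ • ∫ θ in (0 : ℝ)..2 * π, f θ

theorem av_eq_circleAverage (F : ℂ → ℂ) (r : ℝ) :
    av (fun θ => F (circleMap 0 r θ)) = Real.circleAverage F 0 r := rfl

theorem av_add {f g : ℝ → ℂ} (hf : Continuous f) (hg : Continuous g) :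
    av (fun θ => f θ + g θ) = av f + av g := by
  simp only [av]
  rw [intervalIntegral.integral_add (hf.intervalIntegrable _ _) (hg.intervalIntegrable _ _),
    smul_add]

theorem av_sub {f g : ℝ → ℂ} (hf : Continuous f) (hg : Continuous g) :
    av (fun θ => f θ - g θ) = av f - av g := by
  simp only [av]
  rw [intervalIntegral.integral_sub (hf.intervalIntegrable _ _) (hg.intervalIntegrable _ _),
    smul_sub]

theorem av_const_mul (c : ℂ) (f : ℝ → ℂ) : av (fun θ => c * f θ) = c * av f := by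
  simp only [av]
  rw [intervalIntegral.integral_const_mul, mul_smul_comm]

theorem av_mul_const (c : ℂ) (f : ℝ → ℂ) : av (fun θ => f θ * c) = av f * c := by
  simp only [mul_comm _ c, av_const_mul]

theorem av_neg (f : ℝ → ℂ) : av (fun θ => -f θ) = -av f := by
  simp only [av]
  rw [intervalIntegral.integral_neg, smul_neg]

theorem av_const (c : ℂ) : av (fun _ => c) = c := by
  simp only [av, intervalIntegral.integral_const, sub_zero, smul_smul]
  rw [inv_mul_cancel₀ (by positivity), one_smul]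

theorem av_sum {ι : Type*} (s : Finset ι) {f : ι → ℝ → ℂ} (hf : ∀ i ∈ s, Continuous (f i)) :
    av (fun θ => ∑ i ∈ s, f i θ) = ∑ i ∈ s, av (f i) := by
  simp only [av]
  rw [intervalIntegral.integral_finsetSum fun i hi => (hf i hi).intervalIntegrable _ _,
    Finset.smul_sum]

theorem av_conj (f : ℝ → ℂ) : av (fun θ => conj (f θ)) = conj (av f) := by
  simp only [av]
  rw [intervalIntegral.intervalIntegral_conj, Complex.real_smul, Complex.real_smul, map_mul,
    Complex.conj_ofReal]

theorem av_mono_re {f g : ℝ → ℂ} (hf : Continuous f) (hg : Continuous g)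
    (h : ∀ θ, (f θ).re ≤ (g θ).re) : (av f).re ≤ (av g).re := by
  simp only [av, Complex.smul_re, smul_eq_mul]
  refine mul_le_mul_of_nonneg_left ?_ (by positivity)
  have e : ∀ {f : ℝ → ℂ}, Continuous f →
      (∫ θ in (0 : ℝ)..2 * π, f θ).re = ∫ θ in (0 : ℝ)..2 * π, (f θ).re := fun {f} hf =>
    (Complex.reCLM.intervalIntegral_comp_comm (hf.intervalIntegrable _ _)).symm
  rw [e hf, e hg]
  exact intervalIntegral.integral_mono_on (by positivity)
    ((Complex.continuous_re.comp hf).intervalIntegrable _ _)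
    ((Complex.continuous_re.comp hg).intervalIntegrable _ _) fun θ _ => h θ

theorem av_swap {F : ℝ → ℝ → ℂ} (hF : Continuous F.uncurry) :
    av (fun s => av (fun t => F s t)) = av (fun t => av (fun s => F s t)) := by
  simp only [av, intervalIntegral.integral_smul]
  congr 2
  refine intervalIntegral_intervalIntegral_swap ?_
  refine (hF.continuousOn.integrableOn_compact
    ((isCompact_uIcc (a := 0) (b := 2 * π)).prod (isCompact_uIcc (a := 0) (b := 2 * π)))).mono_set
    (prod_mono uIoc_subset_uIcc uIoc_subset_uIcc)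

theorem continuous_av {X : Type*} [TopologicalSpace X] {F : X → ℝ → ℂ}
    (hF : Continuous F.uncurry) : Continuous fun x => av (F x) := by
  simp only [av]
  exact (intervalIntegral.continuous_parametric_intervalIntegral_of_continuous' (μ := volume) hF
    _ _).const_smul ((2 * π)⁻¹ : ℝ)

/-- The mean as a linear functional on continuous functions. -/
noncomputable def avLin : C(ℝ, ℂ) →ₗ[ℂ] ℂ where
  toFun f := av f
  map_add' f g := av_add f.continuous g.continuous
  map_smul' c f := av_const_mul c f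

@[simp] theorem avLin_apply (f : C(ℝ, ℂ)) : avLin f = av f := rfl

theorem norm_cm {r : ℝ} (hr : 0 ≤ r) (θ : ℝ) : ‖circleMap 0 r θ‖ = r := by
  rw [norm_circleMap_zero, abs_of_nonneg hr]

theorem av_mean {F : ℂ → ℂ} {r : ℝ} (hr : 0 < r) (hF : DiffContOnCl ℂ F (ball 0 r)) :
    av (fun θ => F (circleMap 0 r θ)) = F 0 := by
  rw [av_eq_circleAverage]
  exact DiffContOnCl.circleAverage (by rwa [abs_of_pos hr])

theorem av_cauchy {F : ℂ → ℂ} {r : ℝ} (hr : 0 < r) (hF : DiffContOnCl ℂ F (ball 0 r)) {w : ℂ}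
    (hw : ‖w‖ < r) :
    av (fun θ => circleMap 0 r θ / (circleMap 0 r θ - w) * F (circleMap 0 r θ)) = F w := by
  have := DiffContOnCl.circleAverage_smul_div (f := F) (c := 0) (R := r) (w := w)
    (by rwa [abs_of_pos hr]) (by simpa [abs_of_pos hr] using hw)
  rw [← this, ← av_eq_circleAverage]
  simp

theorem av_shift {F : ℂ → ℂ} {r R : ℝ} (hr : 0 < r) (hle : r ≤ R)
    (hc : ContinuousOn F (closedBall 0 R \ ball 0 r))
    (hd : ∀ z ∈ ball 0 R \ closedBall 0 r, DifferentiableAt ℂ F z) :
    av (fun θ => F (circleMap 0 R θ)) = av (fun θ => F (circleMap 0 r θ)) := by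
  rw [av_eq_circleAverage, av_eq_circleAverage, Real.circleAverage_eq_circleIntegral hr.ne',
    Real.circleAverage_eq_circleIntegral (hr.trans_le hle).ne',
    Complex.circleIntegral_sub_center_inv_smul_eq_of_differentiable_on_annulus_off_countable hr hle
      countable_empty hc (by simpa using hd)]

theorem av_deriv {P P' : ℂ → ℂ} {r : ℝ} (hr : 0 < r)
    (h : ∀ z : ℂ, ‖z‖ = r → HasDerivAt P (P' z) z) :
    av (fun θ => circleMap 0 r θ * P' (circleMap 0 r θ)) = 0 := by
  rw [av_eq_circleAverage (fun z => z * P' z), Real.circleAverage_eq_circleIntegral hr.ne']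
  have e : (∮ z in C(0, r), (z - 0)⁻¹ • (z * P' z)) = ∮ z in C(0, r), P' z := by
    refine circleIntegral.integral_congr hr.le fun z hz => ?_
    have hz0 : z ≠ 0 := by
      rintro rfl
      simp at hz
      exact hr.ne hz
    simp only [sub_zero, smul_eq_mul]
    field_simp
  rw [e, circleIntegral.integral_eq_zero_of_hasDerivWithinAt hr.le
    (fun z hz => (h z (by simpa using hz)).hasDerivWithinAt), smul_zero]

theorem diffContOnCl_ball {F : ℂ → ℂ} {r ρ : ℝ} (h : r < ρ) (hF : DifferentiableOn ℂ F (ball 0 ρ)) :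
    DiffContOnCl ℂ F (ball 0 r) :=
  (hF.mono (closure_ball_subset_closedBall.trans (closedBall_subset_ball h))).diffContOnCl

/-- Joint continuity across the diagonal for functions holomorphic in the second variable. -/
theorem continuousOn_of_off_diag {F : ℂ → ℂ → ℂ} {ρ : ℝ}
    (hc : ContinuousOn F.uncurry {p : ℂ × ℂ | p.1 ∈ ball 0 ρ ∧ p.2 ∈ ball 0 ρ ∧ p.1 ≠ p.2})
    (hd : ∀ w ∈ ball (0 : ℂ) ρ, DifferentiableOn ℂ (F w) (ball 0 ρ)) :
    ContinuousOn F.uncurry (ball 0 ρ ×ˢ ball 0 ρ) := by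
  rintro ⟨w₀, w₀'⟩ ⟨h1, h2⟩
  simp only [mem_ball_zero_iff] at h1 h2
  obtain ⟨r, hr1, hr2⟩ := exists_between (max_lt h1 h2)
  have hw : ‖w₀‖ < r := (le_max_left _ _).trans_lt hr1
  have hw' : ‖w₀'‖ < r := (le_max_right _ _).trans_lt hr1
  have hr0 : 0 < r := (norm_nonneg _).trans_lt hw
  have hS : IsOpen (ball (0 : ℂ) r ×ˢ ball (0 : ℂ) r) := isOpen_ball.prod isOpen_ball
  have hmem : (w₀, w₀') ∈ ball (0 : ℂ) r ×ˢ ball (0 : ℂ) r := by simp [hw, hw']
  suffices h : ContinuousOn F.uncurry (ball (0 : ℂ) r ×ˢ ball (0 : ℂ) r) from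
    (h.continuousAt (hS.mem_nhds hmem)).continuousWithinAt
  rw [continuousOn_iff_continuous_domRestrict]
  have hne : ∀ (θ : ℝ) (w : ℂ), w ∈ ball (0 : ℂ) r → circleMap 0 r θ ≠ w := fun θ w hw =>
    circleMap_ne_mem_ball hw θ
  have key : Continuous fun p : ↥(ball (0 : ℂ) r ×ˢ ball (0 : ℂ) r) =>
      av (fun θ => circleMap 0 r θ / (circleMap 0 r θ - p.1.2) * F p.1.1 (circleMap 0 r θ)) := by
    refine continuous_av ?_
    refine Continuous.mul (Continuous.div (by fun_prop) (by fun_prop)
      fun q => sub_ne_zero.2 (hne _ _ q.1.2.2)) ?_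
    refine hc.comp_continuous (f := fun q : ↥(ball (0 : ℂ) r ×ˢ ball (0 : ℂ) r) × ℝ =>
      (q.1.1.1, circleMap 0 r q.2)) (by fun_prop) fun q => ⟨?_, ?_, (hne _ _ q.1.2.1).symm⟩
    · exact ball_subset_ball hr2.le q.1.2.1
    · simp [abs_of_pos hr0, hr2]
  refine key.congr fun p => ?_
  exact av_cauchy hr0 (diffContOnCl_ball hr2 (hd _ (ball_subset_ball hr2.le p.2.1)))
    (by simpa using p.2.2)

end Crest.Agent.R132
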