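import Mathlib
import Crest.Prelude.Def_NumRangeMetric

/-!
Row 132 (complete Crouzeix theorem): shared definitions.
-/

set_option autoImplicit false

open scoped Matrix
open Metric Set

namespace Crest.Agent.R132

/-- `E` is a holomorphic functional calculus for the matrix `A` on the set `Ω`. -/
structure IsCalc {n : ℕ} (Ω : Set ℂ) (A : Matrix (Fin n) (Fin n) ℂ)
    (E : (ℂ → ℂ) → Matrix (Fin n) (Fin n) ℂ) : Prop where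
  congr : ∀ φ ψ : ℂ → ℂ, EqOn φ ψ Ω → E φ = E ψ
  add : ∀ φ ψ : ℂ → ℂ, DifferentiableOn ℂ φ Ω → DifferentiableOn ℂ ψ Ω →
    E (fun z => φ z + ψ z) = E φ + E ψ
  smul : ∀ (c : ℂ) (φ : ℂ → ℂ), DifferentiableOn ℂ φ Ω → E (fun z => c * φ z) = c • E φ
  one : E (fun _ => 1) = 1
  mul_id : ∀ φ : ℂ → ℂ, DifferentiableOn ℂ φ Ω → E (fun z => z * φ z) = A * E φ

/-- The calculus `E` is completely bounded by `C` on `Ω`: for a matrix valued holomorphic `F`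
with operator norm at most `M` on `Ω`, the block operator `(E (F i j))_{i j}` has norm at most
`C * M`.  Everything is written with explicit sums of squares. -/
def CbBound {n : ℕ} (Ω : Set ℂ) (E : (ℂ → ℂ) → Matrix (Fin n) (Fin n) ℂ) (C : ℝ) : Prop :=
  ∀ (m : ℕ) (F : ℂ → Matrix (Fin m) (Fin m) ℂ),
    (∀ i j, DifferentiableOn ℂ (fun z => F z i j) Ω) →
    ∀ M : ℝ, 0 ≤ M →
      (∀ z ∈ Ω, ∀ u : Fin m → ℂ, ∑ i, ‖(F z *ᵥ u) i‖ ^ 2 ≤ M ^ 2 * ∑ j, ‖u j‖ ^ 2) →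
      ∀ y : Fin m → Fin n → ℂ,
        ∑ i, ∑ a, ‖(∑ j, E (fun z => F z i j) *ᵥ y j) a‖ ^ 2
          ≤ C ^ 2 * M ^ 2 * ∑ j, ∑ a, ‖y j a‖ ^ 2

/-- Data of an exterior conformal map `Γ w = γ w / w` (`w = 1 / t`), defined on the punctured disc
of radius `ρ > 1`, omitting `K`, whose unit level curve is convex, surrounds `K`, and lies
(together with the annulus `1 ≤ ‖w‖ < ρ`) in `Ω`. -/
structure ExtMap (K Ω : Set ℂ) (γ : ℂ → ℂ) (ρ : ℝ) : Prop where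
  one_lt : 1 < ρ
  diff : DifferentiableOn ℂ γ (ball 0 ρ)
  inj : ∀ w ∈ ball (0 : ℂ) ρ, ∀ w' ∈ ball (0 : ℂ) ρ, w ≠ w' → w' * γ w ≠ w * γ w'
  deriv_ne : ∀ w ∈ ball (0 : ℂ) ρ, γ w - w * deriv γ w ≠ 0
  notMem : ∀ w ∈ ball (0 : ℂ) ρ, ∀ a ∈ K, γ w ≠ a * w
  mem : ∀ w : ℂ, 1 ≤ ‖w‖ → ‖w‖ < ρ → γ w / w ∈ Ω
  pos₁ : ∀ w : ℂ, ‖w‖ = 1 → ∀ a ∈ K, 0 ≤ ((γ w - a * w) / (γ w - w * deriv γ w)).re
  pos₂ : ∀ w w' : ℂ, ‖w‖ = 1 → ‖w'‖ = 1 →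
    0 ≤ ((γ w - γ w' / w' * w) / (γ w - w * deriv γ w)).re

end Crest.Agent.R132
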