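import Mathlib
import Crest.Agent.R132.Defs

/-!
Row 132: consequences of `IsCalc`.
-/

set_option autoImplicit false

open scoped Matrix
open Metric Set Crest.AnalysisR.NumRange Polynomial

namespace Crest.Agent.R132

variable {n : ℕ}

theorem aeval_prod_roots_charpoly (B : Matrix (Fin n) (Fin n) ℂ) :
    aeval B ((B.charpoly.roots.map (fun r => X - C r)).prod) = 0 := by
  rw [← (IsAlgClosed.splits B.charpoly).eq_prod_roots_of_monic B.charpoly_monic]
  exact B.aeval_self_charpoly

theorem mem_spectrum_of_mem_roots (B : Matrix (Fin n) (Fin n) ℂ) {r : ℂ}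
    (hr : r ∈ B.charpoly.roots) : r ∈ spectrum ℂ B :=
  Matrix.mem_spectrum_iff_isRoot_charpoly.2 (isRoot_of_mem_roots hr)

theorem dslope_ne_zero_of_injOn {V : Set ℂ} {γ : ℂ → ℂ} (hinj : InjOn γ V)
    (hγ' : ∀ z ∈ V, deriv γ z ≠ 0) {μ z : ℂ} (hμ : μ ∈ V) (hz : z ∈ V) : dslope γ μ z ≠ 0 := by
  by_cases h : z = μ
  · subst h; rw [dslope_same]; exact hγ' z hz
  · intro h0
    have := sub_smul_dslope γ μ z
    rw [h0, smul_zero] at this
    exact h (hinj hz hμ (sub_eq_zero.1 this.symm))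

/-- Uniqueness principle: a linear functional `D` on holomorphic functions on `V` that kills
constants and turns multiplication by a univalent coordinate `γ` into multiplication by a matrix
`B` whose spectrum lies in `γ '' V` vanishes. -/
theorem vanish {V : Set ℂ} (hV : IsOpen V) {γ : ℂ → ℂ} (hγ : DifferentiableOn ℂ γ V)
    (hinj : InjOn γ V) (hγ' : ∀ z ∈ V, deriv γ z ≠ 0)
    {B : Matrix (Fin n) (Fin n) ℂ} (hB : spectrum ℂ B ⊆ γ '' V)
    (D : (ℂ → ℂ) → Matrix (Fin n) (Fin n) ℂ)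
    (hcongr : ∀ φ ψ : ℂ → ℂ, EqOn φ ψ V → D φ = D ψ)
    (hadd : ∀ φ ψ : ℂ → ℂ, DifferentiableOn ℂ φ V → DifferentiableOn ℂ ψ V →
      D (fun z => φ z + ψ z) = D φ + D ψ)
    (hsmul : ∀ (c : ℂ) (φ : ℂ → ℂ), DifferentiableOn ℂ φ V → D (fun z => c * φ z) = c • D φ)
    (hone : D (fun _ => 1) = 0)
    (hmul : ∀ φ : ℂ → ℂ, DifferentiableOn ℂ φ V → D (fun z => γ z * φ z) = B * D φ)
    (φ : ℂ → ℂ) (hφ : DifferentiableOn ℂ φ V) : D φ = 0 := by
  have key : ∀ s : Multiset ℂ, (∀ r ∈ s, r ∈ γ '' V) → ∀ φ : ℂ → ℂ, DifferentiableOn ℂ φ V →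
      ∃ ψ : ℂ → ℂ, DifferentiableOn ℂ ψ V ∧
        D φ = aeval B ((s.map (fun r => X - C r)).prod) * D ψ := by
    intro s
    induction s using Multiset.induction_on with
    | empty => intro _ φ hφ; exact ⟨φ, hφ, by simp⟩
    | cons r s ih =>
      intro hs φ hφ
      obtain ⟨ψ, hψ, hD⟩ := ih (fun x hx => hs x (Multiset.mem_cons_of_mem hx)) φ hφ
      obtain ⟨μ, hμ, rfl⟩ := hs r (Multiset.mem_cons_self _ _)
      have hne : ∀ z ∈ V, dslope γ μ z ≠ 0 := fun z hz => dslope_ne_zero_of_injOn hinj hγ' hμ hz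
      have h1 : DifferentiableOn ℂ (fun z => dslope ψ μ z / dslope γ μ z) V :=
        ((Complex.differentiableOn_dslope (hV.mem_nhds hμ)).2 hψ).div
          ((Complex.differentiableOn_dslope (hV.mem_nhds hμ)).2 hγ) hne
      refine ⟨_, h1, ?_⟩
      set ψ₁ : ℂ → ℂ := fun z => dslope ψ μ z / dslope γ μ z with hψ₁
      have e : EqOn ψ (fun z => (ψ μ * 1 + γ z * ψ₁ z) + (-γ μ) * ψ₁ z) V := by
        intro z hz
        have a1 := sub_smul_dslope ψ μ z
        have a2 := sub_smul_dslope γ μ z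
        simp only [smul_eq_mul] at a1 a2
        have := hne z hz
        simp only [hψ₁]
        field_simp
        linear_combination (-(dslope γ μ z)) * a1 + (dslope ψ μ z) * a2
      have hc : DifferentiableOn ℂ (fun _ : ℂ => (1 : ℂ)) V := differentiableOn_const _
      have e2 : D ψ = (B - algebraMap ℂ _ (γ μ)) * D ψ₁ := by
        rw [hcongr _ _ e, hadd _ _ ((hc.const_mul _).fun_add (hγ.fun_mul h1)) (h1.const_mul _),
          hadd _ _ (hc.const_mul _) (hγ.fun_mul h1), hsmul _ _ hc, hone, hmul _ h1, hsmul _ _ h1,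
          sub_mul, ← Algebra.smul_def]
        simp [sub_eq_add_neg]
      rw [hD, e2, Multiset.map_cons, Multiset.prod_cons, mul_comm (X - C (γ μ)), map_mul,
        mul_assoc]
      simp
  obtain ⟨ψ, -, h⟩ := key B.charpoly.roots
    (fun r hr => hB (mem_spectrum_of_mem_roots B hr)) φ hφ
  rw [h, aeval_prod_roots_charpoly, zero_mul]

/-- Division of a holomorphic function by a polynomial whose roots it shares. -/
theorem exists_eq_prod_mul {Ω : Set ℂ} (hΩ : IsOpen Ω) (s : Multiset ℂ) (hs : ∀ r ∈ s, r ∈ Ω)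
    (D : ℂ → ℂ) (hD : DifferentiableOn ℂ D Ω)
    (hord : ∀ r ∈ s, ((s.count r : ℕ) : ℕ∞) ≤ analyticOrderAt D r) :
    ∃ ψ : ℂ → ℂ, DifferentiableOn ℂ ψ Ω ∧
      ∀ z, D z = ((s.map (fun r => X - C r)).prod).eval z * ψ z := by
  classical
  induction s using Multiset.induction_on generalizing D with
  | empty => exact ⟨D, hD, by simp⟩
  | cons μ s ih =>
    have hμ : μ ∈ Ω := hs μ (Multiset.mem_cons_self _ _)
    have han : ∀ r ∈ Ω, AnalyticAt ℂ D r := fun r hr => hD.analyticAt (hΩ.mem_nhds hr)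
    have h0 : D μ = 0 := by
      have h1 := hord μ (Multiset.mem_cons_self _ _)
      rw [Multiset.count_cons_self] at h1
      by_contra hne
      rw [analyticOrderAt_eq_zero.2 (Or.inr hne)] at h1
      simp at h1
    have hD1 : DifferentiableOn ℂ (dslope D μ) Ω :=
      (Complex.differentiableOn_dslope (hΩ.mem_nhds hμ)).2 hD
    have hfac : D = (fun z => z - μ) * dslope D μ := by
      funext z
      have := sub_smul_dslope D μ z
      simp only [smul_eq_mul, h0, sub_zero] at this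
      simp [this]
    obtain ⟨ψ, hψ, hψ'⟩ := ih (fun r hr => hs r (Multiset.mem_cons_of_mem hr)) (dslope D μ) hD1
      (by
        intro r hr
        have hrΩ : r ∈ Ω := hs r (Multiset.mem_cons_of_mem hr)
        have h1 := hord r (Multiset.mem_cons_of_mem hr)
        have h2 : analyticOrderAt D r
            = analyticOrderAt (fun z : ℂ => z - μ) r + analyticOrderAt (dslope D μ) r := by
          conv_lhs => rw [hfac]
          exact analyticOrderAt_mul (by fun_prop) (hD1.analyticAt (hΩ.mem_nhds hrΩ))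
        rw [h2] at h1
        by_cases hrμ : r = μ
        · subst hrμ
          rw [Multiset.count_cons_self] at h1
          have h3 : analyticOrderAt (fun z : ℂ => z - r) r = 1 :=
            analyticOrderAt_id_sub_const_self
          rw [h3, Nat.cast_add, Nat.cast_one, add_comm (1 : ℕ∞)] at h1
          exact (ENat.add_le_add_iff_right ENat.one_ne_top).1 h1
        · rw [Multiset.count_cons_of_ne hrμ] at h1
          have h3 : analyticOrderAt (fun z : ℂ => z - μ) r = 0 :=
            analyticOrderAt_id_sub_const_of_ne hrμ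
          rwa [h3, zero_add] at h1)
    refine ⟨ψ, hψ, fun z => ?_⟩
    have := congrFun hfac z
    rw [this, Pi.mul_apply, hψ' z, Multiset.map_cons, Multiset.prod_cons, eval_mul]
    simp [mul_assoc]

namespace IsCalc

variable {Ω : Set ℂ} {A : Matrix (Fin n) (Fin n) ℂ} {E : (ℂ → ℂ) → Matrix (Fin n) (Fin n) ℂ}

theorem const (h : IsCalc Ω A E) (c : ℂ) : E (fun _ => c) = c • (1 : Matrix (Fin n) (Fin n) ℂ) := by
  have := h.smul c (fun _ => 1) (differentiableOn_const _)
  rw [h.one] at this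
  simpa using this

theorem sum (h : IsCalc Ω A E) {ι : Type*} (s : Finset ι) (φ : ι → ℂ → ℂ)
    (hφ : ∀ i ∈ s, DifferentiableOn ℂ (φ i) Ω) :
    E (fun z => ∑ i ∈ s, φ i z) = ∑ i ∈ s, E (φ i) := by
  classical
  induction s using Finset.induction_on with
  | empty => simpa using h.const 0
  | insert i s hi ih =>
    simp only [Finset.sum_insert hi]
    rw [h.add _ _ (hφ i (Finset.mem_insert_self _ _))
      (DifferentiableOn.fun_sum fun j hj => hφ j (Finset.mem_insert_of_mem hj)),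
      ih fun j hj => hφ j (Finset.mem_insert_of_mem hj)]

theorem sub (h : IsCalc Ω A E) (φ ψ : ℂ → ℂ) (hφ : DifferentiableOn ℂ φ Ω)
    (hψ : DifferentiableOn ℂ ψ Ω) : E (fun z => φ z - ψ z) = E φ - E ψ := by
  have e : (fun z => φ z - ψ z) = fun z => φ z + (-1) * ψ z := by funext z; ring
  rw [e, h.add _ _ hφ (hψ.const_mul _), h.smul _ _ hψ]
  simp [sub_eq_add_neg]

theorem poly_mul (h : IsCalc Ω A E) (q : Polynomial ℂ) (φ : ℂ → ℂ) (hφ : DifferentiableOn ℂ φ Ω) :
    E (fun z => q.eval z * φ z) = Polynomial.aeval A q * E φ := by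
  induction q using Polynomial.induction_on with
  | C a => simp only [eval_C, aeval_C]; rw [h.smul a φ hφ, Algebra.smul_def]
  | add p q hp hq =>
    simp only [eval_add, add_mul, map_add]
    rw [h.add _ _ (p.differentiable.differentiableOn.fun_mul hφ)
      (q.differentiable.differentiableOn.fun_mul hφ), hp, hq]
  | monomial k a ih =>
    have e : (fun z => (C a * X ^ (k + 1)).eval z * φ z)
        = fun z => z * ((C a * X ^ k).eval z * φ z) := by
      funext z; simp only [eval_mul, eval_C, eval_pow, eval_X]; ring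
    rw [e, h.mul_id _ ((C a * X ^ k).differentiable.differentiableOn.fun_mul hφ), ih, ← mul_assoc]
    congr 1
    have : (C a * X ^ (k + 1) : ℂ[X]) = X * (C a * X ^ k) := by ring
    rw [this, map_mul (aeval A) X, aeval_X]

theorem poly (h : IsCalc Ω A E) (q : Polynomial ℂ) :
    E (fun z => q.eval z) = Polynomial.aeval A q := by
  have := h.poly_mul q (fun _ => 1) (differentiableOn_const _)
  rw [h.one] at this
  simpa using this

theorem mul (h : IsCalc Ω A E) (hΩ : IsOpen Ω) (hA : spectrum ℂ A ⊆ Ω) (φ ψ : ℂ → ℂ)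
    (hφ : DifferentiableOn ℂ φ Ω) (hψ : DifferentiableOn ℂ ψ Ω) :
    E (fun z => φ z * ψ z) = E φ * E ψ := by
  have := vanish (γ := fun z => z) (B := A) hΩ differentiableOn_id (fun _ _ _ _ h => h)
    (by simp) (by simpa using hA) (fun φ => E (fun z => φ z * ψ z) - E φ * E ψ)
    (fun φ₁ φ₂ e => by
      rw [h.congr _ _ e, h.congr (fun z => φ₁ z * ψ z) (fun z => φ₂ z * ψ z)
        (fun z hz => by simp only [e hz])])
    (fun φ₁ φ₂ h₁ h₂ => by
      simp only [add_mul]
      rw [h.add _ _ (h₁.fun_mul hψ) (h₂.fun_mul hψ), h.add _ _ h₁ h₂, add_mul]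
      abel)
    (fun c φ₁ h₁ => by
      simp only [mul_assoc]
      rw [h.smul _ _ (h₁.fun_mul hψ), h.smul _ _ h₁, smul_sub, smul_mul_assoc])
    (by simp [h.one])
    (fun φ₁ h₁ => by
      simp only [mul_assoc]
      rw [h.mul_id _ (h₁.fun_mul hψ), h.mul_id _ h₁, mul_sub, mul_assoc])
    φ hφ
  exact sub_eq_zero.1 this

theorem agrees (h : IsCalc Ω A E) (hΩ : IsOpen Ω) (hA : spectrum ℂ A ⊆ Ω) (φ : ℂ → ℂ)
    (hφ : DifferentiableOn ℂ φ Ω) (q : Polynomial ℂ) (hq : AgreesOnSpectrum A φ q) :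
    E φ = Polynomial.aeval A q := by
  classical
  have hqd : DifferentiableOn ℂ (fun z => q.eval z) Ω := q.differentiable.differentiableOn
  have hD : DifferentiableOn ℂ (fun z => φ z - q.eval z) Ω := hφ.sub hqd
  obtain ⟨ψ, hψ, hψ'⟩ := exists_eq_prod_mul hΩ A.charpoly.roots
    (fun r hr => hA (mem_spectrum_of_mem_roots A hr)) _ hD (by
      intro r hr
      have hr' := mem_spectrum_of_mem_roots A hr
      have hrΩ := hΩ.mem_nhds (hA hr')
      have h1 : A.charpoly.roots.count r ≤ n := by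
        refine (Multiset.count_le_card _ _).trans ((card_roots' _).trans ?_)
        simp
      refine (Nat.cast_le.2 h1).trans ?_
      rw [natCast_le_analyticOrderAt_iff_iteratedDeriv_eq_zero (hD.analyticAt hrΩ)]
      intro i hi
      rw [iteratedDeriv_fun_sub (hφ.analyticAt hrΩ).contDiffAt (hqd.analyticAt hrΩ).contDiffAt,
        hq r hr' i hi, sub_self])
  have e : E (fun z => φ z - q.eval z) = 0 := by
    rw [funext hψ', h.poly_mul _ _ hψ, aeval_prod_roots_charpoly, zero_mul]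
  rw [h.sub _ _ hφ hqd, h.poly] at e
  exact sub_eq_zero.1 e

/-- Spectral mapping (the inclusion that we need). -/
theorem spectrum_subset (h : IsCalc Ω A E) (hΩ : IsOpen Ω) (hA : spectrum ℂ A ⊆ Ω) (φ : ℂ → ℂ)
    (hφ : DifferentiableOn ℂ φ Ω) : spectrum ℂ (E φ) ⊆ φ '' Ω := by
  intro l hl
  by_contra hn
  have hne : ∀ z ∈ Ω, l - φ z ≠ 0 := fun z hz h0 => hn ⟨z, hz, (sub_eq_zero.1 h0).symm⟩
  have h1 : DifferentiableOn ℂ (fun z => l - φ z) Ω := (differentiableOn_const _).sub hφ
  have h2 : DifferentiableOn ℂ (fun z => (l - φ z)⁻¹) Ω := h1.inv hne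
  have h3 := h.mul hΩ hA _ _ h1 h2
  rw [h.congr _ (fun _ => 1) (fun z hz => mul_inv_cancel₀ (hne z hz)), h.one,
    h.sub _ _ (differentiableOn_const _) hφ, h.const] at h3
  apply spectrum.mem_iff.1 hl
  rw [Algebra.algebraMap_eq_smul_one]
  exact IsUnit.of_mul_eq_one _ h3.symm

/-- All values of the calculus commute with each other. -/
theorem comm (h : IsCalc Ω A E) (hΩ : IsOpen Ω) (hA : spectrum ℂ A ⊆ Ω) (φ ψ : ℂ → ℂ)
    (hφ : DifferentiableOn ℂ φ Ω) (hψ : DifferentiableOn ℂ ψ Ω) :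
    E φ * E ψ = E ψ * E φ := by
  rw [← h.mul hΩ hA φ ψ hφ hψ, ← h.mul hΩ hA ψ φ hψ hφ]
  simp only [mul_comm]

end IsCalc

end Crest.Agent.R132
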