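import Mathlib

/-!
Row 132: finite dimensional linear algebra used in the core estimate
(Frobenius norms, a top singular vector).
-/

set_option autoImplicit false

open scoped Matrix ComplexOrder MatrixOrder ComplexConjugate InnerProductSpace
open Matrix

namespace Crest.Agent.R132

variable {α β : Type*} [Fintype α] [Fintype β]

/-- Squared Frobenius norm. -/
noncomputable def n2 (U : Matrix α β ℂ) : ℝ := (trace (Uᴴ * U)).re

theorem n2_eq_sum (U : Matrix α β ℂ) : n2 U = ∑ i, ∑ j, ‖U i j‖ ^ 2 := by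
  rw [Finset.sum_comm]
  simp only [n2, trace, diag, mul_apply, conjTranspose_apply, Complex.re_sum]
  refine Finset.sum_congr rfl fun j _ => Finset.sum_congr rfl fun i _ => ?_
  rw [Complex.star_def, ← Complex.normSq_eq_conj_mul_self, Complex.ofReal_re,
    Complex.normSq_eq_norm_sq]

theorem n2_nonneg (U : Matrix α β ℂ) : 0 ≤ n2 U := by
  rw [n2_eq_sum]; positivity

theorem n2_conjTranspose (U : Matrix α β ℂ) : n2 Uᴴ = n2 U := by
  rw [n2_eq_sum, n2_eq_sum, Finset.sum_comm]; simp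

theorem eq_zero_of_n2 {U : Matrix α β ℂ} (h : n2 U ≤ 0) : U = 0 := by
  rw [n2_eq_sum] at h
  have h0 : ∑ i, ∑ j, ‖U i j‖ ^ 2 = 0 := le_antisymm h (by positivity)
  ext i j
  have h1 := (Finset.sum_eq_zero_iff_of_nonneg (fun i _ => by positivity)).1 h0 i (Finset.mem_univ _)
  have h2 := (Finset.sum_eq_zero_iff_of_nonneg (fun j _ => by positivity)).1 h1 j (Finset.mem_univ _)
  simpa using h2

theorem two_re_mul_le (a b : ℂ) {l : ℝ} (hl : 0 < l) :
    2 * (a * b).re ≤ l * ‖a‖ ^ 2 + l⁻¹ * ‖b‖ ^ 2 := by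
  have h1 : (a * b).re ≤ ‖a‖ * ‖b‖ := (Complex.re_le_norm _).trans (norm_mul_le _ _)
  have h2 : 0 ≤ l⁻¹ * (l * ‖a‖ - ‖b‖) ^ 2 := by positivity
  have h3 : l⁻¹ * (l * ‖a‖ - ‖b‖) ^ 2 = l * ‖a‖ ^ 2 + l⁻¹ * ‖b‖ ^ 2 - 2 * (‖a‖ * ‖b‖) := by
    field_simp; ring
  linarith

theorem two_re_trace_le (U : Matrix α β ℂ) (V : Matrix β α ℂ) {l : ℝ} (hl : 0 < l) :
    2 * (trace (U * V)).re ≤ l * n2 U + l⁻¹ * n2 V := by
  rw [n2_eq_sum, n2_eq_sum, Finset.sum_comm (f := fun i j => ‖V i j‖ ^ 2)]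
  simp only [trace, diag, mul_apply, Complex.re_sum, Finset.mul_sum, ← Finset.sum_add_distrib]
  exact Finset.sum_le_sum fun i _ => Finset.sum_le_sum fun j _ => two_re_mul_le _ _ hl

theorem n2_block_le {γ : Type*} [Fintype γ] {P : Matrix γ γ ℂ} (hP : P.PosSemidef)
    (x : Matrix γ α ℂ) (y : Matrix γ β ℂ) {l : ℝ} (hl : 0 < l) :
    2 * n2 (xᴴ * P * y) ≤ l * n2 (xᴴ * P * x) + l⁻¹ * n2 (yᴴ * P * y) := by
  classical
  obtain ⟨C, rfl⟩ := CStarAlgebra.nonneg_iff_eq_star_mul_self.mp hP.nonneg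
  rw [star_eq_conjTranspose]
  set a := C * x
  set b := C * y
  have e1 : xᴴ * (Cᴴ * C) * y = aᴴ * b := by simp [a, b, Matrix.mul_assoc]
  have e2 : xᴴ * (Cᴴ * C) * x = aᴴ * a := by simp [a, Matrix.mul_assoc]
  have e3 : yᴴ * (Cᴴ * C) * y = bᴴ * b := by simp [b, Matrix.mul_assoc]
  rw [e1, e2, e3]
  have h := two_re_trace_le (a * aᴴ) (b * bᴴ) hl
  have f1 : n2 (aᴴ * b) = (trace (a * aᴴ * (b * bᴴ))).re := by
    unfold n2
    rw [conjTranspose_mul, conjTranspose_conjTranspose, ← Matrix.mul_assoc (a * aᴴ),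
      trace_mul_comm (a * aᴴ * b)]
    simp [Matrix.mul_assoc]
  have f2 : ∀ {δ : Type _} [Fintype δ] (c : Matrix γ δ ℂ), n2 (c * cᴴ) = n2 (cᴴ * c) := by
    intro δ _ c
    unfold n2
    rw [conjTranspose_mul, conjTranspose_mul, conjTranspose_conjTranspose,
      ← Matrix.mul_assoc (c * cᴴ), trace_mul_comm (c * cᴴ * c)]
    simp [Matrix.mul_assoc]
  have f2' : ∀ (c : Matrix γ β ℂ), n2 (c * cᴴ) = n2 (cᴴ * c) := by
    intro c
    unfold n2
    rw [conjTranspose_mul, conjTranspose_mul, conjTranspose_conjTranspose,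
      ← Matrix.mul_assoc (c * cᴴ), trace_mul_comm (c * cᴴ * c)]
    simp [Matrix.mul_assoc]
  rw [f1, ← f2 a, ← f2' b]
  exact h

/-- A top singular vector of an operator on a finite dimensional Hilbert space. -/
theorem exists_top_singular {E : Type*} [NormedAddCommGroup E] [InnerProductSpace ℂ E]
    [FiniteDimensional ℂ E] [Nontrivial E] (T : E →L[ℂ] E) :
    ∃ y : E, ‖y‖ = 1 ∧ ∀ u, ⟪T y, T u⟫_ℂ = ((‖T‖ ^ 2 : ℝ) : ℂ) * ⟪y, u⟫_ℂ := by
  have : CompleteSpace E := FiniteDimensional.complete ℂ E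
  have : ProperSpace E := FiniteDimensional.proper ℂ E
  obtain ⟨y, hy, hmax⟩ := (isCompact_sphere (0 : E) 1).exists_isMaxOn
    (NormedSpace.sphere_nonempty.2 zero_le_one) (f := fun y => ‖T y‖)
    (T.continuous.norm.continuousOn)
  have hy1 : ‖y‖ = 1 := by simpa using hy
  have hT : ‖T‖ = ‖T y‖ := by
    apply le_antisymm
    · refine T.opNorm_le_of_unit_norm (norm_nonneg _) fun u hu => ?_
      exact hmax (by simpa using hu)
    · simpa [hy1] using T.le_opNorm y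
  refine ⟨y, hy1, fun u => ?_⟩
  have key : (ContinuousLinearMap.adjoint T) (T y) = ((‖T‖ ^ 2 : ℝ) : ℂ) • y := by
    set z := (ContinuousLinearMap.adjoint T) (T y)
    have hz : ‖z‖ ≤ ‖T‖ ^ 2 := by
      calc ‖z‖ ≤ ‖ContinuousLinearMap.adjoint T‖ * ‖T y‖ := ContinuousLinearMap.le_opNorm _ _
        _ = ‖T‖ ^ 2 := by rw [LinearIsometryEquiv.norm_map, ← hT, sq]
    have hzy : ⟪z, y⟫_ℂ = ((‖T‖ ^ 2 : ℝ) : ℂ) := by
      rw [ContinuousLinearMap.adjoint_inner_left, inner_self_eq_norm_sq_to_K, ← hT]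
      simp
    have h2 : ‖z - ((‖T‖ ^ 2 : ℝ) : ℂ) • y‖ ^ 2 ≤ 0 := by
      rw [@norm_sub_sq ℂ, inner_smul_right, hzy, norm_smul, hy1]
      have : ‖z‖ ^ 2 ≤ (‖T‖ ^ 2) ^ 2 := by gcongr
      simp only [Complex.norm_real, mul_one, Real.norm_eq_abs, sq_abs]
      have e : RCLike.re (((‖T‖ ^ 2 : ℝ) : ℂ) * ((‖T‖ ^ 2 : ℝ) : ℂ)) = (‖T‖ ^ 2) ^ 2 := by
        rw [← Complex.ofReal_mul]; simp only [RCLike.re_to_complex, Complex.ofReal_re]; ring
      rw [e]
      linarith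
    have h3 : ‖z - ((‖T‖ ^ 2 : ℝ) : ℂ) • y‖ = 0 := by
      have := sq_nonneg ‖z - ((‖T‖ ^ 2 : ℝ) : ℂ) • y‖
      exact pow_eq_zero_iff two_ne_zero |>.1 (le_antisymm h2 this)
    exact sub_eq_zero.1 (norm_eq_zero.1 h3)
  rw [← ContinuousLinearMap.adjoint_inner_left, key, inner_smul_left]
  simp

/-- Matrices as a Euclidean space. -/
noncomputable def toEuc : Matrix α β ℂ ≃ₗ[ℂ] EuclideanSpace ℂ (α × β) where
  toFun U := WithLp.toLp 2 fun p => U p.1 p.2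
  invFun v := Matrix.of fun i j => v (i, j)
  map_add' _ _ := rfl
  map_smul' _ _ := rfl
  left_inv _ := rfl
  right_inv _ := rfl

theorem inner_toEuc (U V : Matrix α β ℂ) : ⟪toEuc U, toEuc V⟫_ℂ = trace (Uᴴ * V) := by
  simp only [PiLp.inner_apply, trace, diag, mul_apply, conjTranspose_apply]
  rw [Fintype.sum_prod_type, Finset.sum_comm]
  refine Finset.sum_congr rfl fun j _ => Finset.sum_congr rfl fun i _ => ?_
  simp [toEuc, mul_comm]

theorem norm_toEuc_sq (U : Matrix α β ℂ) : ‖toEuc U‖ ^ 2 = n2 U := by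
  rw [n2, ← inner_toEuc, inner_self_eq_norm_sq_to_K]
  norm_cast

/-- A top singular vector for a linear map on matrices. -/
theorem exists_top_singular_matrix [Nonempty α] [Nonempty β]
    (T : Matrix α β ℂ →ₗ[ℂ] Matrix α β ℂ) :
    ∃ k : ℝ, 0 ≤ k ∧ (∀ u, n2 (T u) ≤ k * n2 u) ∧
      ∃ y, n2 y = 1 ∧ ∀ u, trace ((T y)ᴴ * T u) = (k : ℂ) * trace (yᴴ * u) := by
  let T' : EuclideanSpace ℂ (α × β) →L[ℂ] EuclideanSpace ℂ (α × β) :=
    LinearMap.toContinuousLinearMap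
      ((toEuc (α := α) (β := β)).toLinearMap ∘ₗ T ∘ₗ (toEuc (α := α) (β := β)).symm.toLinearMap)
  have hT' : ∀ u, T' (toEuc u) = toEuc (T u) := fun u => by simp [T']
  obtain ⟨y, hy, h⟩ := exists_top_singular T'
  obtain ⟨y, rfl⟩ := toEuc.surjective y
  refine ⟨‖T'‖ ^ 2, by positivity, fun u => ?_, y, ?_, fun u => ?_⟩
  · rw [← norm_toEuc_sq, ← norm_toEuc_sq, ← hT', ← mul_pow]
    gcongr
    exact T'.le_opNorm _
  · rw [← norm_toEuc_sq, hy, one_pow]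
  · rw [← inner_toEuc, ← inner_toEuc, ← hT', ← hT', h]

end Crest.Agent.R132
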