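import Mathlib
import Crest.Agent.R132.CoreLin

/-!
Row 132: the algebraic core of the complete Crouzeix estimate.

`𝒞` is a commutative star algebra of "functions on the circle", `ev x` are the point evaluations,
`μ` is the mean, `ℋ` the subalgebra of boundary values of holomorphic functions.
-/

set_option autoImplicit false

open scoped Matrix ComplexOrder ComplexConjugate
open Matrix

namespace Crest.Agent.R132

section

variable {𝒞 : Type*} [CommRing 𝒞] [StarRing 𝒞] [Algebra ℂ 𝒞] [StarModule ℂ 𝒞]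
variable {α β γ : Type*} [Fintype α] [Fintype β] [Fintype γ]

/-- Constant matrices. -/
noncomputable def cst (𝒞 : Type*) [CommRing 𝒞] [Algebra ℂ 𝒞] (z : Matrix α β ℂ) : Matrix α β 𝒞 :=
  z.map (algebraMap ℂ 𝒞)

omit [Fintype α] [Fintype β] in
theorem cst_conjTranspose (z : Matrix α β ℂ) : (cst 𝒞 z)ᴴ = cst 𝒞 zᴴ := by
  ext i j
  simp only [cst, conjTranspose_apply, map_apply, algebraMap_star_comm]

omit [StarRing 𝒞] [StarModule ℂ 𝒞] [Fintype α] [Fintype γ] in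
theorem map_cst_mul (μ : 𝒞 →ₗ[ℂ] ℂ) (z : Matrix α β ℂ) (U : Matrix β γ 𝒞) :
    (cst 𝒞 z * U).map μ = z * U.map μ := by
  ext i j
  simp [cst, mul_apply, ← Algebra.smul_def]

omit [StarRing 𝒞] [StarModule ℂ 𝒞] [Fintype α] [Fintype γ] in
theorem map_mul_cst (μ : 𝒞 →ₗ[ℂ] ℂ) (U : Matrix α β 𝒞) (z : Matrix β γ ℂ) :
    (U * cst 𝒞 z).map μ = U.map μ * z := by
  ext i j
  simp only [cst, mul_apply, map_apply, map_sum]
  refine Finset.sum_congr rfl fun k _ => ?_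
  rw [mul_comm, ← Algebra.smul_def, map_smul, smul_eq_mul, mul_comm]

omit [StarRing 𝒞] [StarModule ℂ 𝒞] in
theorem trace_map_lin (μ : 𝒞 →ₗ[ℂ] ℂ) (U : Matrix α α 𝒞) : μ (trace U) = trace (U.map μ) := by
  simp [trace]

omit [StarModule ℂ 𝒞] in
theorem ev_trace (e : 𝒞 →⋆ₐ[ℂ] ℂ) (U : Matrix α β 𝒞) (V : Matrix β α 𝒞) :
    e (trace (U * V)) = trace (U.map e * V.map e) := by
  simp [trace, mul_apply]

omit [StarModule ℂ 𝒞] [Fintype α] [Fintype β] in
theorem map_ev_conjTranspose (e : 𝒞 →⋆ₐ[ℂ] ℂ) (U : Matrix α β 𝒞) :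
    Uᴴ.map e = (U.map e)ᴴ := by
  ext i j
  simp [map_star]

omit [StarModule ℂ 𝒞] [Fintype α] [Fintype γ] in
theorem map_ev_mul (e : 𝒞 →⋆ₐ[ℂ] ℂ) (U : Matrix α β 𝒞) (V : Matrix β γ 𝒞) :
    (U * V).map e = U.map e * V.map e := by
  ext i j
  simp [mul_apply]

omit [StarModule ℂ 𝒞] [Fintype α] [Fintype β] in
theorem map_ev_add (e : 𝒞 →⋆ₐ[ℂ] ℂ) (U V : Matrix α β 𝒞) :
    (U + V).map e = U.map e + V.map e := by
  ext i j
  simp

omit [StarModule ℂ 𝒞] [Fintype α] [Fintype β] in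
theorem map_ev_cst (e : 𝒞 →⋆ₐ[ℂ] ℂ) (z : Matrix α β ℂ) : (cst 𝒞 z).map e = z := by
  ext i j
  exact e.commutes _

/-- Mean squared Frobenius norm. -/
noncomputable def N2 (μ : 𝒞 →ₗ[ℂ] ℂ) (U : Matrix α β 𝒞) : ℝ := (μ (trace (Uᴴ * U))).re

omit [StarModule ℂ 𝒞] in
theorem ev_N2 (e : 𝒞 →⋆ₐ[ℂ] ℂ) (U : Matrix α β 𝒞) :
    (e (trace (Uᴴ * U))).re = n2 (U.map e) := by
  rw [ev_trace, map_ev_conjTranspose, n2]

omit [StarModule ℂ 𝒞] in
theorem N2_eq_sum (μ : 𝒞 →ₗ[ℂ] ℂ) (U : Matrix α β 𝒞) :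
    N2 μ U = ∑ i, ∑ j, (μ (star (U i j) * U i j)).re := by
  rw [Finset.sum_comm]
  simp [N2, trace, mul_apply]

end

/-- The hypotheses of the core estimate. -/
structure CoreData (𝒞 : Type*) [CommRing 𝒞] [StarRing 𝒞] [Algebra ℂ 𝒞] (X : Type*)
    (n ι : Type*) [Fintype n] [DecidableEq n] [Fintype ι] where
  ev : X → 𝒞 →⋆ₐ[ℂ] ℂ
  μ : 𝒞 →ₗ[ℂ] ℂ
  ℋ : Subalgebra ℂ 𝒞
  R : Matrix n n 𝒞
  Φ : Matrix ι ι 𝒞
  M : ℝ
  mono : ∀ f g, (∀ x, (ev x f).re ≤ (ev x g).re) → (μ f).re ≤ (μ g).re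
  μ_star : ∀ f, μ (star f) = star (μ f)
  μ_one : μ 1 = 1
  μ_mul : ∀ f ∈ ℋ, ∀ g ∈ ℋ, μ (f * g) = μ f * μ g
  R_mem : ∀ a b, R a b ∈ ℋ
  R_mean : R.map μ = 1
  R_pos : ∀ x, (R.map (ev x) + (R.map (ev x))ᴴ).PosSemidef
  Φ_le : ∀ x (U : Matrix ι ι ℂ), n2 (U * Φ.map (ev x)) ≤ M ^ 2 * n2 U
  faber : ∀ p ∈ ℋ, μ p = 0 → ∃ q, (∀ u ∈ ℋ, μ (q * u) = 0) ∧
    (μ (star q * q)).re ≤ (μ (star p * p)).re ∧
    ∀ i j, ((Φ i j * (star p + q)) • R).map μ
        = (Φ i j • R).map μ * ((star p + q) • R).map μ ∧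
      ((Φ i j * (star p + q)) • R).map μ
        = ((star p + q) • R).map μ * (Φ i j • R).map μ

namespace CoreData

variable {𝒞 : Type*} [CommRing 𝒞] [StarRing 𝒞] [Algebra ℂ 𝒞] [StarModule ℂ 𝒞] {X : Type*}
  {n ι : Type*} [Fintype n] [DecidableEq n] [Fintype ι] (D : CoreData 𝒞 X n ι)

/-- The "value at `A`" of a boundary function. -/
noncomputable def evm (v : 𝒞) : Matrix n n ℂ := (v • D.R).map D.μ

/-- The action of a matrix valued boundary function. -/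
noncomputable def act (V : Matrix ι ι 𝒞) (z : Matrix n ι ℂ) : Matrix n ι ℂ :=
  (D.R * cst 𝒞 z * V).map D.μ

omit [StarModule ℂ 𝒞] in
theorem evm_add (v w : 𝒞) : D.evm (v + w) = D.evm v + D.evm w := by
  ext a b; simp [evm, add_mul]

omit [StarModule ℂ 𝒞] in
theorem evm_sum {κ : Type*} (s : Finset κ) (v : κ → 𝒞) :
    D.evm (∑ k ∈ s, v k) = ∑ k ∈ s, D.evm (v k) := by
  ext a b; simp [evm, Finset.sum_mul, Matrix.sum_apply]

omit [StarModule ℂ 𝒞] in
theorem evm_mul_cst (v : 𝒞) (c : ℂ) : D.evm (v * algebraMap ℂ 𝒞 c) = c • D.evm v := by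
  ext a b
  simp only [evm, map_apply, Matrix.smul_apply, smul_eq_mul]
  rw [mul_comm v, mul_assoc, ← Algebra.smul_def, map_smul, smul_eq_mul]

omit [StarModule ℂ 𝒞] in
theorem evm_cst (c : ℂ) : D.evm (algebraMap ℂ 𝒞 c) = c • (1 : Matrix n n ℂ) := by
  have := D.evm_mul_cst 1 c
  rw [one_mul] at this
  rw [this, evm, one_smul, D.R_mean]

omit [StarModule ℂ 𝒞] in
theorem act_apply (V : Matrix ι ι 𝒞) (z : Matrix n ι ℂ) (a : n) (j : ι) :
    D.act V z a j = ∑ i, ∑ b, D.evm (V i j) a b * z b i := by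
  simp only [act, evm, cst, map_apply, mul_apply, map_sum, Finset.sum_mul, Matrix.smul_apply,
    smul_eq_mul]
  refine Finset.sum_congr rfl fun i _ => Finset.sum_congr rfl fun b _ => ?_
  have : D.R a b * algebraMap ℂ 𝒞 (z b i) * V i j = z b i • (V i j * D.R a b) := by
    rw [Algebra.smul_def]; ring
  rw [this, map_smul, smul_eq_mul, mul_comm]

omit [StarModule ℂ 𝒞] in
theorem act_mul (V W : Matrix ι ι 𝒞)
    (h : ∀ i j k l, D.evm (V i j * W k l) = D.evm (W k l) * D.evm (V i j)) (z : Matrix n ι ℂ) :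
    D.act (V * W) z = D.act W (D.act V z) := by
  ext a j
  simp only [act_apply, mul_apply, evm_sum, h, Matrix.sum_apply, Finset.sum_mul, Finset.mul_sum]
  have : ∀ (F : ι → n → ι → n → ℂ), ∑ i, ∑ b, ∑ l, ∑ c, F i b l c = ∑ l, ∑ c, ∑ i, ∑ b, F i b l c := by
    intro F
    calc ∑ i, ∑ b, ∑ l, ∑ c, F i b l c = ∑ i, ∑ l, ∑ b, ∑ c, F i b l c :=
          Finset.sum_congr rfl fun i _ => Finset.sum_comm
      _ = ∑ l, ∑ i, ∑ b, ∑ c, F i b l c := Finset.sum_comm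
      _ = ∑ l, ∑ i, ∑ c, ∑ b, F i b l c :=
          Finset.sum_congr rfl fun l _ => Finset.sum_congr rfl fun i _ => Finset.sum_comm
      _ = ∑ l, ∑ c, ∑ i, ∑ b, F i b l c := Finset.sum_congr rfl fun l _ => Finset.sum_comm
  rw [this]
  simp only [mul_assoc]

/-- `act V` as a linear map. -/
noncomputable def actLin (V : Matrix ι ι 𝒞) : Matrix n ι ℂ →ₗ[ℂ] Matrix n ι ℂ where
  toFun := D.act V
  map_add' y z := by
    ext a j
    simp [act_apply, mul_add, Finset.sum_add_distrib]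
  map_smul' c y := by
    ext a j
    simp only [act_apply, Matrix.smul_apply, smul_eq_mul, RingHom.id_apply, Finset.mul_sum]
    refine Finset.sum_congr rfl fun i _ => Finset.sum_congr rfl fun b _ => by ring

omit [StarModule ℂ 𝒞] in
theorem μ_cst (c : ℂ) : D.μ (algebraMap ℂ 𝒞 c) = c := by
  rw [Algebra.algebraMap_eq_smul_one, map_smul, D.μ_one, smul_eq_mul, mul_one]

theorem trace_act (z z' : Matrix n ι ℂ) (V : Matrix ι ι 𝒞) :
    trace (z'ᴴ * D.act V z) = D.μ (trace ((cst 𝒞 z')ᴴ * D.R * cst 𝒞 z * V)) := by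
  rw [trace_map_lin, cst_conjTranspose, Matrix.mul_assoc, Matrix.mul_assoc, map_cst_mul, act,
    Matrix.mul_assoc]

theorem sandwich_mem (z z' : Matrix n ι ℂ) (i j : ι) :
    ((cst 𝒞 z')ᴴ * D.R * cst 𝒞 z) i j ∈ D.ℋ := by
  rw [cst_conjTranspose]
  simp only [mul_apply, cst, map_apply]
  exact D.ℋ.sum_mem fun b _ => D.ℋ.mul_mem (D.ℋ.sum_mem fun a _ =>
    D.ℋ.mul_mem (D.ℋ.algebraMap_mem _) (D.R_mem _ _)) (D.ℋ.algebraMap_mem _)

theorem sandwich_mean (z z' : Matrix n ι ℂ) :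
    ((cst 𝒞 z')ᴴ * D.R * cst 𝒞 z).map D.μ = z'ᴴ * z := by
  rw [cst_conjTranspose, map_mul_cst, map_cst_mul, D.R_mean, Matrix.mul_one]

omit [StarModule ℂ 𝒞] in
theorem μ_trace_mul {α β : Type*} [Fintype α] [Fintype β] (U : Matrix α β 𝒞) (V : Matrix β α 𝒞)
    (hU : ∀ i j, U i j ∈ D.ℋ) (hV : ∀ i j, V i j ∈ D.ℋ) :
    D.μ (trace (U * V)) = trace (U.map D.μ * V.map D.μ) := by
  simp only [trace, diag, mul_apply, map_sum, map_apply]
  exact Finset.sum_congr rfl fun i _ => Finset.sum_congr rfl fun j _ =>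
    D.μ_mul _ (hU _ _) _ (hV _ _)

omit [StarModule ℂ 𝒞] in
theorem re_μ_star (f : 𝒞) : (D.μ (star f)).re = (D.μ f).re := by
  rw [D.μ_star]; simp

omit [StarModule ℂ 𝒞] in
theorem N2_nonneg {α β : Type*} [Fintype α] [Fintype β] (U : Matrix α β 𝒞) : 0 ≤ N2 D.μ U := by
  have := D.mono 0 (trace (Uᴴ * U)) fun x => by
    rw [ev_N2]; simpa using n2_nonneg _
  simpa [N2] using this

/-- The scalar energy identities behind the Faber step. -/
theorem scalar_step (c : ℂ) {p p' q : 𝒞} (hp : p ∈ D.ℋ) (hp' : p' ∈ D.ℋ) (h0 : D.μ p = 0)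
    (h0' : D.μ p' = 0) (hq : ∀ u ∈ D.ℋ, D.μ (q * u) = 0) :
    (D.μ (star (algebraMap ℂ 𝒞 c + p + star p') * (algebraMap ℂ 𝒞 c + p + star p'))).re
        = ‖c‖ ^ 2 + (D.μ (star p * p)).re + (D.μ (star p' * p')).re ∧
    (D.μ (star (algebraMap ℂ 𝒞 c + (star p' + q)) * (algebraMap ℂ 𝒞 c + (star p' + q)))).re
        = ‖c‖ ^ 2 + (D.μ (star p' * p')).re + (D.μ (star q * q)).re := by
  have hq0 : D.μ q = 0 := by simpa using hq 1 D.ℋ.one_mem
  have hs : ∀ f : 𝒞, D.μ f = 0 → D.μ (star f) = 0 := fun f hf => by rw [D.μ_star, hf, star_zero]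
  have hc : ∀ (a : ℂ) (f : 𝒞), D.μ f = 0 → D.μ (algebraMap ℂ 𝒞 a * f) = 0 := fun a f hf => by
    rw [← Algebra.smul_def, map_smul, hf, smul_zero]
  have hcc : D.μ (algebraMap ℂ 𝒞 (star c) * algebraMap ℂ 𝒞 c) = ((‖c‖ ^ 2 : ℝ) : ℂ) := by
    rw [← map_mul, μ_cst, Complex.star_def, ← Complex.normSq_eq_conj_mul_self,
      Complex.normSq_eq_norm_sq]
  have hpp : D.μ (p * p') = 0 := by rw [D.μ_mul _ hp _ hp', h0, zero_mul]
  have hqp : D.μ (q * p') = 0 := hq _ hp'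
  constructor
  · have e : star (algebraMap ℂ 𝒞 c + p + star p') * (algebraMap ℂ 𝒞 c + p + star p')
        = algebraMap ℂ 𝒞 (star c) * algebraMap ℂ 𝒞 c + star p * p + star p' * p'
          + algebraMap ℂ 𝒞 (star c) * p + algebraMap ℂ 𝒞 (star c) * star p'
          + algebraMap ℂ 𝒞 c * star p + algebraMap ℂ 𝒞 c * p' + star (p * p') + p * p' := by
      simp only [star_add, star_star, star_mul', algebraMap_star_comm]; ring
    rw [e]
    simp only [map_add, hcc, hc _ _ h0, hc _ _ h0', hc _ _ (hs _ h0), hc _ _ (hs _ h0'),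
      hs _ hpp, hpp, add_zero, Complex.add_re, Complex.ofReal_re]
  · have e : star (algebraMap ℂ 𝒞 c + (star p' + q)) * (algebraMap ℂ 𝒞 c + (star p' + q))
        = algebraMap ℂ 𝒞 (star c) * algebraMap ℂ 𝒞 c + star p' * p' + star q * q
          + algebraMap ℂ 𝒞 (star c) * q + algebraMap ℂ 𝒞 (star c) * star p'
          + algebraMap ℂ 𝒞 c * star q + algebraMap ℂ 𝒞 c * p' + star (q * p') + q * p' := by
      simp only [star_add, star_star, star_mul', algebraMap_star_comm]; ring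
    rw [e]
    simp only [map_add, hcc, hc _ _ hq0, hc _ _ h0', hc _ _ (hs _ hq0), hc _ _ (hs _ h0'),
      hs _ hqp, hqp, add_zero, Complex.add_re, Complex.ofReal_re]

/-- The Faber step. -/
theorem faber_step (z : Matrix n ι ℂ) :
    ∃ V : Matrix ι ι 𝒞,
      N2 D.μ V ≤ N2 D.μ ((cst 𝒞 z)ᴴ * (D.R + D.Rᴴ) * cst 𝒞 z) ∧
      N2 D.μ ((cst 𝒞 z)ᴴ * (D.R + D.Rᴴ) * cst 𝒞 z) = 2 * (trace (zᴴ * D.act V z)).re ∧
      4 * n2 (zᴴ * z) ≤ N2 D.μ ((cst 𝒞 z)ᴴ * (D.R + D.Rᴴ) * cst 𝒞 z) ∧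
      ∀ i j k l, D.evm (D.Φ i j * V k l) = D.evm (D.Φ i j) * D.evm (V k l) ∧
        D.evm (D.Φ i j * V k l) = D.evm (V k l) * D.evm (D.Φ i j) := by
  classical
  set u : Matrix ι ι 𝒞 := (cst 𝒞 z)ᴴ * D.R * cst 𝒞 z with hu
  set u₀ : Matrix ι ι ℂ := zᴴ * z with hu₀
  have hmean : ∀ i j, D.μ (u i j) = u₀ i j := fun i j =>
    congrFun (congrFun (D.sandwich_mean z z) i) j
  have hherm : ∀ i j, star (u₀ j i) = u₀ i j := fun i j =>
    congrFun (congrFun (isHermitian_conjTranspose_mul_self z) i) j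
  set p : Matrix ι ι 𝒞 := fun i j => u i j - algebraMap ℂ 𝒞 (u₀ i j) with hp
  have hpH : ∀ i j, p i j ∈ D.ℋ := fun i j =>
    D.ℋ.sub_mem (D.sandwich_mem z z i j) (D.ℋ.algebraMap_mem _)
  have hp0 : ∀ i j, D.μ (p i j) = 0 := fun i j => by
    simp only [hp, map_sub, hmean, μ_cst, sub_self]
  choose q hq1 hq2 hq3 using fun i j => D.faber (p j i) (hpH j i) (hp0 j i)
  have hα : (cst 𝒞 z)ᴴ * (D.R + D.Rᴴ) * cst 𝒞 z = u + uᴴ := by
    simp only [hu, Matrix.mul_add, Matrix.add_mul, conjTranspose_mul, conjTranspose_conjTranspose,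
      Matrix.mul_assoc]
  have hα' : ∀ i j, (u + uᴴ) i j = algebraMap ℂ 𝒞 (2 * u₀ i j) + p i j + star (p j i) := by
    intro i j
    simp only [hp, Matrix.add_apply, conjTranspose_apply, star_sub, ← algebraMap_star_comm, hherm,
      map_mul, map_ofNat]
    ring
  rw [hα]
  set V : Matrix ι ι 𝒞 := fun i j => algebraMap ℂ 𝒞 (2 * u₀ i j) + (star (p j i) + q i j) with hV
  have hs := fun i j => D.scalar_step (2 * u₀ i j) (hpH i j) (hpH j i) (hp0 i j) (hp0 j i) (hq1 i j)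
  have hNα : N2 D.μ (u + uᴴ) = ∑ i, ∑ j, (‖2 * u₀ i j‖ ^ 2 + (D.μ (star (p i j) * p i j)).re
      + (D.μ (star (p j i) * p j i)).re) := by
    rw [N2_eq_sum]
    exact Finset.sum_congr rfl fun i _ => Finset.sum_congr rfl fun j _ => by
      rw [hα', (hs i j).1]
  have hpn : ∀ i j, 0 ≤ (D.μ (star (p i j) * p i j)).re := fun i j => by
    have := D.mono 0 (star (p i j) * p i j) fun x => by
      rw [map_zero, map_mul, map_star, Complex.star_def, ← Complex.normSq_eq_conj_mul_self]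
      simpa using Complex.normSq_nonneg _
    simpa using this
  refine ⟨V, ?_, ?_, ?_, ?_⟩
  · rw [hNα, N2_eq_sum]
    have e : ∑ i, ∑ j, (‖2 * u₀ i j‖ ^ 2 + (D.μ (star (p i j) * p i j)).re
        + (D.μ (star (p j i) * p j i)).re) = ∑ i, ∑ j, (‖2 * u₀ i j‖ ^ 2
        + (D.μ (star (p j i) * p j i)).re + (D.μ (star (p j i) * p j i)).re) := by
      simp only [Finset.sum_add_distrib]
      rw [Finset.sum_comm (f := fun i j => (D.μ (star (p i j) * p i j)).re)]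
    rw [e]
    refine Finset.sum_le_sum fun i _ => Finset.sum_le_sum fun j _ => ?_
    simp only [hV]
    rw [(hs i j).2]
    linarith [hq2 i j]
  · have e1 : D.act V z = D.act (u + uᴴ) z := by
      ext a j
      simp only [act_apply]
      refine Finset.sum_congr rfl fun i _ => Finset.sum_congr rfl fun b _ => ?_
      congr 1
      have h1 : D.μ (p i j * D.R a b) = 0 := by
        rw [D.μ_mul _ (hpH i j) _ (D.R_mem a b), hp0, zero_mul]
      have h2 : D.μ (q i j * D.R a b) = 0 := hq1 i j _ (D.R_mem a b)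
      rw [hα']
      simp only [evm, hV, map_apply, Matrix.smul_apply, smul_eq_mul, add_mul, map_add, h1, h2, add_zero]
    rw [e1, trace_act, ← hu]
    have hh : (u + uᴴ)ᴴ = u + uᴴ := by
      rw [conjTranspose_add, conjTranspose_conjTranspose, add_comm]
    have e2 : trace (uᴴ * (u + uᴴ)) = star (trace (u * (u + uᴴ))) := by
      rw [← trace_conjTranspose, conjTranspose_mul u, hh, trace_mul_comm]
    rw [N2, hh, Matrix.add_mul, trace_add, map_add, Complex.add_re, e2, re_μ_star]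
    ring
  · rw [hNα, n2_eq_sum, Finset.mul_sum]
    refine Finset.sum_le_sum fun i _ => ?_
    rw [Finset.mul_sum]
    refine Finset.sum_le_sum fun j _ => ?_
    have : ‖2 * u₀ i j‖ ^ 2 = 4 * ‖u₀ i j‖ ^ 2 := by
      rw [norm_mul, mul_pow]; norm_num
    linarith [hpn i j, hpn j i]
  · intro i j k l
    have h := hq3 k l i j
    simp only [hV, mul_add (D.Φ i j) (algebraMap ℂ 𝒞 _), evm_add _ (algebraMap ℂ 𝒞 _),
      evm_add _ (D.Φ i j * algebraMap ℂ 𝒞 _), evm_mul_cst, evm_cst, Matrix.mul_add,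
      Matrix.add_mul, Matrix.mul_smul, Matrix.smul_mul, Matrix.mul_one, Matrix.one_mul]
    exact ⟨congrArg _ h.1, congrArg _ h.2⟩

theorem core (y : Matrix n ι ℂ) : n2 (D.act D.Φ y) ≤ 4 * D.M ^ 2 * n2 y := by
  classical
  rcases isEmpty_or_nonempty n with hn | hn
  · simp [n2_eq_sum]
  rcases isEmpty_or_nonempty ι with hι | hι
  · simp [n2_eq_sum]
  obtain ⟨k, hk0, hk, y₀, hy₀, hsing⟩ := exists_top_singular_matrix (D.actLin D.Φ)
  suffices h : k ≤ 4 * D.M ^ 2 from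
    (hk y).trans (mul_le_mul_of_nonneg_right h (n2_nonneg _))
  clear y
  by_contra hlt
  rw [not_le] at hlt
  have hkpos : 0 < k := lt_of_le_of_lt (by positivity) hlt
  change ∀ u, trace ((D.act D.Φ y₀)ᴴ * D.act D.Φ u) = (k : ℂ) * trace (y₀ᴴ * u) at hsing
  set x := D.act D.Φ y₀ with hx
  have hxn : n2 x = k := by
    rw [n2, hsing, Complex.re_ofReal_mul, ← n2, hy₀, mul_one]
  obtain ⟨V, hV1, hV2, hV3, hV4⟩ := D.faber_step x
  obtain ⟨W, hW1, hW2, -, hW4⟩ := D.faber_step y₀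
  set P := D.R + D.Rᴴ with hP
  set X₀ := cst 𝒞 x
  set Y₀ := cst 𝒞 y₀
  set ℓ := X₀ᴴ * D.R * Y₀ with hℓ
  set ℓ' := Y₀ᴴ * D.R * X₀ with hℓ'
  set a := N2 D.μ (X₀ᴴ * P * X₀) with ha
  set b := N2 D.μ (Y₀ᴴ * P * Y₀) with hb
  set l := N2 D.μ ℓ with hl
  -- step 1
  have S1 : 2 * N2 D.μ (X₀ᴴ * P * Y₀) ≤ k⁻¹ * a + k * b := by
    have := D.mono ((2 : ℂ) • trace ((X₀ᴴ * P * Y₀)ᴴ * (X₀ᴴ * P * Y₀)))
      (((k⁻¹ : ℝ) : ℂ) • trace ((X₀ᴴ * P * X₀)ᴴ * (X₀ᴴ * P * X₀))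
        + (k : ℂ) • trace ((Y₀ᴴ * P * Y₀)ᴴ * (Y₀ᴴ * P * Y₀))) fun t => by
      have h := n2_block_le (D.R_pos t) x y₀ (inv_pos.2 hkpos)
      rw [inv_inv] at h
      simp only [map_add, map_smul, smul_eq_mul, Complex.add_re, Complex.re_ofReal_mul, ev_N2,
        map_ev_mul, map_ev_conjTranspose, map_ev_add, X₀, Y₀, map_ev_cst, hP]
      have e : ∀ c : ℂ, (2 * c).re = 2 * c.re := fun c => by simp
      rw [e, ev_N2]
      simpa only [map_ev_mul, map_ev_conjTranspose, map_ev_add, map_ev_cst] using h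
    simp only [map_add, map_smul, smul_eq_mul, Complex.add_re, Complex.re_ofReal_mul] at this
    have e : ∀ c : ℂ, (2 * c).re = 2 * c.re := fun c => by simp
    rw [e] at this
    exact this
  -- step 2
  have S2 : l ≤ N2 D.μ (X₀ᴴ * P * Y₀) := by
    have e : X₀ᴴ * P * Y₀ = ℓ + ℓ'ᴴ := by
      simp only [hP, hℓ, hℓ', Matrix.mul_add, Matrix.add_mul, conjTranspose_mul,
        conjTranspose_conjTranspose, Matrix.mul_assoc]
    have e2 : trace (ℓᴴ * ℓ'ᴴ) = star (trace (ℓ' * ℓ)) := by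
      rw [← trace_conjTranspose, conjTranspose_mul ℓ']
    have e3 : (D.μ (trace (ℓ' * ℓ))).re = n2 (xᴴ * y₀) := by
      rw [D.μ_trace_mul _ _ (D.sandwich_mem _ _) (D.sandwich_mem _ _), D.sandwich_mean,
        D.sandwich_mean, n2, conjTranspose_mul, conjTranspose_conjTranspose]
    have e4 := D.N2_nonneg ℓ'ᴴ
    rw [e]
    simp only [N2, conjTranspose_add, conjTranspose_conjTranspose, Matrix.add_mul, Matrix.mul_add,
      trace_add, map_add, Complex.add_re, e2, re_μ_star, e3, hl] at e4 ⊢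
    linarith [n2_nonneg (xᴴ * y₀)]
  -- step 3
  have S3 : a ≤ 4 * D.M ^ 2 * l := by
    have e1 : D.act V x = D.act (D.Φ * V) y₀ := by
      rw [D.act_mul D.Φ V fun i j k l => (hV4 i j k l).2]
    rw [e1, trace_act, ← hℓ, ← Matrix.mul_assoc] at hV2
    have := D.mono ((2 : ℂ) • trace (ℓ * D.Φ * V))
      (((2 * D.M ^ 2 : ℝ) : ℂ) • trace (ℓᴴ * ℓ) + ((2⁻¹ : ℝ) : ℂ) • trace (Vᴴ * V)) fun t => by
      have h := two_re_trace_le (ℓ.map (D.ev t) * D.Φ.map (D.ev t)) (V.map (D.ev t)) two_pos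
      have h' := D.Φ_le t (ℓ.map (D.ev t))
      simp only [map_add, map_smul, smul_eq_mul, Complex.add_re, Complex.re_ofReal_mul, ev_N2]
      have e : ∀ c : ℂ, (2 * c).re = 2 * c.re := fun c => by simp
      rw [e, ev_trace, map_ev_mul]
      linarith
    simp only [map_add, map_smul, smul_eq_mul, Complex.add_re, Complex.re_ofReal_mul] at this
    have e : ∀ c : ℂ, (2 * c).re = 2 * c.re := fun c => by simp
    rw [e, ← hV2] at this
    change a ≤ 2 * D.M ^ 2 * l + 2⁻¹ * N2 D.μ V at this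
    linarith
  have hapos : 0 < a := by
    refine lt_of_lt_of_le ?_ hV3
    have : 0 < n2 (xᴴ * x) := by
      by_contra h0
      have h1 := eq_zero_of_n2 (not_lt.1 h0)
      rw [n2, h1] at hxn
      simp at hxn
      exact hkpos.ne hxn
    linarith
  have hl0 : 0 ≤ l := D.N2_nonneg _
  have hMl : 0 < D.M ^ 2 * l := by linarith
  have hM : 0 < D.M ^ 2 := by
    by_contra h0
    have : D.M ^ 2 = 0 := le_antisymm (not_lt.1 h0) (sq_nonneg _)
    rw [this, zero_mul] at hMl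
    exact lt_irrefl _ hMl
  have hlpos : 0 < l := (pos_iff_pos_of_mul_pos hMl).1 hM
  -- step 4
  have S4 : k * b ≤ 4 * D.M ^ 2 / k * l := by
    have e1 : D.act D.Φ (D.act W y₀) = D.act (W * D.Φ) y₀ := by
      rw [D.act_mul W D.Φ fun i j k l => by rw [mul_comm]; exact (hW4 k l i j).1]
    have e2 := hsing (D.act W y₀)
    rw [e1, trace_act, ← hℓ] at e2
    have e3 : k * b = 2 * (D.μ (trace (ℓ * (W * D.Φ)))).re := by
      rw [e2, Complex.re_ofReal_mul, hW2]; ring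
    have hlam : 0 < 2 * D.M ^ 2 / k := by positivity
    have := D.mono ((2 : ℂ) • trace (ℓ * (W * D.Φ)))
      (((2 * D.M ^ 2 / k : ℝ) : ℂ) • trace (ℓᴴ * ℓ) + ((k / 2 : ℝ) : ℂ) • trace (Wᴴ * W)) fun t => by
      have h := two_re_trace_le (ℓ.map (D.ev t)) (W.map (D.ev t) * D.Φ.map (D.ev t)) hlam
      have h' := D.Φ_le t (W.map (D.ev t))
      simp only [map_add, map_smul, smul_eq_mul, Complex.add_re, Complex.re_ofReal_mul, ev_N2]
      have e : ∀ c : ℂ, (2 * c).re = 2 * c.re := fun c => by simp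
      rw [e, ev_trace, map_ev_mul _ W]
      have h2 : (2 * D.M ^ 2 / k)⁻¹ * n2 (W.map (D.ev t) * D.Φ.map (D.ev t))
          ≤ k / 2 * n2 (W.map (D.ev t)) := by
        calc _ ≤ (2 * D.M ^ 2 / k)⁻¹ * (D.M ^ 2 * n2 (W.map (D.ev t))) := by gcongr
          _ = _ := by
            generalize D.M ^ 2 = m at hM
            field_simp
      linarith
    simp only [map_add, map_smul, smul_eq_mul, Complex.add_re, Complex.re_ofReal_mul] at this
    have e : ∀ c : ℂ, (2 * c).re = 2 * c.re := fun c => by simp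
    rw [e, ← e3] at this
    change k * b ≤ 2 * D.M ^ 2 / k * l + k / 2 * N2 D.μ W at this
    have h3 : k / 2 * N2 D.μ W ≤ k / 2 * b := by gcongr
    have h4 : 4 * D.M ^ 2 / k * l = 2 * (2 * D.M ^ 2 / k * l) := by ring
    linarith
  have S5 : k⁻¹ * a ≤ 4 * D.M ^ 2 / k * l := by
    calc k⁻¹ * a ≤ k⁻¹ * (4 * D.M ^ 2 * l) := by gcongr
      _ = _ := by ring
  have S6 : l ≤ 4 * D.M ^ 2 / k * l := by linarith
  have S7 : 4 * D.M ^ 2 / k < 1 := (div_lt_one hkpos).2 hlt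
  nlinarith

end CoreData

end Crest.Agent.R132
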