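import Mathlib
import Crest.Agent.R132.Defs

/-!
Row 132: from a conformal map of the inverted exterior of a convex body to `ExtMap`.
-/

set_option autoImplicit false

open Metric Set Filter Topology

namespace Crest.Agent.R132.ExtAux

/-- The image of the exterior of `K` (with the point at infinity) under inversion. -/
def invExt (K : Set ℂ) : Set ℂ := {u | u = 0 ∨ u⁻¹ ∉ K}

lemma zero_mem_invExt (K : Set ℂ) : (0 : ℂ) ∈ invExt K := Or.inl rfl

lemma isOpen_invExt {K : Set ℂ} (hK : IsCompact K) : IsOpen (invExt K) := by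
  rw [isOpen_iff_mem_nhds]
  intro u hu
  by_cases h0 : u = 0
  · subst h0
    obtain ⟨R, hR, hKR⟩ := hK.isBounded.subset_ball_lt 0 (0 : ℂ)
    filter_upwards [ball_mem_nhds (0 : ℂ) (inv_pos.2 hR)] with v hv
    by_cases hv0 : v = 0
    · exact Or.inl hv0
    · right
      intro hvK
      have h1 := hKR hvK
      rw [mem_ball_zero_iff] at h1 hv
      rw [norm_inv] at h1
      have hp : 0 < ‖v‖ := norm_pos_iff.2 hv0
      have := (inv_lt_comm₀ hp hR).1 h1
      linarith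
  · have hu' : u⁻¹ ∉ K := hu.resolve_left h0
    have hc : ContinuousAt (fun v : ℂ => v⁻¹) u := continuousAt_inv₀ h0
    filter_upwards [hc.preimage_mem_nhds (hK.isClosed.isOpen_compl.mem_nhds hu')] with v hv
    exact Or.inr hv

lemma isBounded_invExt {K : Set ℂ} (h0 : K ∈ 𝓝 (0 : ℂ)) : Bornology.IsBounded (invExt K) := by
  obtain ⟨r, hr, hrK⟩ := Metric.mem_nhds_iff.1 h0
  refine (isBounded_closedBall (x := (0 : ℂ)) (r := r⁻¹)).subset fun u hu => ?_
  rw [mem_closedBall_zero_iff]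
  by_cases h0 : u = 0
  · subst h0; simp [hr.le]
  · have hu' : u⁻¹ ∉ K := hu.resolve_left h0
    have : r ≤ ‖u⁻¹‖ := by
      by_contra h
      exact hu' (hrK (mem_ball_zero_iff.2 (not_le.1 h)))
    rw [norm_inv] at this
    exact (le_inv_comm₀ hr (norm_pos_iff.2 h0)).1 this

lemma isClosed_invExt {U : Set ℂ} (hU : IsOpen U) : IsClosed (invExt U) := by
  rw [← isOpen_compl_iff, isOpen_iff_mem_nhds]
  intro u hu
  simp only [invExt, mem_compl_iff, mem_ofPred_eq, not_or, not_not] at hu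
  have hc : ContinuousAt (fun v : ℂ => v⁻¹) u := continuousAt_inv₀ hu.1
  filter_upwards [hc.preimage_mem_nhds (hU.mem_nhds hu.2), isOpen_ne.mem_nhds hu.1] with v hv hv0
  simp only [invExt, mem_compl_iff, mem_ofPred_eq, not_or, not_not]
  exact ⟨hv0, hv⟩

lemma starConvex_invExt {K : Set ℂ} (hKc : Convex ℝ K) (h0 : (0 : ℂ) ∈ K) :
    StarConvex ℝ 0 (invExt K) := by
  intro u hu a b _ hb hab
  simp only [smul_zero, zero_add]
  by_cases h : b • u = 0
  · exact Or.inl h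
  · right
    intro hK
    have hb0 : b ≠ 0 := fun e => h (by simp [e])
    have hu0 : u ≠ 0 := fun e => h (by simp [e])
    apply hu.resolve_left hu0
    have := hKc.smul_mem_of_zero_mem h0 hK (t := b) ⟨hb, by linarith⟩
    have e : b • (b • u)⁻¹ = u⁻¹ := by
      have : (b : ℂ) ≠ 0 := by exact_mod_cast hb0
      simp only [Complex.real_smul]
      field_simp
    rwa [e] at this

/-- A conformal equivalence of the inverted exterior with the disc of radius `ρ`. -/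
structure Data (K : Set ℂ) (ρ : ℝ) (ψ φ : ℂ → ℂ) : Prop where
  pos : 0 < ρ
  dψ : DifferentiableOn ℂ ψ (invExt K)
  dφ : DifferentiableOn ℂ φ (ball 0 ρ)
  mψ : MapsTo ψ (invExt K) (ball 0 ρ)
  mφ : MapsTo φ (ball 0 ρ) (invExt K)
  left : ∀ u ∈ invExt K, φ (ψ u) = u
  right : ∀ w ∈ ball (0 : ℂ) ρ, ψ (φ w) = w
  zero : ψ 0 = 0

namespace Data

variable {K : Set ℂ} {ρ : ℝ} {ψ φ : ℂ → ℂ}

lemma rescale (D : Data K 1 ψ φ) {ρ : ℝ} (hρ : 0 < ρ) :
    Data K ρ (fun u => ρ * ψ u) (fun w => φ (w / ρ)) := by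
  have hρ' : (ρ : ℂ) ≠ 0 := by exact_mod_cast hρ.ne'
  have hm : MapsTo (fun w : ℂ => w / ρ) (ball 0 ρ) (ball 0 1) := by
    intro w hw
    rw [mem_ball_zero_iff] at hw ⊢
    rw [norm_div, Complex.norm_real, Real.norm_of_nonneg hρ.le, div_lt_one hρ]
    exact hw
  refine ⟨hρ, D.dψ.const_mul _, D.dφ.comp (by fun_prop) hm, fun u hu => ?_,
    fun w hw => D.mφ (hm hw), fun u hu => ?_, fun w hw => ?_, by simp [D.zero]⟩
  · have := D.mψ hu
    rw [mem_ball_zero_iff] at this ⊢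
    rw [norm_mul, Complex.norm_real, Real.norm_of_nonneg hρ.le]
    nlinarith
  · rw [mul_div_cancel_left₀ _ hρ', D.left u hu]
  · rw [D.right _ (hm hw)]; field_simp

lemma φ_zero (D : Data K ρ ψ φ) : φ 0 = 0 := by
  have := D.left 0 (zero_mem_invExt K)
  rwa [D.zero] at this

lemma φ_ne (D : Data K ρ ψ φ) {w : ℂ} (hw : w ∈ ball (0 : ℂ) ρ) (h0 : w ≠ 0) : φ w ≠ 0 := by
  intro e
  have := D.right w hw
  rw [e, D.zero] at this
  exact h0 this.symm

lemma ψ_ne (D : Data K ρ ψ φ) {u : ℂ} (hu : u ∈ invExt K) (h0 : u ≠ 0) : ψ u ≠ 0 := by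
  intro e
  have := D.left u hu
  rw [e, D.φ_zero] at this
  exact h0 this.symm

lemma deriv_mul (D : Data K ρ ψ φ) (hK : IsCompact K) {w : ℂ} (hw : w ∈ ball (0 : ℂ) ρ) :
    deriv ψ (φ w) * deriv φ w = 1 := by
  have h1 : DifferentiableAt ℂ φ w := D.dφ.differentiableAt (isOpen_ball.mem_nhds hw)
  have h2 : DifferentiableAt ℂ ψ (φ w) :=
    D.dψ.differentiableAt ((isOpen_invExt hK).mem_nhds (D.mφ hw))
  have h3 := h2.hasDerivAt.comp w h1.hasDerivAt
  have h4 : (ψ ∘ φ) =ᶠ[𝓝 w] id := by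
    filter_upwards [isOpen_ball.mem_nhds hw] with v hv using D.right v hv
  exact (h3.congr_of_eventuallyEq h4.symm).unique (hasDerivAt_id w)

/-- Properness: near the boundary circle, `1 / φ` is close to `K`. -/
lemma proper (D : Data K ρ ψ φ) (h0 : K ∈ 𝓝 (0 : ℂ)) {U : Set ℂ} (hU : IsOpen U) (hKU : K ⊆ U) :
    ∃ s, 0 ≤ s ∧ s < ρ ∧ ∀ w : ℂ, s < ‖w‖ → ‖w‖ < ρ → (φ w)⁻¹ ∈ U := by
  have hsub : invExt U ⊆ invExt K := fun u hu => hu.imp id fun h h' => h (hKU h')
  have hC : IsCompact (invExt U) :=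
    Metric.isCompact_of_isClosed_isBounded (isClosed_invExt hU) ((isBounded_invExt h0).subset hsub)
  obtain ⟨u, hu, hmax⟩ := hC.exists_isMaxOn ⟨0, zero_mem_invExt U⟩
    (D.dψ.continuousOn.mono hsub).norm
  refine ⟨‖ψ u‖, norm_nonneg _, mem_ball_zero_iff.1 (D.mψ (hsub hu)), fun w h1 h2 => ?_⟩
  by_contra h
  have := hmax (show φ w ∈ invExt U from Or.inr h)
  simp only [mem_ofPred_eq, D.right w (mem_ball_zero_iff.2 h2)] at this
  linarith

/-- The maximum principle for a map that tends to `K` at the boundary circle. -/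
lemma max_principle (D : Data K ρ ψ φ) (hK : IsCompact K) {μ : ℂ → ℂ}
    (hμ : DifferentiableOn ℂ μ (ball 0 ρ)) (hμ0 : μ 0 ≠ 0) (hμ1 : ‖μ 0‖ ≤ ‖deriv ψ 0‖)
    (hb : ∀ U, IsOpen U → K ⊆ U → ∃ s < ρ, ∀ η : ℂ, s < ‖η‖ → ‖η‖ < ρ → μ η / η ∈ U)
    {η₀ : ℂ} (hη₀ : η₀ ∈ ball (0 : ℂ) ρ) (hne : μ η₀ ≠ 0) (hout : μ η₀ / η₀ ∉ K) :
    ‖η₀‖ ≤ ‖ψ (η₀ / μ η₀)‖ := by
  have hV := isOpen_invExt hK
  let k : ℂ → ℂ := dslope ψ 0
  have hk : DifferentiableOn ℂ k (invExt K) :=
    (Complex.differentiableOn_dslope (hV.mem_nhds (zero_mem_invExt K))).2 D.dψ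
  have hkψ : ∀ u, u * k u = ψ u := fun u => by
    simpa [k, D.zero] using sub_smul_dslope ψ 0 u
  have hk0 : k 0 = deriv ψ 0 := dslope_same ψ 0
  have hψ0 : deriv ψ 0 ≠ 0 := by
    have := D.deriv_mul hK (mem_ball_self D.pos)
    rw [D.φ_zero] at this
    exact left_ne_zero_of_mul_eq_one this
  have hkne : ∀ u ∈ invExt K, k u ≠ 0 := by
    intro u hu
    by_cases h : u = 0
    · rw [h, hk0]; exact hψ0
    · intro e
      have := hkψ u
      rw [e, mul_zero] at this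
      exact D.ψ_ne hu h this.symm
  let O : Set ℂ := {η | η ∈ ball (0 : ℂ) ρ ∧ μ η ≠ 0 ∧ η / μ η ∈ invExt K}
  let F : ℂ → ℂ := fun η => μ η / k (η / μ η)
  have hO : ∀ η ∈ O, O ∈ 𝓝 η ∧ DifferentiableAt ℂ F η := by
    rintro η ⟨h1, h2, h3⟩
    have d1 : DifferentiableAt ℂ μ η := hμ.differentiableAt (isOpen_ball.mem_nhds h1)
    have d2 : DifferentiableAt ℂ (fun η => η / μ η) η := differentiableAt_id.div d1 h2
    refine ⟨?_, d1.div ((hk.differentiableAt (hV.mem_nhds h3)).comp η d2) (hkne _ h3)⟩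
    filter_upwards [isOpen_ball.mem_nhds h1, d1.continuousAt.eventually_ne h2,
      d2.continuousAt.preimage_mem_nhds (hV.mem_nhds h3)] with v a b c
    exact ⟨a, b, c⟩
  have hF : ∀ η ∈ O, F η * ψ (η / μ η) = η := by
    rintro η ⟨-, h2, h3⟩
    have := hkne _ h3
    simp only [F, ← hkψ]
    field_simp
  have hO0 : (0 : ℂ) ∈ O := ⟨mem_ball_self D.pos, hμ0, by simp [zero_mem_invExt]⟩
  have hF0 : ‖F 0‖ ≤ 1 := by
    simp only [F, zero_div, hk0, norm_div]
    exact div_le_one_of_le₀ hμ1 (norm_nonneg _)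
  -- compactness of the superlevel sets
  have hZ : ∀ m : ℝ, 1 < m → IsCompact {η | η ∈ O ∧ m ≤ ‖F η‖} := by
    intro m hm
    have hm0 : 0 < m := by linarith
    obtain ⟨δ, hδ, hδ'⟩ : ∃ δ > 0, ∀ η : ℂ, ‖η‖ < δ → ‖F η‖ < m := by
      have := (hO 0 hO0).2.continuousAt.norm.eventually_lt continuousAt_const
        (show ‖F 0‖ < m by linarith)
      obtain ⟨δ, hδ, h⟩ := Metric.eventually_nhds_iff.1 this
      exact ⟨δ, hδ, fun η hη => h (by simpa using hη)⟩
    have hs : ρ / m < ρ := div_lt_self D.pos hm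
    have hsub : closedBall (0 : ℂ) (ρ / m) ⊆ ball 0 ρ := closedBall_subset_ball hs
    have hC : IsCompact (φ '' closedBall 0 (ρ / m)) :=
      (isCompact_closedBall _ _).image_of_continuousOn (D.dφ.continuousOn.mono hsub)
    obtain ⟨s, hsρ, hs'⟩ := hb _ (isOpen_invExt hC) (fun z hz => by
      by_cases h0 : z = 0
      · exact Or.inl h0
      · right
        rintro ⟨w, hw, e⟩
        have := D.mφ (hsub hw)
        rw [e] at this
        rcases this with h | h
        · exact h0 (inv_eq_zero.1 h)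
        · exact h (by simpa using hz))
    let T : Set (ℂ × ℂ) := (closedBall 0 s ∩ {η | δ ≤ ‖η‖}) ×ˢ closedBall 0 (ρ / m)
    have hT : IsCompact T :=
      ((isCompact_closedBall _ _).inter_right (isClosed_le continuous_const continuous_norm)).prod
        (isCompact_closedBall _ _)
    have hsub' : closedBall (0 : ℂ) s ⊆ ball 0 ρ := closedBall_subset_ball hsρ
    have hc : ContinuousOn (fun p : ℂ × ℂ => (μ p.1 * φ p.2 - p.1, ‖p.1‖ - m * ‖p.2‖)) T := by
      refine ContinuousOn.prodMk (ContinuousOn.sub (ContinuousOn.mul ?_ ?_) continuousOn_fst)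
        (by fun_prop)
      · exact hμ.continuousOn.comp continuousOn_fst fun p hp => hsub' hp.1.1
      · exact D.dφ.continuousOn.comp continuousOn_snd fun p hp => hsub hp.2
    have hcl := hc.preimage_isClosed_of_isClosed hT.isClosed
      (t := {0} ×ˢ Ici 0) (isClosed_singleton.prod isClosed_Ici)
    have hcpt := (hT.of_isClosed_subset hcl inter_subset_left).image continuous_fst
    convert hcpt using 1
    ext η
    constructor
    · rintro ⟨hη, hmF⟩
      have e := hF η hη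
      obtain ⟨h1, h2, h3⟩ := hη
      have en : ‖F η‖ * ‖ψ (η / μ η)‖ = ‖η‖ := by rw [← norm_mul, e]
      have hη1 := mem_ball_zero_iff.1 h1
      have hle : m * ‖ψ (η / μ η)‖ ≤ ‖η‖ := by
        rw [← en]; exact mul_le_mul_of_nonneg_right hmF (norm_nonneg _)
      have hw : ψ (η / μ η) ∈ closedBall (0 : ℂ) (ρ / m) := by
        rw [mem_closedBall_zero_iff, le_div_iff₀ hm0]; linarith
      have hδη : δ ≤ ‖η‖ := by
        by_contra h
        have := hδ' η (not_le.1 h)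
        linarith
      have hη0 : η ≠ 0 := by
        intro h; rw [h, norm_zero] at hδη; linarith
      refine ⟨(η, ψ (η / μ η)), ⟨⟨⟨?_, hδη⟩, hw⟩, ?_, ?_⟩, rfl⟩
      · rw [mem_closedBall_zero_iff]
        by_contra h
        rcases hs' η (not_le.1 h) hη1 with h' | h'
        · exact (div_ne_zero h2 hη0) h'
        · exact h' ⟨_, hw, by rw [D.left _ h3, inv_div]⟩
      · simp only [mem_singleton_iff, D.left _ h3]
        field_simp
        ring
      · simpa using hle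
    · rintro ⟨⟨η', w⟩, ⟨⟨⟨h1, h2⟩, h3⟩, h4, h5⟩, rfl⟩
      simp only [mem_singleton_iff, mem_Ici, sub_nonneg, sub_eq_zero, mem_ofPred_eq] at h2 h4 h5 ⊢
      have hη0 : η' ≠ 0 := by
        intro h; rw [h, norm_zero] at h2; linarith
      have hμ' : μ η' ≠ 0 := by
        intro h; rw [h, zero_mul] at h4; exact hη0 h4.symm
      have e : η' / μ η' = φ w := by
        rw [div_eq_iff hμ', mul_comm]; exact h4.symm
      have hO' : η' ∈ O := ⟨hsub' h1, hμ', by rw [e]; exact D.mφ (hsub h3)⟩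
      refine ⟨hO', ?_⟩
      have e2 := hF η' hO'
      rw [e, D.right w (hsub h3)] at e2
      have en : ‖F η'‖ * ‖w‖ = ‖η'‖ := by rw [← norm_mul, e2]
      have hw0 : 0 < ‖w‖ := by
        refine norm_pos_iff.2 fun h => hη0 ?_
        rw [← e2, h, mul_zero]
      rw [← en] at h5
      exact le_of_mul_le_mul_right h5 hw0
  by_contra hcon
  push Not at hcon
  have hη₀O : η₀ ∈ O := ⟨hη₀, hne, Or.inr (by rwa [inv_div])⟩
  have hm : 1 < ‖F η₀‖ := by
    have en : ‖F η₀‖ * ‖ψ (η₀ / μ η₀)‖ = ‖η₀‖ := by rw [← norm_mul, hF _ hη₀O]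
    by_contra h
    have := mul_le_mul_of_nonneg_right (not_lt.1 h) (norm_nonneg (ψ (η₀ / μ η₀)))
    linarith
  obtain ⟨η₁, hη₁, hmax⟩ := (hZ _ hm).exists_isMaxOn ⟨η₀, hη₀O, le_rfl⟩
    (f := fun η => ‖F η‖) fun η hη => (hO η hη.1).2.continuousAt.norm.continuousWithinAt
  have hM : ∀ η ∈ O, ‖F η‖ ≤ ‖F η₁‖ := by
    intro η hη
    by_cases h : ‖F η₀‖ ≤ ‖F η‖
    · exact hmax ⟨hη, h⟩
    · exact (not_le.1 h).le.trans hη₁.2
  have hS := hZ ‖F η₁‖ (hm.trans_le hη₁.2)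
  have hopen : IsOpen {η | η ∈ O ∧ ‖F η₁‖ ≤ ‖F η‖} := by
    rw [isOpen_iff_mem_nhds]
    rintro η ⟨h1, h2⟩
    have hd : ∀ᶠ z in 𝓝 η, DifferentiableAt ℂ F z := by
      filter_upwards [(hO η h1).1] with z hz using (hO z hz).2
    have hl : IsLocalMax (norm ∘ F) η := by
      filter_upwards [(hO η h1).1] with z hz using (hM z hz).trans h2
    filter_upwards [(hO η h1).1, Complex.eventually_eq_of_isLocalMax_norm hd hl] with z hz e
    exact ⟨hz, by rwa [e]⟩
  exact hS.ne_univ (IsClopen.eq_univ ⟨hS.isClosed, hopen⟩ ⟨η₁, hη₁.1, le_rfl⟩)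

lemma re_nonneg_of_norm {p : ℝ → ℂ} {p' w : ℂ} (hp : HasDerivAt p p' 0) (h0 : p 0 = w)
    (hw : ‖w‖ = 1) (h : ∀ᶠ ε in 𝓝[>] (0 : ℝ), 1 ≤ ‖p ε‖) : 0 ≤ (p' / w).re := by
  have h1 := hp.norm_sq.tendsto_slope_zero_right
  have h2 : 0 ≤ 2 * inner ℝ (p 0) p' := by
    refine ge_of_tendsto h1 ?_
    filter_upwards [h, self_mem_nhdsWithin] with ε h1 h2
    simp only [zero_add, h0, hw, smul_eq_mul]
    have : 0 < ε := h2
    have : 1 ≤ ‖p ε‖ ^ 2 := by nlinarith
    exact mul_nonneg (by positivity) (by linarith)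
  rw [h0, Complex.inner] at h2
  have e : w⁻¹ = (starRingEnd ℂ) w := by
    rw [Complex.inv_def, Complex.normSq_eq_norm_sq, hw]; simp
  rw [div_eq_mul_inv, e]
  linarith

/-- The numerator of the exterior map. -/
noncomputable def gam (φ : ℂ → ℂ) (w : ℂ) : ℂ := (dslope φ 0 w)⁻¹

lemma mul_dslope (D : Data K ρ ψ φ) (w : ℂ) : w * dslope φ 0 w = φ w := by
  simpa [D.φ_zero] using sub_smul_dslope φ 0 w

lemma dslope_ne (D : Data K ρ ψ φ) (hK : IsCompact K) {w : ℂ} (hw : w ∈ ball (0 : ℂ) ρ) :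
    dslope φ 0 w ≠ 0 := by
  by_cases h : w = 0
  · subst h
    rw [dslope_same]
    exact right_ne_zero_of_mul_eq_one (D.deriv_mul hK hw)
  · intro e
    have := D.mul_dslope w
    rw [e, mul_zero] at this
    exact D.φ_ne hw h this.symm

lemma dslope_diff (D : Data K ρ ψ φ) : DifferentiableOn ℂ (dslope φ 0) (ball 0 ρ) :=
  (Complex.differentiableOn_dslope (ball_mem_nhds _ D.pos)).2 D.dφ

lemma gam_diff (D : Data K ρ ψ φ) (hK : IsCompact K) : DifferentiableOn ℂ (gam φ) (ball 0 ρ) :=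
  D.dslope_diff.inv fun _ hw => D.dslope_ne hK hw

lemma gam_div (D : Data K ρ ψ φ) (w : ℂ) : gam φ w / w = (φ w)⁻¹ := by
  rw [← D.mul_dslope w, gam, mul_inv, div_eq_mul_inv, mul_comm]

lemma gam_zero (D : Data K ρ ψ φ) (hK : IsCompact K) : gam φ 0 = deriv ψ 0 := by
  have := D.deriv_mul hK (mem_ball_self D.pos)
  rw [D.φ_zero] at this
  rw [gam, dslope_same]
  exact (eq_inv_of_mul_eq_one_left this).symm

lemma gam_sub (D : Data K ρ ψ φ) (hK : IsCompact K) {w : ℂ} (hw : w ∈ ball (0 : ℂ) ρ) :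
    gam φ w - w * deriv (gam φ) w = deriv φ w * gam φ w ^ 2 := by
  have h1 := (D.dslope_diff.differentiableAt (isOpen_ball.mem_nhds hw)).hasDerivAt
  have hne := D.dslope_ne hK hw
  have h2 : HasDerivAt (gam φ) (-deriv (dslope φ 0) w / dslope φ 0 w ^ 2) w := h1.inv hne
  have h3 : HasDerivAt φ (1 * dslope φ 0 w + w * deriv (dslope φ 0) w) w := by
    have := (hasDerivAt_id w).mul h1
    have e : (id * dslope φ 0) = φ := funext fun v => D.mul_dslope v
    rwa [e] at this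
  rw [h2.deriv, h3.deriv, gam]
  field_simp
  ring

lemma pos_of (D : Data K ρ ψ φ) (hK : IsCompact K) (hKc : Convex ℝ K) (h0 : K ∈ 𝓝 (0 : ℂ))
    (hρ : 1 < ρ) {w : ℂ} (hw : ‖w‖ = 1) {β : ℂ → ℂ} (hβ : DifferentiableOn ℂ β (ball 0 ρ))
    (hβ0 : ‖β 0‖ ≤ ‖gam φ 0‖)
    (hb : ∀ U, IsOpen U → K ⊆ U → ∃ s < ρ, ∀ η : ℂ, s < ‖η‖ → ‖η‖ < ρ → β η / η ∈ U) :
    0 ≤ ((gam φ w - β 1 * w) / (gam φ w - w * deriv (gam φ) w)).re := by
  have hwb : w ∈ ball (0 : ℂ) ρ := by rw [mem_ball_zero_iff, hw]; exact hρ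
  have hw0 : w ≠ 0 := by intro h; rw [h, norm_zero] at hw; exact zero_ne_one hw
  have hφw := D.φ_ne hwb hw0
  have hg0 : gam φ 0 ≠ 0 := inv_ne_zero (D.dslope_ne hK (mem_ball_self D.pos))
  have hout : (φ w)⁻¹ ∉ K := (D.mφ hwb).resolve_left hφw
  let z : ℝ → ℂ := fun ε => (φ w)⁻¹ + ε * (β 1 - (φ w)⁻¹)
  have hz0 : z 0 = (φ w)⁻¹ := by simp [z]
  have hz : HasDerivAt z (β 1 - (φ w)⁻¹) 0 := by
    have := ((Complex.ofRealCLM.hasDerivAt (x := (0 : ℝ))).mul_const (β 1 - (φ w)⁻¹)).const_add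
      (φ w)⁻¹
    simpa [z] using this
  have hzi : HasDerivAt (fun ε => (z ε)⁻¹) (-(β 1 - (φ w)⁻¹) / (z 0) ^ 2) 0 :=
    hz.inv (by rw [hz0]; exact inv_ne_zero hφw)
  have hψd : HasDerivAt ψ (deriv ψ (φ w)) (z 0)⁻¹ := by
    rw [hz0, inv_inv]
    exact (D.dψ.differentiableAt ((isOpen_invExt hK).mem_nhds (D.mφ hwb))).hasDerivAt
  have hp := hψd.comp_of_eq (0 : ℝ) hzi rfl
  have key := re_nonneg_of_norm (w := w) hp (by simp [hz0, D.right w hwb]) hw (by
    have e1 : ∀ᶠ ε in 𝓝 (0 : ℝ), z ε ∉ K :=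
      hz.continuousAt.preimage_mem_nhds (hK.isClosed.isOpen_compl.mem_nhds (by rwa [hz0]))
    filter_upwards [e1.filter_mono nhdsWithin_le_nhds,
      Ioo_mem_nhdsGT (show (0 : ℝ) < 1 / 2 by norm_num)] with ε hε ⟨hε0, hε1⟩
    have hmaps : MapsTo (fun η : ℂ => w * η) (ball 0 ρ) (ball 0 ρ) := by
      intro η hη
      rw [mem_ball_zero_iff] at hη ⊢
      rwa [norm_mul, hw, one_mul]
    let μ : ℂ → ℂ := fun η => ((1 - ε : ℝ) : ℂ) * (gam φ (w * η) / w) + (ε : ℂ) * β η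
    have hμ : DifferentiableOn ℂ μ (ball 0 ρ) :=
      ((((D.gam_diff hK).comp (by fun_prop) hmaps).div_const w).const_mul _).add (hβ.const_mul _)
    have n1 : ‖((1 - ε : ℝ) : ℂ) * (gam φ (w * 0) / w)‖ = (1 - ε) * ‖gam φ 0‖ := by
      rw [norm_mul, norm_div, hw, mul_zero, Complex.norm_real, Real.norm_of_nonneg (by linarith),
        div_one]
    have n2 : ‖(ε : ℂ) * β 0‖ ≤ ε * ‖gam φ 0‖ := by
      rw [norm_mul, Complex.norm_real, Real.norm_of_nonneg hε0.le]
      exact mul_le_mul_of_nonneg_left hβ0 hε0.le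
    have hgp : 0 < ‖gam φ 0‖ := norm_pos_iff.2 hg0
    have hμ0 : μ 0 ≠ 0 := by
      intro e
      have e' : ((1 - ε : ℝ) : ℂ) * (gam φ (w * 0) / w) = -((ε : ℂ) * β 0) :=
        eq_neg_of_add_eq_zero_left e
      rw [e', norm_neg] at n1
      nlinarith
    have hμ1 : ‖μ 0‖ ≤ ‖deriv ψ 0‖ := by
      rw [← D.gam_zero hK]
      refine (norm_add_le _ _).trans ?_
      rw [n1]
      linarith
    have hμz : μ 1 = z ε := by
      simp only [μ, z, mul_one, D.gam_div]
      push_cast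
      ring
    have hzne : z ε ≠ 0 := fun e => hε (e ▸ mem_of_mem_nhds h0)
    have := D.max_principle hK hμ hμ0 hμ1 (fun U hU hKU => by
      obtain ⟨δ, hδ, hδU⟩ := hK.exists_thickening_subset_open hU hKU
      obtain ⟨s₁, hs₁0, hs₁, h₁⟩ := D.proper h0 isOpen_thickening (self_subset_thickening hδ K)
      obtain ⟨s₂, hs₂, h₂⟩ := hb _ isOpen_thickening (self_subset_thickening hδ K)
      refine ⟨max s₁ s₂, max_lt hs₁ hs₂, fun η a b => hδU ?_⟩
      have a1 := h₁ (w * η) (by rw [norm_mul, hw, one_mul]; exact (le_max_left _ _).trans_lt a)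
        (by rwa [norm_mul, hw, one_mul])
      have a2 := h₂ η ((le_max_right _ _).trans_lt a) b
      have := hKc.thickening δ a1 a2 (show 0 ≤ 1 - ε by linarith) hε0.le (by ring)
      convert this using 1
      simp only [μ, ← D.gam_div, Complex.real_smul]
      rw [add_div, mul_div_assoc, mul_div_assoc, div_div])
      (η₀ := 1) (by simpa using hρ) (by rwa [hμz]) (by rwa [hμz, div_one])
    simpa [hμz] using this)
  rw [D.gam_sub hK hwb]
  convert key using 2
  have e1 := D.deriv_mul hK hwb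
  have e2 : deriv ψ (φ w) = (deriv φ w)⁻¹ := eq_inv_of_mul_eq_one_left e1
  have e3 : deriv φ w ≠ 0 := right_ne_zero_of_mul_eq_one e1
  have e4 : gam φ w = w * (φ w)⁻¹ := by rw [← D.gam_div]; field_simp
  rw [hz0, e2, e4]
  field_simp
  ring

lemma extMap (D : Data K ρ ψ φ) (hK : IsCompact K) (hKc : Convex ℝ K) (h0 : K ∈ 𝓝 (0 : ℂ))
    (hρ : 1 < ρ) {Ω : Set ℂ} (hΩ : ∀ w : ℂ, 1 ≤ ‖w‖ → ‖w‖ < ρ → (φ w)⁻¹ ∈ Ω) :
    ExtMap K Ω (gam φ) ρ where
  one_lt := hρ
  diff := D.gam_diff hK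
  inj := by
    intro w hw w' hw' hne e
    apply hne
    have h1 := D.dslope_ne hK hw
    have h2 := D.dslope_ne hK hw'
    have : φ w' = φ w := by
      rw [← D.mul_dslope w, ← D.mul_dslope w']
      simp only [gam] at e
      field_simp at e
      linear_combination e
    rw [← D.right w hw, ← D.right w' hw', this]
  deriv_ne := by
    intro w hw
    rw [D.gam_sub hK hw]
    exact mul_ne_zero (right_ne_zero_of_mul_eq_one (D.deriv_mul hK hw))
      (pow_ne_zero _ (inv_ne_zero (D.dslope_ne hK hw)))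
  notMem := by
    intro w hw a ha e
    have h1 := D.dslope_ne hK hw
    have h2 : a * φ w = 1 := by
      rw [← D.mul_dslope w, ← mul_assoc, ← e, gam, inv_mul_cancel₀ h1]
    rcases D.mφ hw with h | h
    · rw [h, mul_zero] at h2; exact zero_ne_one h2
    · exact h (by rwa [← eq_inv_of_mul_eq_one_left h2])
  mem := fun w a b => by rw [D.gam_div]; exact hΩ w a b
  pos₁ := by
    intro w hw a ha
    have := D.pos_of hK hKc h0 hρ hw (β := fun η => a * η) (by fun_prop) (by simp)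
      (fun U _ hKU => ⟨0, D.pos, fun η h1 _ => by
        rw [mul_div_cancel_right₀ _ (norm_pos_iff.1 h1)]; exact hKU ha⟩)
    simpa using this
  pos₂ := by
    intro w w' hw hw'
    have hmaps : MapsTo (fun η : ℂ => w' * η) (ball 0 ρ) (ball 0 ρ) := by
      intro η hη
      rw [mem_ball_zero_iff] at hη ⊢
      rwa [norm_mul, hw', one_mul]
    have := D.pos_of hK hKc h0 hρ hw (β := fun η => gam φ (w' * η) / w')
      (((D.gam_diff hK).comp (by fun_prop) hmaps).div_const w') (by simp [hw'])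
      (fun U hU hKU => by
        obtain ⟨s, -, hs, h⟩ := D.proper h0 hU hKU
        refine ⟨s, hs, fun η a b => ?_⟩
        rw [div_div, D.gam_div]
        exact h _ (by rwa [norm_mul, hw', one_mul]) (by rwa [norm_mul, hw', one_mul]))
    simpa using this

end Data

/-- Translation of an exterior map. -/
lemma extMap_translate {K Ω : Set ℂ} {γ : ℂ → ℂ} {ρ : ℝ} (c : ℂ)
    (h : ExtMap ((fun z => c + z) ⁻¹' K) ((fun z => c + z) ⁻¹' Ω) γ ρ) :
    ExtMap K Ω (fun w => γ w + c * w) ρ := by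
  have hd : ∀ w ∈ ball (0 : ℂ) ρ,
      γ w + c * w - w * deriv (fun w => γ w + c * w) w = γ w - w * deriv γ w := by
    intro w hw
    have h1 := (h.diff.differentiableAt (isOpen_ball.mem_nhds hw)).hasDerivAt
    have h2 : HasDerivAt (fun w => γ w + c * w) (deriv γ w + c * 1) w :=
      h1.add ((hasDerivAt_id w).const_mul c)
    rw [h2.deriv]
    ring
  have hb : ∀ w : ℂ, ‖w‖ = 1 → w ∈ ball (0 : ℂ) ρ := fun w hw => by
    rw [mem_ball_zero_iff, hw]; exact h.one_lt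
  refine ⟨h.one_lt, h.diff.add (by fun_prop), fun w hw w' hw' hne e => ?_, fun w hw => ?_,
    fun w hw a ha e => ?_, fun w h1 h2 => ?_, fun w hw a ha => ?_, fun w w' hw hw' => ?_⟩
  · exact h.inj w hw w' hw' hne (by linear_combination e)
  · rw [hd w hw]; exact h.deriv_ne w hw
  · exact h.notMem w hw (a - c) (by simpa using ha) (by linear_combination e)
  · have := h.mem w h1 h2
    have hw0 : w ≠ 0 := by intro e; rw [e, norm_zero] at h1; linarith
    simp only [mem_preimage] at this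
    convert this using 1
    field_simp
    ring
  · rw [hd w (hb w hw)]
    convert h.pos₁ w hw (a - c) (by simpa using ha) using 3
    ring
  · rw [hd w (hb w hw)]
    have hw0 : w' ≠ 0 := by intro e; rw [e, norm_zero] at hw'; exact zero_ne_one hw'
    convert h.pos₂ w w' hw hw' using 3
    field_simp
    ring

end Crest.Agent.R132.ExtAux
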