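import Mathlib
import Crest.Agent.R132.Defs
import Crest.Agent.R132.ExtAux
import Crest.Agent.Lib.Complex.RiemannMapping

/-!
Row 132: existence of the exterior conformal map with convex level curve.
-/

set_option autoImplicit false

open Metric Set Filter Topology

namespace Crest.Agent.R132

open ExtAux in
theorem exists_extMap_zero {K Ω : Set ℂ} (hK : IsCompact K) (hKc : Convex ℝ K)
    (h0 : K ∈ 𝓝 (0 : ℂ)) (hΩ : IsOpen Ω) (hKΩ : K ⊆ Ω) :
    ∃ (γ : ℂ → ℂ) (ρ : ℝ), ExtMap K Ω γ ρ := by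
  have hsc : IsSimplyConnected (invExt K) := by
    have := (starConvex_invExt hKc (mem_of_mem_nhds h0)).contractibleSpace ⟨0, zero_mem_invExt K⟩
    exact SimplyConnectedSpace.ofContractible _
  obtain ⟨f, hf, hbij, hf0⟩ := Crest.Agent.Lib.Complex.exists_riemannMap_of_isBounded
    (isOpen_invExt hK) hsc (isBounded_invExt h0) (zero_mem_invExt K)
  have hinv := hbij.invOn_invFunOn
  have D : Data K 1 f (Function.invFunOn f (invExt K)) := by
    refine ⟨one_pos, hf, ?_, hbij.mapsTo, hbij.surjOn.mapsTo_invFunOn, fun u hu => hinv.1 hu,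
      fun w hw => hinv.2 hw, hf0⟩
    rw [← hbij.image_eq]
    exact Crest.Agent.Lib.Complex.differentiableOn_invFunOn (isOpen_invExt hK) hf hbij.injOn
  obtain ⟨s, hs0, hs1, hs⟩ := D.proper h0 hΩ hKΩ
  have hρ : 1 < 2 / (1 + s) := by rw [lt_div_iff₀ (by linarith)]; linarith
  have hρ0 : 0 < 2 / (1 + s) := by linarith
  refine ⟨_, _, (D.rescale hρ0).extMap hK hKc h0 hρ fun w h1 h2 => hs _ ?_ ?_⟩
  · rw [norm_div, Complex.norm_real, Real.norm_of_nonneg hρ0.le, lt_div_iff₀ hρ0,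
      ← mul_div_assoc]
    refine lt_of_lt_of_le ?_ h1
    rw [div_lt_one (by linarith)]
    linarith
  · rw [norm_div, Complex.norm_real, Real.norm_of_nonneg hρ0.le, div_lt_one hρ0]
    exact h2

theorem exists_extMap {K Ω : Set ℂ} (hK : IsCompact K) (hKc : Convex ℝ K)
    (hKi : (interior K).Nonempty) (hΩ : IsOpen Ω) (hKΩ : K ⊆ Ω) :
    ∃ (γ : ℂ → ℂ) (ρ : ℝ), ExtMap K Ω γ ρ := by
  obtain ⟨c, hc⟩ := hKi
  have hcont : Continuous fun z : ℂ => c + z := by fun_prop
  obtain ⟨γ, ρ, h⟩ := exists_extMap_zero (K := (fun z => c + z) ⁻¹' K)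
    (Ω := (fun z => c + z) ⁻¹' Ω) ((Homeomorph.addLeft c).isCompact_preimage.2 hK)
    (hKc.translate_preimage_right c)
    (hcont.continuousAt.preimage_mem_nhds (by simpa using mem_interior_iff_mem_nhds.1 hc))
    (hΩ.preimage hcont) (preimage_mono hKΩ)
  exact ⟨_, _, ExtAux.extMap_translate c h⟩

end Crest.Agent.R132
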