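import Mathlib
import Crest.Agent.R132.Defs
import Crest.Agent.R132.Avg

/-!
Row 132: the regular part of the Cauchy kernel of the exterior map.
-/

set_option autoImplicit false

open scoped Real ComplexConjugate Topology
open Metric Set Filter

namespace Crest.Agent.R132

/-- `(w' γ w - w γ w') / (w' - w)`. -/
noncomputable def n1 (γ : ℂ → ℂ) (w w' : ℂ) : ℂ := γ w - w * dslope γ w w'

/-- Second order divided difference. -/
noncomputable def dd2 (γ : ℂ → ℂ) (w w' : ℂ) : ℂ := dslope (dslope γ w) w w'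

/-- The regular part of the Cauchy kernel. -/
noncomputable def kk (γ : ℂ → ℂ) (w w' : ℂ) : ℂ := w * w' * dd2 γ w w' / n1 γ w w'

/-- `w` times the normal vector. -/
noncomputable def nu (γ : ℂ → ℂ) (w : ℂ) : ℂ := γ w - w * deriv γ w

theorem n1_mul (γ : ℂ → ℂ) (w w' : ℂ) : (w' - w) * n1 γ w w' = w' * γ w - w * γ w' := by
  have := sub_smul_dslope γ w w'
  rw [smul_eq_mul] at this
  unfold n1
  linear_combination (-w) * this

theorem n1_self (γ : ℂ → ℂ) (w : ℂ) : n1 γ w w = nu γ w := by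
  simp [n1, nu, dslope_same]

theorem kk_zero_left (γ : ℂ → ℂ) (w : ℂ) : kk γ 0 w = 0 := by simp [kk]

theorem kk_zero_right (γ : ℂ → ℂ) (w : ℂ) : kk γ w 0 = 0 := by simp [kk]

namespace ExtMap

variable {K Ω : Set ℂ} {γ : ℂ → ℂ} {ρ : ℝ}

theorem n1_ne (h : ExtMap K Ω γ ρ) {w w' : ℂ} (hw : w ∈ ball (0 : ℂ) ρ)
    (hw' : w' ∈ ball (0 : ℂ) ρ) : n1 γ w w' ≠ 0 := by
  by_cases e : w = w'
  · subst e; rw [n1_self]; exact h.deriv_ne w hw
  · intro h0
    have := n1_mul γ w w'
    rw [h0, mul_zero] at this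
    exact h.inj w hw w' hw' e (sub_eq_zero.1 this.symm)

theorem diff_deriv (h : ExtMap K Ω γ ρ) : DifferentiableOn ℂ (deriv γ) (ball 0 ρ) :=
  h.diff.deriv isOpen_ball

theorem diff_nu (h : ExtMap K Ω γ ρ) : DifferentiableOn ℂ (nu γ) (ball 0 ρ) :=
  h.diff.sub (differentiableOn_id.mul h.diff_deriv)

theorem diff_dslope (h : ExtMap K Ω γ ρ) {w : ℂ} (hw : w ∈ ball (0 : ℂ) ρ) :
    DifferentiableOn ℂ (dslope γ w) (ball 0 ρ) :=
  (Complex.differentiableOn_dslope (isOpen_ball.mem_nhds hw)).2 h.diff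

theorem diff_dd2 (h : ExtMap K Ω γ ρ) {w : ℂ} (hw : w ∈ ball (0 : ℂ) ρ) :
    DifferentiableOn ℂ (dd2 γ w) (ball 0 ρ) :=
  (Complex.differentiableOn_dslope (isOpen_ball.mem_nhds hw)).2 (h.diff_dslope hw)

theorem cont_dslope (h : ExtMap K Ω γ ρ) :
    ContinuousOn (Function.uncurry (dslope γ)) (ball 0 ρ ×ˢ ball 0 ρ) := by
  refine continuousOn_of_off_diag ?_ fun w hw => h.diff_dslope hw
  have hγ := h.diff.continuousOn
  refine ContinuousOn.congr (f := fun p : ℂ × ℂ => (γ p.2 - γ p.1) / (p.2 - p.1)) ?_ ?_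
  · refine ContinuousOn.div ((hγ.comp continuousOn_snd fun p hp => hp.2.1).sub
      (hγ.comp continuousOn_fst fun p hp => hp.1)) (by fun_prop)
      fun p hp => sub_ne_zero.2 (Ne.symm hp.2.2)
  · intro p hp
    simp only [Function.uncurry]
    rw [dslope_of_ne _ (Ne.symm hp.2.2), slope_def_field]

theorem cont_dd2 (h : ExtMap K Ω γ ρ) :
    ContinuousOn (Function.uncurry (dd2 γ)) (ball 0 ρ ×ˢ ball 0 ρ) := by
  refine continuousOn_of_off_diag ?_ fun w hw => h.diff_dd2 hw
  refine ContinuousOn.congr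
    (f := fun p : ℂ × ℂ => (dslope γ p.1 p.2 - deriv γ p.1) / (p.2 - p.1)) ?_ ?_
  · refine ContinuousOn.div ((h.cont_dslope.mono fun p hp => ⟨hp.1, hp.2.1⟩).sub
      (h.diff_deriv.continuousOn.comp continuousOn_fst fun p hp => hp.1)) (by fun_prop)
      fun p hp => sub_ne_zero.2 (Ne.symm hp.2.2)
  · intro p hp
    simp only [Function.uncurry, dd2]
    rw [dslope_of_ne _ (Ne.symm hp.2.2), slope_def_field, dslope_same]

theorem cont_kk (h : ExtMap K Ω γ ρ) :
    ContinuousOn (Function.uncurry (kk γ)) (ball 0 ρ ×ˢ ball 0 ρ) := by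
  refine ContinuousOn.div (f := fun p : ℂ × ℂ => p.1 * p.2 * dd2 γ p.1 p.2)
    (g := fun p : ℂ × ℂ => n1 γ p.1 p.2) ((continuousOn_fst.mul continuousOn_snd).mul h.cont_dd2)
    ((h.diff.continuousOn.comp continuousOn_fst fun p hp => hp.1).sub
      (continuousOn_fst.mul h.cont_dslope)) fun p hp => h.n1_ne hp.1 hp.2

theorem diff_kk_right (h : ExtMap K Ω γ ρ) {w : ℂ} (hw : w ∈ ball (0 : ℂ) ρ) :
    DifferentiableOn ℂ (kk γ w) (ball 0 ρ) :=
  DifferentiableOn.div (c := fun w' => w * w' * dd2 γ w w') (d := fun w' => n1 γ w w')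
    ((differentiableOn_id.const_mul w).mul (h.diff_dd2 hw))
    ((differentiableOn_const _).sub ((h.diff_dslope hw).const_mul w))
    fun _ hw' => h.n1_ne hw hw'

theorem kk_eq (h : ExtMap K Ω γ ρ) {w w' : ℂ} (hw : w ∈ ball (0 : ℂ) ρ)
    (hw' : w' ∈ ball (0 : ℂ) ρ) (hne : w ≠ w') :
    kk γ w w' = w' * nu γ w / (w' * γ w - w * γ w') - w' / (w' - w) := by
  have h1 := h.n1_ne hw hw'
  have h2 : w' - w ≠ 0 := sub_ne_zero.2 hne.symm
  have h3 := sub_smul_dslope (dslope γ w) w w'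
  rw [smul_eq_mul, dslope_same] at h3
  rw [← n1_mul, kk]
  have h4 : nu γ w = n1 γ w w' + w * ((w' - w) * dd2 γ w w') := by
    unfold nu n1 dd2; rw [h3]; ring
  rw [h4]
  field_simp
  ring

theorem diff_kk_left (h : ExtMap K Ω γ ρ) {w' : ℂ} (hw' : w' ∈ ball (0 : ℂ) ρ) :
    DifferentiableOn ℂ (fun w => kk γ w w') (ball 0 ρ) := by
  refine (Complex.differentiableOn_compl_singleton_and_continuousAt_iff
    (isOpen_ball.mem_nhds hw')).1 ⟨?_, ?_⟩
  · refine DifferentiableOn.congr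
      (f := fun w => w' * nu γ w / (w' * γ w - w * γ w') - w' / (w' - w)) ?_
      fun w hw => h.kk_eq hw.1 hw' hw.2
    refine DifferentiableOn.sub (DifferentiableOn.div
      ((h.diff_nu.mono sdiff_subset).const_mul _)
      (((h.diff.mono sdiff_subset).const_mul _).sub (differentiableOn_id.mul_const _))
      fun w hw => sub_ne_zero.2 (h.inj w hw.1 w' hw' hw.2))
      (DifferentiableOn.div (differentiableOn_const _)
        ((differentiableOn_const _).sub differentiableOn_id)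
        fun w hw => sub_ne_zero.2 (Ne.symm hw.2))
  · have := h.cont_kk.continuousAt (x := (w', w'))
      ((isOpen_ball.prod isOpen_ball).mem_nhds ⟨hw', hw'⟩)
    exact this.comp (f := fun w => (w, w')) (by fun_prop)

theorem mem_ball_of_norm_one (h : ExtMap K Ω γ ρ) {w : ℂ} (hw : ‖w‖ = 1) : w ∈ ball (0 : ℂ) ρ := by
  simpa [hw] using h.one_lt

theorem kk_pos_of_ne (h : ExtMap K Ω γ ρ) {w w' : ℂ} (hw : ‖w‖ = 1) (hw' : ‖w'‖ = 1)
    (hne : w ≠ w') : 0 ≤ 1 + 2 * (kk γ w w').re := by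
  have hb := h.mem_ball_of_norm_one hw
  have hb' := h.mem_ball_of_norm_one hw'
  have hw0 : w' ≠ 0 := by rintro rfl; simp at hw'
  have h1 : (w' / (w' - w)).re = 1 / 2 := by
    have h2 : w' - w ≠ 0 := sub_ne_zero.2 hne.symm
    have h3 : Complex.normSq (w' - w) ≠ 0 := by simpa using h2
    have e1 : w.re * w.re + w.im * w.im = 1 := by
      rw [← Complex.normSq_apply, Complex.normSq_eq_norm_sq, hw]; norm_num
    have e2 : w'.re * w'.re + w'.im * w'.im = 1 := by
      rw [← Complex.normSq_apply, Complex.normSq_eq_norm_sq, hw']; norm_num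
    rw [Complex.div_re]
    field_simp
    simp only [Complex.normSq_apply, Complex.sub_re, Complex.sub_im]
    linear_combination e2 - e1
  have h4 : w' * nu γ w / (w' * γ w - w * γ w') = ((γ w - γ w' / w' * w) / nu γ w)⁻¹ := by
    have h5 : w' * γ w - w * γ w' ≠ 0 := sub_ne_zero.2 (h.inj w hb w' hb' hne)
    rw [inv_div]
    field_simp
  rw [h.kk_eq hb hb' hne, Complex.sub_re, h1, h4, Complex.inv_re]
  have := div_nonneg (h.pos₂ w w' hw hw') (Complex.normSq_nonneg ((γ w - γ w' / w' * w) / nu γ w))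
  unfold nu at this ⊢
  linarith

theorem kk_pos (h : ExtMap K Ω γ ρ) {w w' : ℂ} (hw : ‖w‖ = 1) (hw' : ‖w'‖ = 1) :
    0 ≤ 1 + 2 * (kk γ w w').re := by
  by_cases hne : w ≠ w'
  · exact h.kk_pos_of_ne hw hw' hne
  rw [not_not] at hne
  subst hne
  have hb := h.mem_ball_of_norm_one hw
  have hw0 : w ≠ 0 := by rintro rfl; simp at hw
  have hc : ContinuousAt (fun t : ℝ => 1 + 2 * (kk γ w (w * circleMap 0 1 t)).re) 0 := by
    have h1 : ContinuousAt (kk γ w) (w * circleMap 0 1 0) := by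
      have : w * circleMap 0 1 0 = w := by simp [circleMap]
      rw [this]
      exact (h.diff_kk_right hb).continuousOn.continuousAt (isOpen_ball.mem_nhds hb)
    have h2 : ContinuousAt (fun t : ℝ => kk γ w (w * circleMap 0 1 t)) 0 :=
      h1.comp (f := fun t : ℝ => w * circleMap 0 1 t) (by fun_prop)
    exact continuousAt_const.add (continuousAt_const.mul (Complex.continuous_re.continuousAt.comp h2))
  have hlim : Tendsto (fun t : ℝ => 1 + 2 * (kk γ w (w * circleMap 0 1 t)).re) (𝓝[>] 0)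
      (𝓝 (1 + 2 * (kk γ w w).re)) := by
    have := hc.tendsto.mono_left (nhdsWithin_le_nhds (s := Ioi 0))
    simpa [circleMap] using this
  refine ge_of_tendsto hlim ?_
  filter_upwards [Ioo_mem_nhdsGT (show (0 : ℝ) < 2 * π by positivity)] with t ht
  refine h.kk_pos_of_ne hw (by simp [hw]) fun e => ?_
  have e1 : circleMap 0 1 t = circleMap 0 1 0 := by
    have : w * circleMap 0 1 t = w * 1 := by rw [← e, mul_one]
    rw [mul_left_cancel₀ hw0 this]; simp [circleMap]
  have := eq_of_circleMap_eq one_ne_zero (by rw [sub_zero, abs_of_pos ht.1]; exact ht.2) e1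
  exact ht.1.ne' this

end ExtMap

end Crest.Agent.R132
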