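import Mathlib
import Crest.Agent.R132.Kernel

/-!
Row 132: the Faber operator is a contraction and produces boundary values of holomorphic
functions.
-/

set_option autoImplicit false

open scoped Real ComplexConjugate Topology
open Metric Set Filter

namespace Crest.Agent.R132

theorem cm_one_ne (θ : ℝ) : circleMap 0 1 θ ≠ 0 := circleMap_ne_center one_ne_zero

theorem norm_cm_one (θ : ℝ) : ‖circleMap 0 1 θ‖ = 1 := norm_cm zero_le_one θ

theorem cconj {X : Type*} [TopologicalSpace X] {f : X → ℂ} (hf : Continuous f) :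
    Continuous fun x => conj (f x) := Complex.continuous_conj.comp hf

theorem cont_bdry {p : ℂ → ℂ} (hp : DiffContOnCl ℂ p (ball 0 1)) :
    Continuous fun θ => p (circleMap 0 1 θ) := by
  refine hp.continuousOn.comp_continuous (by fun_prop) fun θ => ?_
  rw [closure_ball _ one_ne_zero]
  exact circleMap_mem_closedBall _ zero_le_one θ

theorem av_conj_cauchy {p : ℂ → ℂ} (hp : DiffContOnCl ℂ p (ball 0 1)) {z : ℂ} (hz : 1 < ‖z‖) :
    av (fun θ => conj (p (circleMap 0 1 θ)) * (z / (z - circleMap 0 1 θ)))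
      = conj (p (conj z⁻¹)) := by
  have hz0 : z ≠ 0 := by rintro rfl; norm_num at hz
  have h1 : ‖conj z⁻¹‖ < 1 := by
    rw [Complex.norm_conj, norm_inv]; exact inv_lt_one_of_one_lt₀ hz
  rw [← av_cauchy one_pos hp h1, ← av_conj]
  congr 1
  funext θ
  set e := circleMap 0 1 θ with he
  have he0 : e ≠ 0 := cm_one_ne θ
  have he1 : conj e = e⁻¹ := by
    rw [Complex.inv_def, Complex.normSq_eq_norm_sq, norm_cm_one]; simp
  have hze : z - e ≠ 0 := by
    intro h0
    rw [sub_eq_zero.1 h0, norm_cm_one] at hz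
    exact lt_irrefl _ hz
  simp only [map_mul, map_div₀, map_sub, Complex.conj_conj, he1]
  field_simp

namespace ExtMap

variable {K Ω : Set ℂ} {γ : ℂ → ℂ} {ρ : ℝ}

theorem hasDerivAt_curve (h : ExtMap K Ω γ ρ) {z : ℂ} (hz0 : z ≠ 0) (hz : ‖z‖ < ρ) :
    HasDerivAt (fun w => γ w / w) (-(nu γ z / z ^ 2)) z := by
  have h1 : HasDerivAt γ (deriv γ z) z :=
    (h.diff.differentiableAt (isOpen_ball.mem_nhds (by simpa using hz))).hasDerivAt
  refine (h1.fun_div (hasDerivAt_id' z) hz0).congr_deriv ?_
  simp only [nu]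
  field_simp
  ring

/-- Cauchy's theorem along the level curves. -/
theorem av_closed (h : ExtMap K Ω γ ρ) (hΩo : IsOpen Ω) (hΩc : Convex ℝ Ω) {ψ : ℂ → ℂ}
    (hψ : DifferentiableOn ℂ ψ Ω) {r : ℝ} (hr1 : 1 ≤ r) (hr : r < ρ) :
    av (fun θ => nu γ (circleMap 0 r θ) / circleMap 0 r θ
      * ψ (γ (circleMap 0 r θ) / circleMap 0 r θ)) = 0 := by
  obtain ⟨P, hP⟩ := hΩc.exists_forall_hasDerivWithinAt hψ
  have hr0 : 0 < r := one_pos.trans_le hr1
  refine Eq.trans ?_ (av_deriv (P := fun z => -P (γ z / z))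
    (P' := fun z => ψ (γ z / z) * (nu γ z / z ^ 2)) hr0 ?_)
  · congr 1
    funext θ
    have : circleMap 0 r θ ≠ 0 := circleMap_ne_center hr0.ne'
    field_simp
  · intro z hz
    have hz0 : z ≠ 0 := by rintro rfl; simp at hz; exact hr0.ne hz
    have hm : γ z / z ∈ Ω := h.mem z (hz ▸ hr1) (hz ▸ hr)
    have := (HasDerivAt.comp (h := fun w => γ w / w) z ((hP _ hm).hasDerivAt (hΩo.mem_nhds hm))
      (h.hasDerivAt_curve hz0 (hz ▸ hr))).neg
    refine HasDerivAt.congr_deriv this ?_
    ring

theorem diffAt_density (h : ExtMap K Ω γ ρ) (hΩo : IsOpen Ω) {φ : ℂ → ℂ}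
    (hφ : DifferentiableOn ℂ φ Ω) {z : ℂ} (hz1 : 1 ≤ ‖z‖) (hz : ‖z‖ < ρ) :
    DifferentiableAt ℂ (fun w => nu γ w / w * φ (γ w / w)) z := by
  have hz0 : z ≠ 0 := by rintro rfl; norm_num at hz1
  have hb : ball (0 : ℂ) ρ ∈ 𝓝 z := isOpen_ball.mem_nhds (by simpa using hz)
  exact ((h.diff_nu.differentiableAt hb).div differentiableAt_id hz0).mul
    (DifferentiableAt.comp (f := fun w => γ w / w) z
      (hφ.differentiableAt (hΩo.mem_nhds (h.mem z hz1 hz)))
      (h.hasDerivAt_curve hz0 hz).differentiableAt)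

theorem cont_density (h : ExtMap K Ω γ ρ) (hΩo : IsOpen Ω) {φ : ℂ → ℂ}
    (hφ : DifferentiableOn ℂ φ Ω) {r : ℝ} (hr1 : 1 ≤ r) (hr : r < ρ) :
    Continuous fun θ => nu γ (circleMap 0 r θ) / circleMap 0 r θ
      * φ (γ (circleMap 0 r θ) / circleMap 0 r θ) := by
  have hn := norm_cm (zero_le_one.trans hr1)
  refine continuous_iff_continuousAt.2 fun θ => ?_
  exact (h.diffAt_density hΩo hφ (z := circleMap 0 r θ) (by rw [hn]; exact hr1)
    (by rw [hn]; exact hr)).continuousAt.comp (f := fun θ => circleMap 0 r θ) (by fun_prop)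

theorem cont_kk_circle (h : ExtMap K Ω γ ρ) :
    Continuous fun p : ℝ × ℝ => kk γ (circleMap 0 1 p.1) (circleMap 0 1 p.2) :=
  h.cont_kk.comp_continuous (f := fun p : ℝ × ℝ => (circleMap 0 1 p.1, circleMap 0 1 p.2))
    (by fun_prop) fun p =>
      ⟨h.mem_ball_of_norm_one (norm_cm_one _), h.mem_ball_of_norm_one (norm_cm_one _)⟩

/-- Pairing the kernel with a holomorphic density. -/
theorem av_density_kk (h : ExtMap K Ω γ ρ) (hΩo : IsOpen Ω) (hΩc : Convex ℝ Ω) {φ : ℂ → ℂ}
    (hφ : DifferentiableOn ℂ φ Ω) {r : ℝ} (hr1 : 1 < r) (hr : r < ρ) {w : ℂ} (hw : ‖w‖ = 1) :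
    av (fun θ => nu γ (circleMap 0 1 θ) / circleMap 0 1 θ
        * φ (γ (circleMap 0 1 θ) / circleMap 0 1 θ) * kk γ w (circleMap 0 1 θ))
      = -av (fun θ => nu γ (circleMap 0 r θ) / circleMap 0 r θ
        * φ (γ (circleMap 0 r θ) / circleMap 0 r θ)
          * (circleMap 0 r θ / (circleMap 0 r θ - w))) := by
  have hr0 : 0 < r := one_pos.trans hr1
  have hb := h.mem_ball_of_norm_one hw
  have hw0 : w ≠ 0 := by rintro rfl; simp at hw
  have hd : ∀ z : ℂ, 1 ≤ ‖z‖ → ‖z‖ < ρ →
      DifferentiableAt ℂ (fun z => nu γ z / z * φ (γ z / z) * kk γ w z) z := fun z h1 h2 =>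
    (h.diffAt_density hΩo hφ h1 h2).mul
      ((h.diff_kk_right hb).differentiableAt (isOpen_ball.mem_nhds (by simpa using h2)))
  rw [← av_shift (F := fun z => nu γ z / z * φ (γ z / z) * kk γ w z) one_pos hr1.le
    (fun z hz => (hd z (by simpa using hz.2)
      (lt_of_le_of_lt (by simpa using hz.1) hr)).continuousAt.continuousWithinAt)
    (fun z hz => hd z (le_of_lt (by simpa using hz.2)) (lt_trans (by simpa using hz.1) hr))]
  have hΓw : γ w / w ∈ Ω := h.mem w hw.ge (hw ▸ h.one_lt)
  have hψ : DifferentiableOn ℂ (dslope φ (γ w / w)) Ω :=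
    (Complex.differentiableOn_dslope (hΩo.mem_nhds hΓw)).2 hφ
  have hn := norm_cm hr0.le
  have hne : ∀ θ, circleMap 0 r θ - w ≠ 0 := fun θ h0 => by
    have := hn θ
    rw [sub_eq_zero.1 h0, hw] at this
    exact hr1.ne this
  have hcb : ∀ θ, circleMap 0 r θ ∈ ball (0 : ℂ) ρ := fun θ => by simpa [abs_of_pos hr0] using hr
  have e : (fun θ => nu γ (circleMap 0 r θ) / circleMap 0 r θ
        * φ (γ (circleMap 0 r θ) / circleMap 0 r θ) * kk γ w (circleMap 0 r θ))
      = fun θ => (-(nu γ w / w) * (nu γ (circleMap 0 r θ) / circleMap 0 r θ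
          * dslope φ (γ w / w) (γ (circleMap 0 r θ) / circleMap 0 r θ))
        - nu γ w / w * φ (γ w / w) * (kk γ (circleMap 0 r θ) w
          + (1 - circleMap 0 r θ / (circleMap 0 r θ - w) * 1)))
        - nu γ (circleMap 0 r θ) / circleMap 0 r θ
          * φ (γ (circleMap 0 r θ) / circleMap 0 r θ)
          * (circleMap 0 r θ / (circleMap 0 r θ - w)) := by
    funext θ
    have h1 := hne θ
    have h2 := hcb θ
    have h3 : circleMap 0 r θ ≠ 0 := circleMap_ne_center hr0.ne'
    generalize circleMap 0 r θ = z at h1 h2 h3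
    have hzw : w ≠ z := fun e => h1 (by rw [e, sub_self])
    have h4 : z * γ w - w * γ z ≠ 0 := sub_ne_zero.2 (h.inj w hb z h2 hzw)
    have h5 : w * γ z - z * γ w ≠ 0 := fun e => h4 (by linear_combination -e)
    have h6 : w - z ≠ 0 := sub_ne_zero.2 hzw
    have h7 := sub_smul_dslope φ (γ w / w) (γ z / z)
    rw [smul_eq_mul] at h7
    have h8 : φ (γ z / z) = φ (γ w / w) + (γ z / z - γ w / w) * dslope φ (γ w / w) (γ z / z) := by
      rw [h7]; ring
    rw [h.kk_eq hb h2 hzw, h.kk_eq h2 hb hzw.symm]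
    generalize dslope φ (γ w / w) (γ z / z) = d at h8
    rw [h8]
    have h9 : w * γ z - z * γ w = -(z * γ w - w * γ z) := by ring
    have h10 : w - z = -(z - w) := by ring
    rw [h9, h10]
    field_simp
    ring
  have c1 := h.cont_density hΩo hψ hr1.le hr
  have c2 : Continuous fun θ => kk γ (circleMap 0 r θ) w :=
    (h.diff_kk_left hb).continuousOn.comp_continuous (by fun_prop) hcb
  have c3 : Continuous fun θ => circleMap 0 r θ / (circleMap 0 r θ - w) :=
    Continuous.div (by fun_prop) (by fun_prop) hne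
  have c4 := h.cont_density hΩo hφ hr1.le hr
  have c5 : Continuous fun θ => 1 - circleMap 0 r θ / (circleMap 0 r θ - w) * 1 :=
    continuous_const.sub (c3.mul continuous_const)
  rw [e, av_sub (by exact (continuous_const.mul c1).sub (continuous_const.mul (c2.add c5)))
      (by exact c4.mul c3),
    av_sub (by exact continuous_const.mul c1) (by exact continuous_const.mul (c2.add c5)),
    av_const_mul, av_const_mul, h.av_closed hΩo hΩc hψ hr1.le hr, av_add c2 c5,
    av_sub continuous_const (by exact c3.mul continuous_const), av_const,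
    av_mean (F := fun z => kk γ z w) hr0 (diffContOnCl_ball hr (h.diff_kk_left hb)),
    av_cauchy (F := fun _ => 1) hr0 diffContOnCl_const (hw ▸ hr1), kk_zero_left]
  simp

/-- The Faber correction term. -/
noncomputable def fab (γ : ℂ → ℂ) (p : ℂ → ℂ) (t : ℝ) : ℂ :=
  av fun θ => kk γ (circleMap 0 1 θ) (circleMap 0 1 t) * conj (p (circleMap 0 1 θ))

theorem cont_fab_integrand (h : ExtMap K Ω γ ρ) {p : ℂ → ℂ} (hp : DiffContOnCl ℂ p (ball 0 1)) :
    Continuous fun x : ℝ × ℝ =>
      kk γ (circleMap 0 1 x.2) (circleMap 0 1 x.1) * conj (p (circleMap 0 1 x.2)) :=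
  (h.cont_kk_circle.comp continuous_swap).mul
    (Complex.continuous_conj.comp ((cont_bdry hp).comp continuous_snd))

theorem cont_fab (h : ExtMap K Ω γ ρ) {p : ℂ → ℂ} (hp : DiffContOnCl ℂ p (ball 0 1)) :
    Continuous (fab γ p) :=
  continuous_av (h.cont_fab_integrand hp)

theorem fab_orth (h : ExtMap K Ω γ ρ) {p : ℂ → ℂ} (hp : DiffContOnCl ℂ p (ball 0 1))
    {u : ℂ → ℂ} (hu : DiffContOnCl ℂ u (ball 0 1)) :
    av (fun t => fab γ p t * u (circleMap 0 1 t)) = 0 := by
  simp only [fab, ← av_mul_const]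
  rw [av_swap (by exact (h.cont_fab_integrand hp).mul ((cont_bdry hu).comp continuous_fst))]
  have : ∀ θ, av (fun t => kk γ (circleMap 0 1 θ) (circleMap 0 1 t) * conj (p (circleMap 0 1 θ))
      * u (circleMap 0 1 t)) = 0 := by
    intro θ
    have hd := diffContOnCl_ball h.one_lt
      (h.diff_kk_right (h.mem_ball_of_norm_one (norm_cm_one θ)))
    have := av_mean (F := fun z => kk γ (circleMap 0 1 θ) z * conj (p (circleMap 0 1 θ)) * u z)
      one_pos ⟨(hd.differentiableOn.mul_const _).mul hu.differentiableOn,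
        (hd.continuousOn.mul continuousOn_const).mul hu.continuousOn⟩
    rw [this, kk_zero_right]; simp
  simp only [this, av_const]

theorem fab_eq (h : ExtMap K Ω γ ρ) {p : ℂ → ℂ} (hp : DiffContOnCl ℂ p (ball 0 1)) (h0 : p 0 = 0)
    (t : ℝ) : fab γ p t = av fun θ => (1 + kk γ (circleMap 0 1 θ) (circleMap 0 1 t)
      + conj (kk γ (circleMap 0 1 θ) (circleMap 0 1 t))) * conj (p (circleMap 0 1 θ)) := by
  have c1 : Continuous fun θ => kk γ (circleMap 0 1 θ) (circleMap 0 1 t) :=
    h.cont_kk_circle.comp (f := fun θ : ℝ => (θ, t)) (by fun_prop)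
  have c2 := cont_bdry hp
  have hd := diffContOnCl_ball h.one_lt
    (h.diff_kk_left (h.mem_ball_of_norm_one (norm_cm_one t)))
  have e1 : av (fun θ => conj (p (circleMap 0 1 θ))) = 0 := by
    rw [av_conj, av_mean one_pos hp, h0, map_zero]
  have e2 : av (fun θ => conj (kk γ (circleMap 0 1 θ) (circleMap 0 1 t))
      * conj (p (circleMap 0 1 θ))) = 0 := by
    simp only [← map_mul]
    rw [av_conj, av_mean (F := fun z => kk γ z (circleMap 0 1 t) * p z) one_pos
      ⟨hd.differentiableOn.mul hp.differentiableOn, hd.continuousOn.mul hp.continuousOn⟩, h0]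
    simp
  simp only [add_mul, one_mul]
  rw [av_add (by exact (cconj c2).add (c1.mul (cconj c2))) (by exact (cconj c1).mul (cconj c2)),
    av_add (cconj c2) (by exact c1.mul (cconj c2)), e1, e2, fab]
  simp

theorem av_kernel_left (h : ExtMap K Ω γ ρ) (t : ℝ) :
    av (fun θ => 1 + kk γ (circleMap 0 1 θ) (circleMap 0 1 t)
      + conj (kk γ (circleMap 0 1 θ) (circleMap 0 1 t))) = 1 := by
  have c1 : Continuous fun θ => kk γ (circleMap 0 1 θ) (circleMap 0 1 t) :=
    h.cont_kk_circle.comp (f := fun θ : ℝ => (θ, t)) (by fun_prop)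
  have e := av_mean (F := fun z => kk γ z (circleMap 0 1 t)) one_pos (diffContOnCl_ball h.one_lt
    (h.diff_kk_left (h.mem_ball_of_norm_one (norm_cm_one t))))
  rw [av_add (by fun_prop) (by fun_prop), av_add (by fun_prop) c1, av_conj, e, av_const,
    kk_zero_left]
  simp

theorem av_kernel_right (h : ExtMap K Ω γ ρ) (θ : ℝ) :
    av (fun t => 1 + kk γ (circleMap 0 1 θ) (circleMap 0 1 t)
      + conj (kk γ (circleMap 0 1 θ) (circleMap 0 1 t))) = 1 := by
  have c1 : Continuous fun t => kk γ (circleMap 0 1 θ) (circleMap 0 1 t) :=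
    h.cont_kk_circle.comp (f := fun t : ℝ => (θ, t)) (by fun_prop)
  have e := av_mean (F := fun z => kk γ (circleMap 0 1 θ) z) one_pos (diffContOnCl_ball h.one_lt
    (h.diff_kk_right (h.mem_ball_of_norm_one (norm_cm_one θ))))
  rw [av_add (by fun_prop) (by fun_prop), av_add (by fun_prop) c1, av_conj, e, av_const,
    kk_zero_right]
  simp

theorem fab_le (h : ExtMap K Ω γ ρ) {p : ℂ → ℂ} (hp : DiffContOnCl ℂ p (ball 0 1)) (h0 : p 0 = 0) :
    (av fun t => conj (fab γ p t) * fab γ p t).re
      ≤ (av fun θ => conj (p (circleMap 0 1 θ)) * p (circleMap 0 1 θ)).re := by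
  set κ : ℝ → ℝ → ℂ := fun θ t => 1 + kk γ (circleMap 0 1 θ) (circleMap 0 1 t)
      + conj (kk γ (circleMap 0 1 θ) (circleMap 0 1 t)) with hκ
  have cκ : Continuous fun x : ℝ × ℝ => κ x.1 x.2 := by
    have := h.cont_kk_circle
    simp only [hκ]
    fun_prop
  have c2 := cont_bdry hp
  have cq := h.cont_fab hp
  have hκr : ∀ θ t, κ θ t = ((1 + 2 * (kk γ (circleMap 0 1 θ) (circleMap 0 1 t)).re : ℝ) : ℂ) := by
    intro θ t
    simp only [hκ]
    rw [add_assoc, Complex.add_conj]; push_cast; ring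
  have hpt : ∀ t, (conj (fab γ p t) * fab γ p t).re
      ≤ (av fun θ => κ θ t * (conj (p (circleMap 0 1 θ)) * p (circleMap 0 1 θ))).re := by
    intro t
    have c1 : Continuous fun θ => κ θ t := cκ.comp (f := fun θ : ℝ => (θ, t)) (by fun_prop)
    set c := fab γ p t with hc
    have hc' : av (fun θ => κ θ t * conj (p (circleMap 0 1 θ))) = c := (h.fab_eq hp h0 t).symm
    have hc'' : av (fun θ => κ θ t * p (circleMap 0 1 θ)) = conj c := by
      rw [← hc', ← av_conj]
      congr 1
      funext θ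
      rw [map_mul, Complex.conj_conj, hκr, Complex.conj_ofReal]
    have hm := av_mono_re (f := fun θ => conj c * (κ θ t * conj (p (circleMap 0 1 θ)))
        + c * (κ θ t * p (circleMap 0 1 θ)) - conj c * c * κ θ t)
      (g := fun θ => κ θ t * (conj (p (circleMap 0 1 θ)) * p (circleMap 0 1 θ)))
      (by exact ((continuous_const.mul (c1.mul (cconj c2))).add
        (continuous_const.mul (c1.mul c2))).sub (continuous_const.mul c1))
      (by exact c1.mul ((cconj c2).mul c2)) fun θ => by
        have h1 := h.kk_pos (norm_cm_one θ) (norm_cm_one t)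
        rw [hκr]
        generalize (1 + 2 * (kk γ (circleMap 0 1 θ) (circleMap 0 1 t)).re : ℝ) = k at h1
        generalize p (circleMap 0 1 θ) = a
        have h2 := mul_nonneg h1 (add_nonneg (sq_nonneg (a.re - c.re)) (sq_nonneg (a.im + c.im)))
        simp only [Complex.sub_re, Complex.add_re, Complex.mul_re, Complex.mul_im, Complex.conj_re,
          Complex.conj_im, Complex.ofReal_re, Complex.ofReal_im]
        nlinarith
    rw [av_sub (by exact ((continuous_const.mul (c1.mul (cconj c2))).add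
        (continuous_const.mul (c1.mul c2)))) (by exact continuous_const.mul c1),
      av_add (by exact continuous_const.mul (c1.mul (cconj c2)))
        (by exact continuous_const.mul (c1.mul c2)), av_const_mul,
      av_const_mul, av_const_mul, hc', hc'', h.av_kernel_left] at hm
    refine le_of_eq_of_le ?_ hm
    congr 1
    ring
  have cF : Continuous (Function.uncurry fun t θ : ℝ =>
      κ θ t * (conj (p (circleMap 0 1 θ)) * p (circleMap 0 1 θ))) :=
    (cκ.comp continuous_swap).mul (((cconj c2).mul c2).comp continuous_snd)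
  refine (av_mono_re (by fun_prop) (continuous_av cF) hpt).trans (le_of_eq ?_)
  rw [av_swap cF]
  simp only [av_mul_const, hκ, h.av_kernel_right, one_mul]

theorem fab_hol (h : ExtMap K Ω γ ρ) (hΩo : IsOpen Ω) (hΩc : Convex ℝ Ω) {p : ℂ → ℂ}
    (hp : DiffContOnCl ℂ p (ball 0 1)) {φ : ℂ → ℂ} (hφ : DifferentiableOn ℂ φ Ω) :
    av (fun t => nu γ (circleMap 0 1 t) / circleMap 0 1 t
        * φ (γ (circleMap 0 1 t) / circleMap 0 1 t)
        * (conj (p (circleMap 0 1 t)) + fab γ p t)) = 0 := by
  obtain ⟨r, hr1, hr⟩ := exists_between h.one_lt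
  have hr0 : 0 < r := one_pos.trans hr1
  have c1 := h.cont_density hΩo hφ le_rfl h.one_lt
  have cr := h.cont_density hΩo hφ hr1.le hr
  have c2 := cont_bdry hp
  have cq := h.cont_fab hp
  set F : ℂ → ℂ := fun z => nu γ z / z * φ (γ z / z) with hF
  change Continuous fun θ => F (circleMap 0 1 θ) at c1
  change Continuous fun θ => F (circleMap 0 r θ) at cr
  change av (fun t => F (circleMap 0 1 t) * (conj (p (circleMap 0 1 t)) + fab γ p t)) = 0
  have hn := norm_cm hr0.le
  have e1 : av (fun t => F (circleMap 0 1 t) * fab γ p t)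
      = -av (fun t => F (circleMap 0 r t) * conj (p (conj (circleMap 0 r t)⁻¹))) := by
    simp only [fab, ← av_const_mul]
    rw [av_swap (by exact (c1.comp continuous_fst).mul (h.cont_fab_integrand hp))]
    have e2 : ∀ θ, av (fun t => F (circleMap 0 1 t) * (kk γ (circleMap 0 1 θ) (circleMap 0 1 t)
        * conj (p (circleMap 0 1 θ)))) = -av (fun t => F (circleMap 0 r t)
          * (conj (p (circleMap 0 1 θ))
            * (circleMap 0 r t / (circleMap 0 r t - circleMap 0 1 θ)))) := by
      intro θ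
      have := h.av_density_kk hΩo hΩc hφ hr1 hr (norm_cm_one θ)
      simp only [← mul_assoc, av_mul_const]
      rw [this]
      simp only [mul_right_comm _ (conj (p (circleMap 0 1 θ))), av_mul_const, hF]
      ring
    simp only [e2, av_neg]
    rw [av_swap]
    · congr 2
      funext t
      rw [av_const_mul, av_conj_cauchy hp (by rw [hn]; exact hr1)]
    · refine (cr.comp continuous_snd).mul ((Complex.continuous_conj.comp
        (c2.comp continuous_fst)).mul (Continuous.div (by fun_prop) (by fun_prop) fun x h0 => ?_))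
      have := hn x.2
      rw [sub_eq_zero.1 h0, norm_cm_one] at this
      exact hr1.ne this
  have e3 : av (fun t => F (circleMap 0 r t) * conj (p (conj (circleMap 0 r t)⁻¹)))
      = av (fun t => F (circleMap 0 1 t) * conj (p (circleMap 0 1 t))) := by
    rw [av_shift (F := fun z => F z * conj (p (conj z⁻¹))) one_pos hr1.le]
    · congr 1
      funext t
      have : conj (circleMap 0 1 t)⁻¹ = circleMap 0 1 t := by
        rw [Complex.inv_def, Complex.normSq_eq_norm_sq, norm_cm_one]; simp
      rw [this]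
    · refine ContinuousOn.mul (fun z hz => (h.diffAt_density hΩo hφ (by simpa using hz.2)
        (lt_of_le_of_lt (by simpa using hz.1) hr)).continuousAt.continuousWithinAt) ?_
      refine Complex.continuous_conj.comp_continuousOn (hp.continuousOn.comp
        (Complex.continuous_conj.comp_continuousOn (continuousOn_id.inv₀ ?_)) ?_)
      · rintro z hz rfl
        simp at hz
      · intro z hz
        rw [closure_ball _ one_ne_zero]
        have : 1 ≤ ‖z‖ := by simpa using hz.2
        simpa using inv_le_one_of_one_le₀ this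
    · intro z hz
      have h1 : 1 < ‖z‖ := by simpa using hz.2
      have hz0 : z ≠ 0 := by rintro rfl; norm_num at h1
      refine (h.diffAt_density hΩo hφ h1.le (lt_trans (by simpa using hz.1) hr)).mul ?_
      have h2 : DifferentiableAt ℂ p (conj z⁻¹) :=
        hp.differentiableOn.differentiableAt (isOpen_ball.mem_nhds (by
          simpa using inv_lt_one_of_one_lt₀ h1))
      have h3 : DifferentiableAt ℂ (conj ∘ p ∘ conj) z⁻¹ := by
        simpa using h2.conj_conj
      exact h3.comp z (differentiableAt_inv hz0)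
  simp only [mul_add]
  rw [av_add (by exact c1.mul (cconj c2)) (by exact c1.mul cq), e1, e3, add_neg_cancel]

end ExtMap

end Crest.Agent.R132
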