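import Mathlib
import Crest.Agent.R132.Defs

/-!
Row 132: the numerical range of a matrix is compact and convex (Toeplitz-Hausdorff) and contains
the spectrum.
-/

set_option autoImplicit false

open scoped Matrix
open Metric Set Crest.AnalysisR.NumRange

namespace Crest.Agent.R132

namespace NumRangeAux

variable {E : Type*} [NormedAddCommGroup E] [InnerProductSpace ℂ E]

/-- Normalising a nonzero vector. -/
theorem exists_unit (T : E →ₗ[ℂ] E) (z : E) (hz : z ≠ 0) (c : ℂ)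
    (h : inner ℂ z (T z) = c * ((‖z‖ : ℂ) ^ 2)) :
    ∃ x : E, ‖x‖ = 1 ∧ c = inner ℂ x (T x) := by
  have hn : (‖z‖ : ℂ) ≠ 0 := by exact_mod_cast norm_ne_zero_iff.2 hz
  refine ⟨((‖z‖ : ℂ))⁻¹ • z, ?_, ?_⟩
  · rw [norm_smul, norm_inv, Complex.norm_real, norm_norm,
      inv_mul_cancel₀ (norm_ne_zero_iff.2 hz)]
  · rw [map_smul, inner_smul_left, inner_smul_right, h, map_inv₀, Complex.conj_ofReal]
    field_simp

/-- The normalised case of the Toeplitz-Hausdorff theorem. -/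
theorem normalised (S : E →ₗ[ℂ] E) (x y : E) (hx : ‖x‖ = 1) (hy : ‖y‖ = 1)
    (hSx : inner ℂ x (S x) = 1) (hSy : inner ℂ y (S y) = 0) (t : ℝ) (ht0 : 0 ≤ t) (ht1 : t ≤ 1) :
    ∃ z : E, z ≠ 0 ∧ inner ℂ z (S z) = (t : ℂ) * ((‖z‖ : ℂ) ^ 2) := by
  obtain ⟨l, hl1, hl⟩ := Complex.exists_norm_eq_mul_self
    (inner ℂ y (S x) - (starRingEnd ℂ) (inner ℂ x (S y)))
  set x' : E := l • x with hx'
  have hll : (starRingEnd ℂ) l * l = 1 := by
    rw [Complex.conj_mul', hl1]; simp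
  have hx'n : ‖x'‖ = 1 := by rw [hx', norm_smul, hl1, hx, one_mul]
  have hSx' : inner ℂ x' (S x') = 1 := by
    rw [hx', map_smul, inner_smul_left, inner_smul_right, hSx, mul_one, hll]
  set κ : ℂ := inner ℂ x' (S y) + inner ℂ y (S x') with hκ
  have hκim : κ.im = 0 := by
    have h1 := congrArg Complex.im hl
    rw [hκ, hx', map_smul, inner_smul_left, inner_smul_right]
    simp only [Complex.ofReal_im, Complex.mul_im, Complex.sub_im, Complex.sub_re, Complex.conj_im,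
      Complex.conj_re, Complex.add_im] at h1 ⊢
    linarith
  have hκre : κ = (κ.re : ℂ) := by
    apply Complex.ext <;> simp [hκim]
  let z : ℝ → E := fun s => (s : ℂ) • x' + ((1 - s : ℝ) : ℂ) • y
  have hq : ∀ s : ℝ, inner ℂ (z s) (S (z s)) = ((s ^ 2 + s * (1 - s) * κ.re : ℝ) : ℂ) := by
    intro s
    simp only [z, map_add, map_smul, inner_add_left, inner_add_right, inner_smul_left,
      inner_smul_right, Complex.conj_ofReal, hSx', hSy]
    push_cast
    rw [← hκre, hκ]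
    ring
  let g : ℝ → ℝ := fun s => (s ^ 2 + s * (1 - s) * κ.re) - t * ‖z s‖ ^ 2
  have hg : Continuous g := by
    simp only [g, z]
    fun_prop
  have hg0 : g 0 ≤ 0 := by
    simp [g, z, hy, ht0]
  have hg1 : 0 ≤ g 1 := by
    simp [g, z, hx'n, ht1]
  obtain ⟨s, -, hs⟩ := intermediate_value_Icc (zero_le_one' ℝ) hg.continuousOn ⟨hg0, hg1⟩
  refine ⟨z s, ?_, ?_⟩
  · intro h0
    have h1 : (s : ℂ) • x' = -(((1 - s : ℝ) : ℂ) • y) := eq_neg_of_add_eq_zero_left h0
    have h2 : inner ℂ ((s : ℂ) • x') (S ((s : ℂ) • x')) = (s : ℂ) ^ 2 := by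
      rw [map_smul, inner_smul_left, inner_smul_right, hSx', Complex.conj_ofReal]; ring
    rw [h1, map_neg, map_smul, inner_neg_neg, inner_smul_left, inner_smul_right, hSy] at h2
    have h3 : (s : ℂ) = 0 := by simpa using h2.symm
    have h4 : s = 0 := by exact_mod_cast h3
    subst h4
    have : y = 0 := by simpa [z] using h0
    simp [this] at hy
  · rw [hq]
    have : s ^ 2 + s * (1 - s) * κ.re = t * ‖z s‖ ^ 2 := by
      have : g s = 0 := hs
      simp only [g] at this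
      linarith
    rw [this]
    push_cast
    ring

/-- The Toeplitz-Hausdorff theorem in an inner product space. -/
theorem convex_range (T : E →ₗ[ℂ] E) :
    Convex ℝ {c : ℂ | ∃ x : E, ‖x‖ = 1 ∧ c = inner ℂ x (T x)} := by
  rintro α ⟨x, hx, hα⟩ β ⟨y, hy, hβ⟩ a b ha hb hab
  by_cases hne : α = β
  · refine ⟨x, hx, ?_⟩
    rw [← hne, ← add_smul, hab, one_smul, hα]
  have hd : α - β ≠ 0 := sub_ne_zero.2 hne
  let S : E →ₗ[ℂ] E := (α - β)⁻¹ • (T - β • LinearMap.id)
  have hS : ∀ v : E, inner ℂ v (S v) =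
      (α - β)⁻¹ * (inner ℂ v (T v) - β * ((‖v‖ : ℂ) ^ 2)) := by
    intro v
    simp only [S, LinearMap.smul_apply, LinearMap.sub_apply, LinearMap.id_apply,
      inner_smul_right, inner_sub_right, inner_self_eq_norm_sq_to_K]
    rfl
  obtain ⟨z, hz0, hz⟩ := normalised S x y hx hy
    (by rw [hS, hx, ← hα]; simp [hd]) (by rw [hS, hy, ← hβ]; simp) a ha (by linarith)
  refine exists_unit T z hz0 _ ?_
  rw [hS] at hz
  have hb' : (b : ℂ) = 1 - a := by
    have : b = 1 - a := by linarith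
    rw [this]; push_cast; ring
  have h2 : inner ℂ z (T z) - β * ((‖z‖ : ℂ) ^ 2) = (α - β) * ((a : ℂ) * ((‖z‖ : ℂ) ^ 2)) := by
    rw [← hz]; field_simp
  simp only [Complex.real_smul]
  rw [hb']
  linear_combination h2

end NumRangeAux

/-- The numerical range in coordinates. -/
theorem mem_numRange_iff {n : ℕ} (A : Matrix (Fin n) (Fin n) ℂ) (z : ℂ) :
    z ∈ numRange A ↔
      ∃ x : Fin n → ℂ, ∑ a, ‖x a‖ ^ 2 = 1 ∧ z = star x ⬝ᵥ (A *ᵥ x) := by
  constructor
  · rintro ⟨x, hx, rfl⟩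
    refine ⟨x.ofLp, ?_, ?_⟩
    · rw [← EuclideanSpace.norm_sq_eq, hx, one_pow]
    · rw [EuclideanSpace.inner_eq_star_dotProduct, dotProduct_comm]
      rfl
  · rintro ⟨x, hx, rfl⟩
    refine ⟨WithLp.toLp 2 x, ?_, ?_⟩
    · have h := EuclideanSpace.norm_sq_eq (WithLp.toLp 2 x : EuclideanSpace ℂ (Fin n))
      rw [hx] at h
      exact (sq_eq_sq₀ (norm_nonneg _) zero_le_one).1 (by rw [h, one_pow])
    · rw [EuclideanSpace.inner_eq_star_dotProduct, dotProduct_comm]
      rfl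

theorem isCompact_numRange {n : ℕ} (A : Matrix (Fin n) (Fin n) ℂ) : IsCompact (numRange A) := by
  have h : numRange A = (fun x : EuclideanSpace ℂ (Fin n) =>
      inner ℂ x (Matrix.toEuclideanCLM (n := Fin n) (𝕜 := ℂ) A x)) '' sphere 0 1 := by
    ext z
    simp only [numRange, mem_setOf_eq, mem_image, mem_sphere_iff_norm, sub_zero]
    constructor
    · rintro ⟨x, hx, rfl⟩
      exact ⟨x, hx, rfl⟩
    · rintro ⟨x, hx, rfl⟩
      exact ⟨x, hx, rfl⟩
  rw [h]
  refine (isCompact_sphere 0 1).image ?_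
  fun_prop

theorem numRange_nonempty {n : ℕ} (hn : 1 ≤ n) (A : Matrix (Fin n) (Fin n) ℂ) :
    (numRange A).Nonempty :=
  ⟨_, EuclideanSpace.single (⟨0, hn⟩ : Fin n) (1 : ℂ), by simp, rfl⟩

/-- **Toeplitz-Hausdorff theorem**. -/
theorem convex_numRange {n : ℕ} (A : Matrix (Fin n) (Fin n) ℂ) : Convex ℝ (numRange A) :=
  NumRangeAux.convex_range (Matrix.toEuclideanLin A)

theorem spectrum_subset_numRange {n : ℕ} (A : Matrix (Fin n) (Fin n) ℂ) :
    spectrum ℂ A ⊆ numRange A := by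
  intro μ hμ
  rw [← Matrix.spectrum_toEuclideanLin] at hμ
  obtain ⟨v, hv⟩ := (Module.End.HasEigenvalue.of_mem_spectrum hμ).exists_hasEigenvector
  refine NumRangeAux.exists_unit (Matrix.toEuclideanLin A) v hv.2 μ ?_
  rw [hv.apply_eq_smul, inner_smul_right, inner_self_eq_norm_sq_to_K]
  rfl

end Crest.Agent.R132
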