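import Mathlib
import Crest.Agent.R132.Defs
import Crest.Agent.R132.Calc
import Crest.Agent.R132.NumRange
import Crest.Agent.R132.Ext
import Crest.Agent.R132.Core
import Crest.Agent.R132.Faber

/-!
Row 132: the complete Crouzeix estimate for the holomorphic functional calculus of a matrix.
-/

set_option autoImplicit false

open scoped Matrix ComplexOrder ComplexConjugate
open Metric Set Crest.AnalysisR.NumRange

namespace Crest.Agent.R132

variable {n : ℕ}

theorem diffOn_det {s : Set ℂ} {N : ℂ → Matrix (Fin n) (Fin n) ℂ}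
    (hN : ∀ a b, DifferentiableOn ℂ (fun w => N w a b) s) :
    DifferentiableOn ℂ (fun w => (N w).det) s := by
  simp only [Matrix.det_apply']
  exact DifferentiableOn.fun_sum fun σ _ =>
    (DifferentiableOn.fun_finsetProd fun i _ => hN _ _).const_mul _

theorem diffOn_inv {s : Set ℂ} {N : ℂ → Matrix (Fin n) (Fin n) ℂ}
    (hN : ∀ a b, DifferentiableOn ℂ (fun w => N w a b) s) (hdet : ∀ w ∈ s, (N w).det ≠ 0)
    (a b : Fin n) : DifferentiableOn ℂ (fun w => (N w)⁻¹ a b) s := by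
  simp only [Matrix.inv_def, Ring.inverse_eq_inv', Matrix.smul_apply, smul_eq_mul,
    Matrix.adjugate_apply]
  refine ((diffOn_det hN).inv hdet).mul (diffOn_det fun c d => ?_)
  simp only [Matrix.updateRow_apply]
  split_ifs
  · exact differentiableOn_const _
  · exact hN _ _

/-- `w (Γ w - A)`. -/
noncomputable def Nm (γ : ℂ → ℂ) (A : Matrix (Fin n) (Fin n) ℂ) (w : ℂ) :
    Matrix (Fin n) (Fin n) ℂ := γ w • (1 : Matrix (Fin n) (Fin n) ℂ) - w • A

/-- The Cauchy kernel of the matrix. -/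
noncomputable def Rm (γ : ℂ → ℂ) (A : Matrix (Fin n) (Fin n) ℂ) (w : ℂ) :
    Matrix (Fin n) (Fin n) ℂ := nu γ w • (Nm γ A w)⁻¹

/-- The pairing of a boundary function with the Cauchy kernel. -/
noncomputable def evR (γ : ℂ → ℂ) (A : Matrix (Fin n) (Fin n) ℂ) (v : ℝ → ℂ) :
    Matrix (Fin n) (Fin n) ℂ := Matrix.of fun a b => av fun θ => v θ * Rm γ A (circleMap 0 1 θ) a b

namespace ExtMap

variable {K Ω : Set ℂ} {γ : ℂ → ℂ} {ρ : ℝ} {A : Matrix (Fin n) (Fin n) ℂ}

theorem isUnit_Nm (h : ExtMap K Ω γ ρ) (hA : numRange A ⊆ K) {w : ℂ} (hw : w ∈ ball (0 : ℂ) ρ) :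
    IsUnit (Nm γ A w) := by
  by_cases h0 : w = 0
  · subst h0
    have : γ 0 ≠ 0 := by simpa using h.deriv_ne 0 hw
    simp only [Nm, zero_smul, sub_zero]
    rw [← Algebra.algebraMap_eq_smul_one]
    exact (IsUnit.mk0 _ this).map _
  · have h1 : γ w / w ∉ spectrum ℂ A := fun hs =>
      h.notMem w hw _ (hA (spectrum_subset_numRange A hs)) (by field_simp)
    rw [spectrum.notMem_iff] at h1
    have e : Nm γ A w = algebraMap ℂ _ w * (algebraMap ℂ _ (γ w / w) - A) := by
      rw [mul_sub, ← map_mul, mul_div_cancel₀ _ h0, ← Algebra.smul_def,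
        Algebra.algebraMap_eq_smul_one, Nm]
    rw [e]
    exact ((IsUnit.mk0 _ h0).map _).mul h1

theorem isUnit_det (h : ExtMap K Ω γ ρ) (hA : numRange A ⊆ K) {w : ℂ} (hw : w ∈ ball (0 : ℂ) ρ) :
    IsUnit (Nm γ A w).det := (Matrix.isUnit_iff_isUnit_det _).1 (h.isUnit_Nm hA hw)

theorem diff_Rm (h : ExtMap K Ω γ ρ) (hA : numRange A ⊆ K) (a b : Fin n) :
    DifferentiableOn ℂ (fun w => Rm γ A w a b) (ball 0 ρ) := by
  simp only [Rm, Matrix.smul_apply, smul_eq_mul]
  refine h.diff_nu.mul (diffOn_inv (fun c d => ?_) (fun w hw => (h.isUnit_det hA hw).ne_zero) a b)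
  simp only [Nm, Matrix.sub_apply, Matrix.smul_apply, smul_eq_mul]
  exact (h.diff.mul_const _).sub (differentiableOn_id.mul_const _)

theorem Nm_mul_Rm (h : ExtMap K Ω γ ρ) (hA : numRange A ⊆ K) {w : ℂ} (hw : w ∈ ball (0 : ℂ) ρ) :
    Nm γ A w * Rm γ A w = nu γ w • (1 : Matrix (Fin n) (Fin n) ℂ) := by
  rw [Rm, Matrix.mul_smul, Matrix.mul_nonsing_inv _ (h.isUnit_det hA hw)]

theorem Rm_mul_Nm (h : ExtMap K Ω γ ρ) (hA : numRange A ⊆ K) {w : ℂ} (hw : w ∈ ball (0 : ℂ) ρ) :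
    Rm γ A w * Nm γ A w = nu γ w • (1 : Matrix (Fin n) (Fin n) ℂ) := by
  rw [Rm, Matrix.smul_mul, Matrix.nonsing_inv_mul _ (h.isUnit_det hA hw)]

theorem Rm_zero (h : ExtMap K Ω γ ρ) (hA : numRange A ⊆ K) : Rm γ A 0 = 1 := by
  have hw : (0 : ℂ) ∈ ball (0 : ℂ) ρ := mem_ball_self (one_pos.trans h.one_lt)
  have h0 : γ 0 ≠ 0 := by simpa using h.deriv_ne 0 hw
  have := h.Nm_mul_Rm hA hw
  simp only [Nm, nu, zero_smul, sub_zero, zero_mul, Matrix.smul_mul, Matrix.one_mul] at this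
  exact smul_right_injective _ h0 this

theorem curve_smul_Rm (h : ExtMap K Ω γ ρ) (hA : numRange A ⊆ K) {w : ℂ} (hw : ‖w‖ = 1) :
    (γ w / w) • Rm γ A w = (nu γ w / w) • (1 : Matrix (Fin n) (Fin n) ℂ) + A * Rm γ A w ∧
    (γ w / w) • Rm γ A w = (nu γ w / w) • (1 : Matrix (Fin n) (Fin n) ℂ) + Rm γ A w * A := by
  have hb := h.mem_ball_of_norm_one hw
  have hw0 : w ≠ 0 := by rintro rfl; simp at hw
  have h1 := h.Nm_mul_Rm hA hb
  have h2 := h.Rm_mul_Nm hA hb
  simp only [Nm, Matrix.sub_mul, Matrix.mul_sub, Matrix.smul_mul, Matrix.mul_smul, Matrix.one_mul,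
    Matrix.mul_one] at h1 h2
  constructor
  · refine smul_right_injective _ hw0 ?_
    simp only [smul_add, smul_smul, mul_div_cancel₀ _ hw0, ← h1, sub_add_cancel]
  · refine smul_right_injective _ hw0 ?_
    simp only [smul_add, smul_smul, mul_div_cancel₀ _ hw0, ← h2, sub_add_cancel]

theorem Rm_pos (h : ExtMap K Ω γ ρ) (hA : numRange A ⊆ K) {w : ℂ} (hw : ‖w‖ = 1) :
    (Rm γ A w + (Rm γ A w)ᴴ).PosSemidef := by
  have hb := h.mem_ball_of_norm_one hw
  have hnu : nu γ w ≠ 0 := h.deriv_ne w hb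
  set N := Nm γ A w with hN
  have hdet := h.isUnit_det hA hb
  have hP : (conj (nu γ w) • N + (conj (nu γ w) • N)ᴴ).PosSemidef := by
    refine Matrix.PosSemidef.of_dotProduct_mulVec_nonneg (Matrix.isHermitian_add_transpose_self _)
      fun x => ?_
    have e : star x ⬝ᵥ ((conj (nu γ w) • N + (conj (nu γ w) • N)ᴴ) *ᵥ x)
        = ((2 * (conj (nu γ w) * (star x ⬝ᵥ (N *ᵥ x))).re : ℝ) : ℂ) := by
      rw [← Complex.add_conj, Matrix.add_mulVec, dotProduct_add, Matrix.smul_mulVec,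
        dotProduct_smul, smul_eq_mul]
      congr 1
      rw [Matrix.dotProduct_mulVec, ← Matrix.star_mulVec, Matrix.star_dotProduct,
        Matrix.smul_mulVec, dotProduct_smul, smul_eq_mul]
      rfl
    rw [e]
    refine Complex.zero_le_real.2 (mul_nonneg zero_le_two ?_)
    by_cases hx : x = 0
    · simp [hx]
    set s : ℝ := ∑ a, ‖x a‖ ^ 2 with hs
    have hs0 : 0 < s := by
      obtain ⟨a, ha⟩ := Function.ne_iff.1 hx
      exact Finset.sum_pos' (fun _ _ => by positivity)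
        ⟨a, Finset.mem_univ _, pow_pos (norm_pos_iff.2 ha) 2⟩
    have hxx : star x ⬝ᵥ x = (s : ℂ) := by
      simp only [hs, dotProduct, Pi.star_apply, Complex.star_def, Complex.ofReal_sum]
      refine Finset.sum_congr rfl fun a _ => ?_
      rw [← Complex.normSq_eq_conj_mul_self, Complex.normSq_eq_norm_sq]
    have hsq : ((√s : ℝ) : ℂ) * ((√s : ℝ) : ℂ) = s := by
      rw [← Complex.ofReal_mul, Real.mul_self_sqrt hs0.le]
    have hsq0 : ((√s : ℝ) : ℂ) ≠ 0 := by
      exact_mod_cast (Real.sqrt_pos.2 hs0).ne'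
    have hmem : (s : ℂ)⁻¹ * (star x ⬝ᵥ (A *ᵥ x)) ∈ numRange A := by
      rw [mem_numRange_iff]
      refine ⟨((√s : ℝ) : ℂ)⁻¹ • x, ?_, ?_⟩
      · simp only [Pi.smul_apply, smul_eq_mul, norm_mul, mul_pow, ← Finset.mul_sum, ← hs, norm_inv,
          Complex.norm_real, Real.norm_eq_abs, inv_pow, sq_abs, Real.sq_sqrt hs0.le]
        exact inv_mul_cancel₀ hs0.ne'
      · rw [star_smul, Matrix.mulVec_smul, smul_dotProduct, dotProduct_smul, ← hsq]
        simp only [smul_eq_mul, Complex.star_def, map_inv₀, Complex.conj_ofReal]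
        field_simp
    have h1 := h.pos₁ w hw _ (hA hmem)
    have hs1 : (s : ℂ) ≠ 0 := by exact_mod_cast hs0.ne'
    have e2 : conj (nu γ w) * (star x ⬝ᵥ (N *ᵥ x)) = ((s * Complex.normSq (nu γ w) : ℝ) : ℂ) *
        ((γ w - (s : ℂ)⁻¹ * (star x ⬝ᵥ (A *ᵥ x)) * w) / nu γ w) := by
      rw [hN, Nm, Matrix.sub_mulVec, Matrix.smul_mulVec, Matrix.smul_mulVec, Matrix.one_mulVec,
        dotProduct_sub, dotProduct_smul, dotProduct_smul, hxx, Complex.ofReal_mul,
        Complex.normSq_eq_conj_mul_self]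
      simp only [smul_eq_mul]
      field_simp
    rw [e2, Complex.re_ofReal_mul]
    exact mul_nonneg (mul_nonneg hs0.le (Complex.normSq_nonneg _)) h1
  have e : Rm γ A w + (Rm γ A w)ᴴ
      = N⁻¹ * (conj (nu γ w) • N + (conj (nu γ w) • N)ᴴ) * (N⁻¹)ᴴ := by
    have e1 : Nᴴ * (N⁻¹)ᴴ = 1 := by
      rw [← Matrix.conjTranspose_mul, Matrix.nonsing_inv_mul _ hdet, Matrix.conjTranspose_one]
    rw [Matrix.mul_add, Matrix.add_mul, Matrix.mul_smul, Matrix.nonsing_inv_mul _ hdet,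
      Matrix.conjTranspose_smul, Matrix.mul_smul, Matrix.smul_mul, Matrix.smul_mul,
      Matrix.mul_assoc, e1, Rm, Matrix.conjTranspose_smul, ← hN, add_comm]
    simp
  rw [e]
  exact hP.mul_mul_conjTranspose_same _

theorem cont_Rm (h : ExtMap K Ω γ ρ) (hA : numRange A ⊆ K) (a b : Fin n) :
    Continuous fun θ => Rm γ A (circleMap 0 1 θ) a b :=
  cont_bdry (diffContOnCl_ball h.one_lt (h.diff_Rm hA a b))

theorem cont_curve (h : ExtMap K Ω γ ρ) {φ : ℂ → ℂ} (hφ : DifferentiableOn ℂ φ Ω) :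
    Continuous fun θ => φ (γ (circleMap 0 1 θ) / circleMap 0 1 θ) :=
  hφ.continuousOn.comp_continuous
    ((cont_bdry (diffContOnCl_ball h.one_lt h.diff)).div (by fun_prop) cm_one_ne)
    fun θ => h.mem _ (norm_cm_one θ).ge ((norm_cm_one θ).trans_lt h.one_lt)

theorem evR_add (h : ExtMap K Ω γ ρ) (hA : numRange A ⊆ K) {v w : ℝ → ℂ} (hv : Continuous v)
    (hw : Continuous w) : evR γ A (fun θ => v θ + w θ) = evR γ A v + evR γ A w := by
  ext a b
  simp only [evR, Matrix.of_apply, Matrix.add_apply, add_mul]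
  exact av_add (hv.mul (h.cont_Rm hA a b)) (hw.mul (h.cont_Rm hA a b))

theorem evR_smul (c : ℂ) (v : ℝ → ℂ) : evR γ A (fun θ => c * v θ) = c • evR γ A v := by
  ext a b
  simp only [evR, Matrix.of_apply, Matrix.smul_apply, smul_eq_mul, mul_assoc, av_const_mul]

theorem evR_one (h : ExtMap K Ω γ ρ) (hA : numRange A ⊆ K) : evR γ A (fun _ => 1) = 1 := by
  ext a b
  simp only [evR, Matrix.of_apply, one_mul]
  rw [av_mean (F := fun w => Rm γ A w a b) one_pos (diffContOnCl_ball h.one_lt (h.diff_Rm hA a b)),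
    h.Rm_zero hA]

theorem evR_curve (h : ExtMap K Ω γ ρ) (hA : numRange A ⊆ K) {v : ℝ → ℂ} (hv : Continuous v)
    (h0 : av (fun θ => nu γ (circleMap 0 1 θ) / circleMap 0 1 θ * v θ) = 0) :
    evR γ A (fun θ => γ (circleMap 0 1 θ) / circleMap 0 1 θ * v θ) = A * evR γ A v ∧
    evR γ A (fun θ => γ (circleMap 0 1 θ) / circleMap 0 1 θ * v θ) = evR γ A v * A := by
  have cν : Continuous fun θ => nu γ (circleMap 0 1 θ) / circleMap 0 1 θ :=
    (cont_bdry (diffContOnCl_ball h.one_lt h.diff_nu)).div (by fun_prop) cm_one_ne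
  constructor
  · ext a b
    have e : ∀ θ, γ (circleMap 0 1 θ) / circleMap 0 1 θ * v θ * Rm γ A (circleMap 0 1 θ) a b
        = nu γ (circleMap 0 1 θ) / circleMap 0 1 θ * v θ * (1 : Matrix (Fin n) (Fin n) ℂ) a b
          + ∑ c, A a c * (v θ * Rm γ A (circleMap 0 1 θ) c b) := by
      intro θ
      have := congrFun (congrFun (h.curve_smul_Rm hA (norm_cm_one θ)).1 a) b
      simp only [Matrix.add_apply, Matrix.smul_apply, smul_eq_mul, Matrix.mul_apply] at this
      rw [mul_right_comm, this, add_mul, Finset.sum_mul]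
      congr 1
      · ring
      · exact Finset.sum_congr rfl fun c _ => by ring
    simp only [evR, Matrix.of_apply, Matrix.mul_apply, e]
    rw [av_add (by exact (cν.mul hv).mul continuous_const) (by
      exact continuous_finsetSum _ fun c _ => continuous_const.mul (hv.mul (h.cont_Rm hA c b))),
      av_mul_const, h0, zero_mul, zero_add,
      av_sum _ (fun c _ => by exact continuous_const.mul (hv.mul (h.cont_Rm hA c b)))]
    simp only [av_const_mul]
  · ext a b
    have e : ∀ θ, γ (circleMap 0 1 θ) / circleMap 0 1 θ * v θ * Rm γ A (circleMap 0 1 θ) a b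
        = nu γ (circleMap 0 1 θ) / circleMap 0 1 θ * v θ * (1 : Matrix (Fin n) (Fin n) ℂ) a b
          + ∑ c, (v θ * Rm γ A (circleMap 0 1 θ) a c) * A c b := by
      intro θ
      have := congrFun (congrFun (h.curve_smul_Rm hA (norm_cm_one θ)).2 a) b
      simp only [Matrix.add_apply, Matrix.smul_apply, smul_eq_mul, Matrix.mul_apply] at this
      rw [mul_right_comm, this, add_mul, Finset.sum_mul]
      congr 1
      · ring
      · exact Finset.sum_congr rfl fun c _ => by ring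
    simp only [evR, Matrix.of_apply, Matrix.mul_apply, e]
    rw [av_add (by exact (cν.mul hv).mul continuous_const) (by
      exact continuous_finsetSum _ fun c _ => (hv.mul (h.cont_Rm hA a c)).mul continuous_const),
      av_mul_const, h0, zero_mul, zero_add,
      av_sum _ (fun c _ => by exact (hv.mul (h.cont_Rm hA a c)).mul continuous_const)]
    simp only [av_mul_const]

theorem isCalc (h : ExtMap K Ω γ ρ) (hA : numRange A ⊆ K) (hΩo : IsOpen Ω) (hΩc : Convex ℝ Ω) :
    IsCalc Ω A fun φ => evR γ A fun θ => φ (γ (circleMap 0 1 θ) / circleMap 0 1 θ) where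
  congr φ ψ e := by
    congr 1
    funext θ
    exact e (h.mem _ (norm_cm_one θ).ge ((norm_cm_one θ).trans_lt h.one_lt))
  add φ ψ hφ hψ := h.evR_add hA (h.cont_curve hφ) (h.cont_curve hψ)
  smul c φ _ := evR_smul _ _
  one := h.evR_one hA
  mul_id φ hφ := (h.evR_curve hA (h.cont_curve hφ) (h.av_closed hΩo hΩc hφ le_rfl h.one_lt)).1

theorem evR_mul (h : ExtMap K Ω γ ρ) (hA : numRange A ⊆ K) (hKΩ : K ⊆ Ω) (hΩo : IsOpen Ω)
    (hΩc : Convex ℝ Ω) {v : ℝ → ℂ} (hv : Continuous v)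
    (h0 : ∀ φ : ℂ → ℂ, DifferentiableOn ℂ φ Ω → av (fun θ => nu γ (circleMap 0 1 θ) / circleMap 0 1 θ
      * φ (γ (circleMap 0 1 θ) / circleMap 0 1 θ) * v θ) = 0)
    {φ : ℂ → ℂ} (hφ : DifferentiableOn ℂ φ Ω) :
    evR γ A (fun θ => φ (γ (circleMap 0 1 θ) / circleMap 0 1 θ) * v θ)
      = evR γ A (fun θ => φ (γ (circleMap 0 1 θ) / circleMap 0 1 θ)) * evR γ A v ∧
    evR γ A (fun θ => φ (γ (circleMap 0 1 θ) / circleMap 0 1 θ) * v θ)
      = evR γ A v * evR γ A (fun θ => φ (γ (circleMap 0 1 θ) / circleMap 0 1 θ)) := by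
  have hc := h.isCalc hA hΩo hΩc
  have hsp : spectrum ℂ A ⊆ (fun z : ℂ => z) '' Ω := by
    simpa using (spectrum_subset_numRange A).trans (hA.trans hKΩ)
  have hm : ∀ θ, γ (circleMap 0 1 θ) / circleMap 0 1 θ ∈ Ω := fun θ =>
    h.mem _ (norm_cm_one θ).ge ((norm_cm_one θ).trans_lt h.one_lt)
  have hcomm : A * evR γ A v = evR γ A v * A := by
    have := h.evR_curve hA hv (by simpa using h0 (fun _ => 1) (differentiableOn_const _))
    exact this.1.symm.trans this.2
  have hid : ∀ ψ : ℂ → ℂ, DifferentiableOn ℂ ψ Ω →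
      evR γ A (fun θ => γ (circleMap 0 1 θ) / circleMap 0 1 θ
        * ψ (γ (circleMap 0 1 θ) / circleMap 0 1 θ) * v θ)
      = A * evR γ A (fun θ => ψ (γ (circleMap 0 1 θ) / circleMap 0 1 θ) * v θ) := by
    intro ψ hψ
    simp only [mul_assoc]
    exact (h.evR_curve hA ((h.cont_curve hψ).fun_mul hv)
      (by simpa only [mul_assoc] using h0 ψ hψ)).1
  constructor
  · refine sub_eq_zero.1 (vanish (γ := fun z => z) (B := A) hΩo differentiableOn_id
      (fun _ _ _ _ h => h) (by simp) hsp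
      (fun φ => evR γ A (fun θ => φ (γ (circleMap 0 1 θ) / circleMap 0 1 θ) * v θ)
        - evR γ A (fun θ => φ (γ (circleMap 0 1 θ) / circleMap 0 1 θ)) * evR γ A v)
      ?_ ?_ ?_ ?_ ?_ φ hφ)
    · intro φ₁ φ₂ e
      simp only [e (hm _)]
    · intro φ₁ φ₂ h₁ h₂
      simp only [add_mul]
      rw [h.evR_add hA (by exact (h.cont_curve h₁).mul hv) (by exact (h.cont_curve h₂).mul hv),
        h.evR_add hA (h.cont_curve h₁) (h.cont_curve h₂), add_mul]
      abel
    · intro c φ₁ _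
      simp only [mul_assoc, evR_smul, smul_sub, smul_mul_assoc]
    · simp [h.evR_one hA]
    · intro φ₁ h₁
      rw [hid _ h₁, hc.mul_id _ h₁, mul_sub, mul_assoc]
  · refine sub_eq_zero.1 (vanish (γ := fun z => z) (B := A) hΩo differentiableOn_id
      (fun _ _ _ _ h => h) (by simp) hsp
      (fun φ => evR γ A (fun θ => φ (γ (circleMap 0 1 θ) / circleMap 0 1 θ) * v θ)
        - evR γ A v * evR γ A (fun θ => φ (γ (circleMap 0 1 θ) / circleMap 0 1 θ)))
      ?_ ?_ ?_ ?_ ?_ φ hφ)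
    · intro φ₁ φ₂ e
      simp only [e (hm _)]
    · intro φ₁ φ₂ h₁ h₂
      simp only [add_mul]
      rw [h.evR_add hA (by exact (h.cont_curve h₁).mul hv) (by exact (h.cont_curve h₂).mul hv),
        h.evR_add hA (h.cont_curve h₁) (h.cont_curve h₂), mul_add]
      abel
    · intro c φ₁ _
      simp only [mul_assoc, evR_smul, smul_sub, mul_smul_comm]
    · simp [h.evR_one hA]
    · intro φ₁ h₁
      rw [hid _ h₁, hc.mul_id _ h₁, mul_sub, ← mul_assoc, ← mul_assoc, hcomm]

end ExtMap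

/-- Boundary values of functions holomorphic in the unit disc. -/
def hardy : Subalgebra ℂ C(ℝ, ℂ) where
  carrier := {f | ∃ u : ℂ → ℂ, DiffContOnCl ℂ u (ball 0 1) ∧ ∀ θ, f θ = u (circleMap 0 1 θ)}
  mul_mem' := by
    rintro f g ⟨u, hu, hf⟩ ⟨v, hv, hg⟩
    exact ⟨fun z => u z * v z, ⟨hu.differentiableOn.mul hv.differentiableOn,
      hu.continuousOn.mul hv.continuousOn⟩, fun θ => by simp [hf, hg]⟩
  add_mem' := by
    rintro f g ⟨u, hu, hf⟩ ⟨v, hv, hg⟩
    exact ⟨fun z => u z + v z, hu.add hv, fun θ => by simp [hf, hg]⟩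
  algebraMap_mem' c := ⟨fun _ => c, diffContOnCl_const, fun θ => by simp⟩

theorem ExtMap.cbBound {K Ω : Set ℂ} {γ : ℂ → ℂ} {ρ : ℝ} {A : Matrix (Fin n) (Fin n) ℂ}
    (h : ExtMap K Ω γ ρ) (hA : numRange A ⊆ K) (hKΩ : K ⊆ Ω) (hΩo : IsOpen Ω) (hΩc : Convex ℝ Ω) :
    CbBound Ω (fun φ => evR γ A fun θ => φ (γ (circleMap 0 1 θ) / circleMap 0 1 θ)) 2 := by
  intro m F hF M _ hM y
  have hm : ∀ θ, γ (circleMap 0 1 θ) / circleMap 0 1 θ ∈ Ω := fun θ =>
    h.mem _ (norm_cm_one θ).ge ((norm_cm_one θ).trans_lt h.one_lt)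
  let R : Matrix (Fin n) (Fin n) C(ℝ, ℂ) :=
    Matrix.of fun a b => ⟨fun θ => Rm γ A (circleMap 0 1 θ) a b, h.cont_Rm hA a b⟩
  let Φ : Matrix (Fin m) (Fin m) C(ℝ, ℂ) :=
    Matrix.of fun j i => ⟨fun θ => F (γ (circleMap 0 1 θ) / circleMap 0 1 θ) i j,
      h.cont_curve (hF i j)⟩
  have hev : ∀ v : C(ℝ, ℂ), (v • R).map avLin = evR γ A v := fun v => rfl
  let D : CoreData C(ℝ, ℂ) ℝ (Fin n) (Fin m) :=
    { ev := fun θ => ContinuousMap.evalStarAlgHom ℂ ℂ θ
      μ := avLin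
      ℋ := hardy
      R := R
      Φ := Φ
      M := M
      mono := fun f g hfg => av_mono_re f.continuous g.continuous hfg
      μ_star := fun f => av_conj f
      μ_one := av_const 1
      μ_mul := by
        rintro f ⟨u, hu, hf⟩ g ⟨v, hv, hg⟩
        have e : ⇑(f * g) = fun θ => u (circleMap 0 1 θ) * v (circleMap 0 1 θ) := by
          funext θ; simp [hf, hg]
        rw [avLin_apply, avLin_apply, avLin_apply, e, funext hf, funext hg, av_mean one_pos hu,
          av_mean one_pos hv, av_mean (F := fun z => u z * v z) one_pos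
            ⟨hu.differentiableOn.mul hv.differentiableOn, hu.continuousOn.mul hv.continuousOn⟩]
      R_mem := fun a b => ⟨fun w => Rm γ A w a b,
        diffContOnCl_ball h.one_lt (h.diff_Rm hA a b), fun _ => rfl⟩
      R_mean := by
        rw [← h.evR_one hA, ← one_smul C(ℝ, ℂ) R, hev]
        rfl
      R_pos := fun θ => h.Rm_pos hA (norm_cm_one θ)
      Φ_le := fun θ U => by
        rw [n2_eq_sum, n2_eq_sum, Finset.mul_sum]
        refine Finset.sum_le_sum fun r _ => ?_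
        refine le_of_eq_of_le (Finset.sum_congr rfl fun i _ => ?_) (hM _ (hm θ) (U r))
        congr 2
        simp only [Matrix.mul_apply, Matrix.mulVec, dotProduct]
        exact Finset.sum_congr rfl fun j _ => mul_comm _ _
      faber := by
        rintro p ⟨u, hu, hp⟩ hp0
        have hu0 : u 0 = 0 := by
          rw [← av_mean one_pos hu, ← funext hp]; exact hp0
        refine ⟨⟨ExtMap.fab γ u, h.cont_fab hu⟩, ?_, ?_, fun i j => ?_⟩
        · rintro g ⟨v, hv, hg⟩
          rw [← h.fab_orth hu hv, avLin_apply]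
          congr 1
          funext θ
          simp [hg]
        · have := h.fab_le hu hu0
          simp only [← hp] at this
          exact this
        · rw [hev, hev, hev]
          have := h.evR_mul hA hKΩ hΩo hΩc
            (v := fun t => conj (u (circleMap 0 1 t)) + ExtMap.fab γ u t)
            ((cconj (cont_bdry hu)).add (h.cont_fab hu))
            (fun φ hφ => h.fab_hol hΩo hΩc hu hφ) (hF j i)
          simp only [← hp] at this
          exact this }
  have key := D.core (Matrix.of fun a j => y j a)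
  rw [n2_eq_sum, n2_eq_sum] at key
  rw [Finset.sum_comm, Finset.sum_comm (f := fun j a => ‖y j a‖ ^ 2), show (2 : ℝ) ^ 2 = 4 by norm_num]
  refine le_of_eq_of_le (Finset.sum_congr rfl fun a _ => Finset.sum_congr rfl fun i _ => ?_) key
  rw [D.act_apply, Finset.sum_apply]
  rfl

theorem main {n : ℕ} (hn : 1 ≤ n) (A : Matrix (Fin n) (Fin n) ℂ) {Ω : Set ℂ} (hΩo : IsOpen Ω)
    (hΩc : Convex ℝ Ω) (hA : numRange A ⊆ Ω) :
    ∃ E : (ℂ → ℂ) → Matrix (Fin n) (Fin n) ℂ, IsCalc Ω A E ∧ CbBound Ω E 2 := by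
  obtain ⟨δ, hδ, hKΩ⟩ := (isCompact_numRange A).exists_cthickening_subset_open hΩo hA
  obtain ⟨a, ha⟩ := numRange_nonempty hn A
  obtain ⟨γ, ρ, h⟩ := exists_extMap ((isCompact_numRange A).cthickening (r := δ))
    ((convex_numRange A).cthickening δ)
    ⟨a, interior_maximal (thickening_subset_cthickening δ _) isOpen_thickening
      (self_subset_thickening hδ _ ha)⟩ hΩo hKΩ
  have hAK := self_subset_cthickening (δ := δ) (numRange A)
  exact ⟨_, h.isCalc hAK hΩo hΩc, h.cbBound hAK hKΩ hΩo hΩc⟩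

end Crest.Agent.R132
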