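import Mathlib
import Crest.Agent.R132.Main

/-!
Row 132: the complete Crouzeix estimate for operators on a Hilbert space, deduced from the matrix
case by compressing to a finite dimensional Krylov subspace.
-/

set_option autoImplicit false

open scoped Matrix
open Metric Set Crest.AnalysisR.NumRange

namespace Crest.Agent.R132

namespace F0179

variable {H : Type*} [NormedAddCommGroup H] [InnerProductSpace ℂ H]

theorem exists_frame (S : Submodule ℂ H) [FiniteDimensional ℂ S] :
    ∃ (n : ℕ) (e : Fin n → H), Orthonormal ℂ e ∧ ∀ w ∈ S, ∑ a, inner ℂ (e a) w • e a = w := by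
  let b := stdOrthonormalBasis ℂ S
  refine ⟨_, fun a => (b a : H), ?_, ?_⟩
  · exact b.orthonormal.comp_linearIsometry S.subtypeₗᵢ
  · intro w hw
    have := congrArg (Subtype.val : S → H) (b.sum_repr' ⟨w, hw⟩)
    simpa using this

theorem inner_comb {n : ℕ} (e : Fin n → H) (u : Fin n → ℂ) (w : H) :
    inner ℂ (∑ a, u a • e a) w = star u ⬝ᵥ (fun a => inner ℂ (e a) w) := by
  simp only [sum_inner, inner_smul_left, dotProduct, Pi.star_apply, RCLike.star_def]

theorem norm_sq_comb {n : ℕ} {e : Fin n → H} (he : Orthonormal ℂ e) (u : Fin n → ℂ) :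
    ‖∑ a, u a • e a‖ ^ 2 = ∑ a, ‖u a‖ ^ 2 := by
  have h := inner_comb e u (∑ a, u a • e a)
  rw [inner_self_eq_norm_sq_to_K] at h
  simp only [he.inner_right_fintype, dotProduct, Pi.star_apply, RCLike.star_def,
    Complex.conj_mul'] at h
  apply Complex.ofReal_injective
  push_cast
  exact h

theorem mulVec_coords {n : ℕ} (e : Fin n → H) (A : H →L[ℂ] H) (u : Fin n → ℂ) :
    (Matrix.of fun a a' => inner ℂ (e a) (A (e a'))) *ᵥ u =
      fun a => inner ℂ (e a) (A (∑ a', u a' • e a')) := by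
  funext a
  simp [Matrix.mulVec, dotProduct, map_sum, mul_comm]

end F0179

open F0179 in
theorem final0179
    {H : Type*} [NormedAddCommGroup H] [InnerProductSpace ℂ H] [CompleteSpace H]
    (A : H →L[ℂ] H) (m d : ℕ) (B : Fin (d + 1) → Matrix (Fin m) (Fin m) ℂ) (M : ℝ)
    (hM : ∀ x : H, ‖x‖ = 1 →
      ‖Matrix.toEuclideanCLM (n := Fin m) (𝕜 := ℂ)
          (∑ k : Fin (d + 1), (inner ℂ x (A x)) ^ (k : ℕ) • B k)‖ ≤ M)
    (v : PiLp 2 (fun _ : Fin m => H)) :
    ‖(WithLp.toLp 2 (fun i : Fin m => ∑ j : Fin m, ∑ k : Fin (d + 1), B k i j • (A ^ (k : ℕ)) (v j))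
        : PiLp 2 (fun _ : Fin m => H))‖ ≤ 2 * M * ‖v‖ := by
  classical
  let S : Submodule ℂ H :=
    Submodule.span ℂ (range fun p : Fin m × Fin (d + 1) => (A ^ (p.2 : ℕ)) (v p.1))
  have : FiniteDimensional ℂ S := FiniteDimensional.span_of_finite ℂ (finite_range _)
  have hmem : ∀ (j : Fin m) (k : ℕ), k ≤ d → (A ^ k) (v j) ∈ S := fun j k hk =>
    Submodule.subset_span ⟨(j, ⟨k, Nat.lt_succ_of_le hk⟩), rfl⟩
  have hv : ∀ j, v j ∈ S := fun j => by simpa using hmem j 0 (Nat.zero_le _)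
  obtain ⟨n, e, he, hrep⟩ := exists_frame S
  rcases Nat.eq_zero_or_pos n with hn | hn
  · subst hn
    have hv0 : ∀ j, v j = 0 := fun j => by simpa using (hrep _ (hv j)).symm
    have : v = 0 := by
      ext j
      simpa using hv0 j
    subst this
    simp only [PiLp.zero_apply, map_zero, smul_zero, Finset.sum_const_zero, norm_zero, mul_zero]
    exact le_of_eq (norm_eq_zero.2 rfl)
  set T : Matrix (Fin n) (Fin n) ℂ := Matrix.of fun a a' => inner ℂ (e a) (A (e a')) with hT
  let c : H → Fin n → ℂ := fun w a => inner ℂ (e a) w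
  have hc : ∀ w ∈ S, ∑ a, ‖c w a‖ ^ 2 = ‖w‖ ^ 2 := by
    intro w hw
    rw [← norm_sq_comb he, hrep w hw]
  have hstep : ∀ w ∈ S, T *ᵥ c w = c (A w) := by
    intro w hw
    rw [hT, mulVec_coords, hrep w hw]
  have hpow : ∀ (j : Fin m) (k : ℕ), k ≤ d → (T ^ k) *ᵥ c (v j) = c ((A ^ k) (v j)) := by
    intro j k
    induction k with
    | zero => intro _; simp
    | succ k ih =>
      intro hk
      rw [pow_succ', ← Matrix.mulVec_mulVec, ih (by omega), hstep _ (hmem j k (by omega)),
        pow_succ']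
      rfl
  let P : ℂ → (EuclideanSpace ℂ (Fin m) →L[ℂ] EuclideanSpace ℂ (Fin m)) := fun z =>
    Matrix.toEuclideanCLM (n := Fin m) (𝕜 := ℂ) (∑ k : Fin (d + 1), z ^ (k : ℕ) • B k)
  have hPc : Continuous P := by
    have : P = fun z => ∑ k : Fin (d + 1),
        z ^ (k : ℕ) • Matrix.toEuclideanCLM (n := Fin m) (𝕜 := ℂ) (B k) := by
      funext z
      simp only [P, map_sum, map_smul]
    rw [this]
    fun_prop
  have hK : ∀ z ∈ numRange T, ‖P z‖ ≤ M := by
    intro z hz
    obtain ⟨u, hu, rfl⟩ := (mem_numRange_iff T z).1 hz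
    have h1 : ‖∑ a, u a • e a‖ = 1 := by
      have := norm_sq_comb he u
      rw [hu] at this
      exact (sq_eq_sq₀ (norm_nonneg _) zero_le_one).1 (by rw [this, one_pow])
    have h2 := hM _ h1
    rw [inner_comb, ← mulVec_coords] at h2
    exact h2
  have hM0 : 0 ≤ M := by
    obtain ⟨z, hz⟩ := numRange_nonempty hn T
    exact (norm_nonneg _).trans (hK z hz)
  have key : ∀ η : ℝ, 0 < η →
      ‖(WithLp.toLp 2 (fun i : Fin m => ∑ j : Fin m, ∑ k : Fin (d + 1),
        B k i j • (A ^ (k : ℕ)) (v j)) : PiLp 2 (fun _ : Fin m => H))‖ ≤ 2 * (M + η) * ‖v‖ := by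
    intro η hη
    have hU : IsOpen {z | ‖P z‖ < M + η} := isOpen_lt hPc.norm continuous_const
    obtain ⟨δ, hδ, hsub⟩ := (isCompact_numRange T).exists_thickening_subset_open hU
      (fun z hz => lt_of_le_of_lt (hK z hz) (by linarith))
    obtain ⟨E, hE, hcb⟩ := main hn T (Ω := thickening δ (numRange T)) isOpen_thickening
      ((convex_numRange T).thickening δ) (self_subset_thickening hδ _)
    have hF := hcb m (fun z => ∑ k : Fin (d + 1), z ^ (k : ℕ) • B k)
      (by
        intro i j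
        simp only [Matrix.sum_apply, Matrix.smul_apply, smul_eq_mul]
        fun_prop)
      (M + η) (by linarith)
      (by
        intro z hz u
        have h1 : ‖P z‖ ≤ M + η := (hsub hz).le
        have h2 := (P z).le_of_opNorm_le h1 (WithLp.toLp 2 u)
        have h3 := pow_le_pow_left₀ (norm_nonneg _) h2 2
        rw [mul_pow, EuclideanSpace.norm_sq_eq, EuclideanSpace.norm_sq_eq] at h3
        exact h3)
      (fun j => c (v j))
    have hEij : ∀ i j, E (fun z => (∑ k : Fin (d + 1), z ^ (k : ℕ) • B k) i j) =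
        ∑ k : Fin (d + 1), B k i j • T ^ (k : ℕ) := by
      intro i j
      have := hE.poly (∑ k : Fin (d + 1), Polynomial.C (B k i j) * Polynomial.X ^ (k : ℕ))
      simp only [Polynomial.eval_finsetSum, Polynomial.eval_mul, Polynomial.eval_C,
        Polynomial.eval_pow, Polynomial.eval_X, map_sum, map_mul, Polynomial.aeval_C,
        map_pow, Polynomial.aeval_X, ← Algebra.smul_def] at this
      rw [← this]
      congr 1
      funext z
      simp only [Matrix.sum_apply, Matrix.smul_apply, smul_eq_mul, mul_comm]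
    have hw : ∀ i, (∑ j, E (fun z => (∑ k : Fin (d + 1), z ^ (k : ℕ) • B k) i j) *ᵥ c (v j)) =
        c (∑ j : Fin m, ∑ k : Fin (d + 1), B k i j • (A ^ (k : ℕ)) (v j)) := by
      intro i
      simp only [hEij, Matrix.sum_mulVec, Matrix.smul_mulVec]
      funext a
      simp only [Finset.sum_apply, Pi.smul_apply, smul_eq_mul, c, inner_sum, inner_smul_right]
      refine Finset.sum_congr rfl fun j _ => Finset.sum_congr rfl fun k _ => ?_
      rw [show (fun a => inner ℂ (e a) (v j)) = c (v j) from rfl,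
        hpow j k (Nat.le_of_lt_succ k.2)]
    have hwS : ∀ i, (∑ j : Fin m, ∑ k : Fin (d + 1), B k i j • (A ^ (k : ℕ)) (v j)) ∈ S :=
      fun i => S.sum_mem fun j _ => S.sum_mem fun k _ =>
        S.smul_mem _ (hmem j k (Nat.le_of_lt_succ k.2))
    simp only [hw] at hF
    simp only [fun i => hc _ (hwS i), fun j => hc _ (hv j)] at hF
    refine (sq_le_sq₀ (norm_nonneg _) (by positivity)).1 ?_
    rw [mul_pow, mul_pow, PiLp.norm_sq_eq_of_L2, PiLp.norm_sq_eq_of_L2]
    exact hF
  refine le_of_forall_pos_le_add fun ε hε => ?_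
  have hv1 : 0 < 2 * ‖v‖ + 1 := by positivity
  refine (key (ε / (2 * ‖v‖ + 1)) (by positivity)).trans ?_
  have : 2 * (ε / (2 * ‖v‖ + 1)) * ‖v‖ ≤ ε := by
    rw [show 2 * (ε / (2 * ‖v‖ + 1)) * ‖v‖ = ε * (2 * ‖v‖) / (2 * ‖v‖ + 1) by ring,
      div_le_iff₀ hv1]
    nlinarith [norm_nonneg v]
  linarith

end Crest.Agent.R132
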