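import Mathlib
import Crest.Agent.R132.Defs
import Crest.Agent.R132.Calc

/-!
Row 132: the lurking contraction argument.  From a completely bounded calculus we deduce the trace
inequality which is dual to the existence of a metric `1 ≤ H ≤ 4` with `Tᴴ H T ≤ H`.
-/

set_option autoImplicit false

open scoped Matrix ComplexOrder
open Metric Set Crest.AnalysisR.NumRange

namespace Crest.Agent.R132

namespace F180

variable {n : ℕ}

theorem star_dot_self {m : ℕ} (u : Fin m → ℂ) :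
    star u ⬝ᵥ u = ((∑ i, ‖u i‖ ^ 2 : ℝ) : ℂ) := by
  simp only [dotProduct, Pi.star_apply, Complex.ofReal_sum]
  refine Finset.sum_congr rfl fun i _ => ?_
  rw [Complex.star_def, Complex.conj_mul']
  simp

theorem contr_of_psd {m : ℕ} (F : Matrix (Fin m) (Fin m) ℂ) (h : (1 - Fᴴ * F).PosSemidef)
    (u : Fin m → ℂ) : ∑ i, ‖(F *ᵥ u) i‖ ^ 2 ≤ ∑ j, ‖u j‖ ^ 2 := by
  have h1 := h.dotProduct_mulVec_nonneg u
  rw [Matrix.sub_mulVec, dotProduct_sub, Matrix.one_mulVec, ← Matrix.mulVec_mulVec,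
    Matrix.dotProduct_mulVec (star u) Fᴴ, Matrix.vecMul_conjTranspose, star_star,
    star_dot_self, star_dot_self, ← Complex.ofReal_sub] at h1
  have h2 := Complex.zero_le_real.1 h1
  linarith

theorem trace_mul_conjTranspose (x : Matrix (Fin n) (Fin n) ℂ) :
    (x * xᴴ).trace = ((∑ i, ∑ a, ‖x a i‖ ^ 2 : ℝ) : ℂ) := by
  rw [Finset.sum_comm]
  simp only [Matrix.trace, Matrix.diag_apply, Matrix.mul_apply, Matrix.conjTranspose_apply,
    Complex.ofReal_sum]
  refine Finset.sum_congr rfl fun a _ => Finset.sum_congr rfl fun i _ => ?_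
  rw [Complex.star_def, Complex.mul_conj']
  simp

/-- Entrywise holomorphy of a matrix valued function. -/
def MDiff (Ω : Set ℂ) (N : ℂ → Matrix (Fin n) (Fin n) ℂ) : Prop :=
  ∀ i j, DifferentiableOn ℂ (fun s => N s i j) Ω

theorem MDiff.const (Ω : Set ℂ) (B : Matrix (Fin n) (Fin n) ℂ) : MDiff Ω (fun _ => B) :=
  fun _ _ => differentiableOn_const _

theorem MDiff.add {Ω : Set ℂ} {N P : ℂ → Matrix (Fin n) (Fin n) ℂ} (hN : MDiff Ω N)
    (hP : MDiff Ω P) : MDiff Ω (fun s => N s + P s) := fun i j => by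
  simpa only [Matrix.add_apply] using (hN i j).fun_add (hP i j)

theorem MDiff.sub {Ω : Set ℂ} {N P : ℂ → Matrix (Fin n) (Fin n) ℂ} (hN : MDiff Ω N)
    (hP : MDiff Ω P) : MDiff Ω (fun s => N s - P s) := fun i j => by
  simpa only [Matrix.sub_apply] using (hN i j).fun_sub (hP i j)

theorem MDiff.mul {Ω : Set ℂ} {N P : ℂ → Matrix (Fin n) (Fin n) ℂ} (hN : MDiff Ω N)
    (hP : MDiff Ω P) : MDiff Ω (fun s => N s * P s) := fun i j => by
  simp only [Matrix.mul_apply]
  exact DifferentiableOn.fun_sum fun k _ => (hN i k).fun_mul (hP k j)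

theorem MDiff.smul {Ω : Set ℂ} {g : ℂ → ℂ} {P : ℂ → Matrix (Fin n) (Fin n) ℂ}
    (hg : DifferentiableOn ℂ g Ω) (hP : MDiff Ω P) : MDiff Ω (fun s => g s • P s) := fun i j => by
  simpa only [Matrix.smul_apply, smul_eq_mul] using hg.fun_mul (hP i j)

theorem MDiff.det {Ω : Set ℂ} {N : ℂ → Matrix (Fin n) (Fin n) ℂ} (hN : MDiff Ω N) :
    DifferentiableOn ℂ (fun s => (N s).det) Ω := by
  simp only [Matrix.det_apply']
  refine DifferentiableOn.fun_sum fun σ _ => (differentiableOn_const _).fun_mul ?_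
  exact DifferentiableOn.fun_finsetProd fun i _ => hN _ _

theorem MDiff.inv {Ω : Set ℂ} {N : ℂ → Matrix (Fin n) (Fin n) ℂ} (hN : MDiff Ω N)
    (hdet : ∀ s ∈ Ω, (N s).det ≠ 0) : MDiff Ω (fun s => (N s)⁻¹) := by
  simp only [Matrix.inv_def, Ring.inverse_eq_inv']
  refine MDiff.smul (hN.det.fun_inv hdet) ?_
  intro i j
  simp only [Matrix.adjugate_apply]
  refine MDiff.det (N := fun s => (N s).updateRow j (Pi.single i 1)) ?_
  intro a b
  simp only [Matrix.updateRow_apply]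
  by_cases h : a = j
  · simp only [h, if_true]
    exact differentiableOn_const _
  · simp only [h, if_false]
    exact hN a b

theorem det_ne_zero_of_add_conjTranspose {M : Matrix (Fin n) (Fin n) ℂ}
    (h : (M + Mᴴ).PosDef) : M.det ≠ 0 := by
  intro hdet
  obtain ⟨v, hv, hMv⟩ := Matrix.exists_mulVec_eq_zero_iff.2 hdet
  have h1 := h.dotProduct_mulVec_pos hv
  rw [Matrix.add_mulVec, dotProduct_add, hMv, Matrix.dotProduct_mulVec (star v) Mᴴ,
    Matrix.vecMul_conjTranspose, star_star, hMv] at h1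
  simp at h1

/-- The pencil of the lurking contraction. -/
theorem pencil_identity (T X Y Z : Matrix (Fin n) (Fin n) ℂ) (hY : Yᴴ = Y) (hZ : Zᴴ = Z)
    (h : X + Z = Y + T * Z * Tᴴ) (ζ : ℂ) :
    (Y + (T - ζ • 1) * Z * Tᴴ) + (Y + (T - ζ • 1) * Z * Tᴴ)ᴴ - X - Y =
      (T - ζ • 1) * Z * (T - ζ • 1)ᴴ + ((1 - ‖ζ‖ ^ 2 : ℝ) : ℂ) • Z := by
  have hX : X = Y + T * Z * Tᴴ - Z := by rw [← h]; abel
  have hz : ((1 - ‖ζ‖ ^ 2 : ℝ) : ℂ) = 1 - ζ * star ζ := by
    rw [Complex.star_def, Complex.mul_conj']; simp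
  rw [hX, hz]
  simp only [Matrix.conjTranspose_add, Matrix.conjTranspose_mul, Matrix.conjTranspose_sub,
    Matrix.conjTranspose_smul, Matrix.conjTranspose_one, Matrix.conjTranspose_conjTranspose, hY, hZ,
    Matrix.sub_mul, Matrix.mul_sub, Matrix.smul_mul, Matrix.mul_smul, Matrix.one_mul,
    Matrix.mul_one, Matrix.mul_assoc, sub_smul, one_smul, smul_sub, smul_smul]
  rw [mul_comm (star ζ) ζ]
  abel

theorem lurking {Ω : Set ℂ} {A : Matrix (Fin n) (Fin n) ℂ}
    {E : (ℂ → ℂ) → Matrix (Fin n) (Fin n) ℂ} (hE : IsCalc Ω A E) (hcb : CbBound Ω E 2)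
    {f : ℂ → ℂ} (hf : DifferentiableOn ℂ f Ω) (hf1 : ∀ s ∈ Ω, ‖f s‖ ≤ 1)
    {T : Matrix (Fin n) (Fin n) ℂ}
    (hmul : ∀ φ : ℂ → ℂ, DifferentiableOn ℂ φ Ω → E (fun s => f s * φ s) = T * E φ)
    (hcomm : ∀ φ : ℂ → ℂ, DifferentiableOn ℂ φ Ω → E φ * T = T * E φ)
    (x y Z : Matrix (Fin n) (Fin n) ℂ) (hZ : Z.PosSemidef) (hy : (y * yᴴ).PosDef)
    (h : x * xᴴ + Z = y * yᴴ + T * Z * Tᴴ) :
    ∑ i, ∑ a, ‖x a i‖ ^ 2 ≤ 4 * ∑ i, ∑ a, ‖y a i‖ ^ 2 := by
  set M : ℂ → Matrix (Fin n) (Fin n) ℂ := fun s => y * yᴴ + (T - f s • 1) * Z * Tᴴ with hM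
  have hMd : MDiff Ω M :=
    (MDiff.const _ _).add ((((MDiff.const _ _).sub (MDiff.smul hf (MDiff.const _ _))).mul
      (MDiff.const _ _)).mul (MDiff.const _ _))
  have hpos : ∀ s ∈ Ω, (M s + (M s)ᴴ - x * xᴴ - y * yᴴ).PosSemidef := by
    intro s hs
    rw [hM]
    simp only
    rw [pencil_identity T (x * xᴴ) (y * yᴴ) Z hy.isHermitian hZ.isHermitian h]
    refine (hZ.mul_mul_conjTranspose_same _).add (hZ.smul ?_)
    refine Complex.zero_le_real.2 ?_
    have := hf1 s hs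
    nlinarith [norm_nonneg (f s)]
  have hdet : ∀ s ∈ Ω, (M s).det ≠ 0 := by
    intro s hs
    refine det_ne_zero_of_add_conjTranspose ?_
    have h1 := hy.add_posSemidef ((hpos s hs).add (Matrix.posSemidef_self_mul_conjTranspose x))
    convert h1 using 1
    abel
  have hNd : MDiff Ω (fun s => (M s)⁻¹) := hMd.inv hdet
  set Φ : ℂ → Matrix (Fin n) (Fin n) ℂ := fun s => yᴴ * (M s)⁻¹ * x with hΦ
  set Ψ : ℂ → Matrix (Fin n) (Fin n) ℂ := fun s => Z * Tᴴ * (M s)⁻¹ * x with hΨ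
  have hΦd : MDiff Ω Φ := ((MDiff.const _ _).mul hNd).mul (MDiff.const _ _)
  have hΨd : MDiff Ω Ψ := ((MDiff.const _ _).mul hNd).mul (MDiff.const _ _)
  have hid : ∀ s ∈ Ω, y * Φ s = x - T * Ψ s + f s • Ψ s := by
    intro s hs
    have h1 : M s * (M s)⁻¹ = 1 := Matrix.mul_nonsing_inv _ (Ne.isUnit (hdet s hs))
    have h2 : M s * (M s)⁻¹ * x = x := by rw [h1, Matrix.one_mul]
    have h3 : M s * (M s)⁻¹ * x = y * Φ s + T * Ψ s - f s • Ψ s := by
      generalize hN : (M s)⁻¹ = N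
      simp only [hΦ, hΨ, hN]
      simp only [hM, Matrix.add_mul, Matrix.sub_mul, Matrix.smul_mul, Matrix.one_mul,
        Matrix.mul_assoc]
      abel
    rw [h2] at h3
    rw [h3]
    abel
  have hcontr : ∀ s ∈ Ω, (1 - Φ s * (Φ s)ᴴ).PosSemidef := by
    intro s hs
    have h1 : (M s)⁻¹ * M s = 1 := Matrix.nonsing_inv_mul _ (Ne.isUnit (hdet s hs))
    have h2 : (M s)ᴴ * ((M s)⁻¹)ᴴ = 1 := by
      rw [← Matrix.conjTranspose_mul, h1, Matrix.conjTranspose_one]
    have h3 := (Matrix.posSemidef_self_mul_conjTranspose (1 - yᴴ * (M s)⁻¹ * y)).add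
      ((hpos s hs).mul_mul_conjTranspose_same (yᴴ * (M s)⁻¹))
    convert h3 using 1
    simp only [hΦ]
    generalize (M s)⁻¹ = N at h1 h2 ⊢
    generalize M s = P at h1 h2 ⊢
    have h4 : ∀ W : Matrix (Fin n) (Fin n) ℂ, N * (P * W) = W := fun W => by
      rw [← Matrix.mul_assoc, h1, Matrix.one_mul]
    have h5 : ∀ W : Matrix (Fin n) (Fin n) ℂ, Pᴴ * (Nᴴ * W) = W := fun W => by
      rw [← Matrix.mul_assoc, h2, Matrix.one_mul]
    simp only [Matrix.conjTranspose_mul, Matrix.conjTranspose_sub,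
      Matrix.conjTranspose_one, Matrix.conjTranspose_conjTranspose,
      Matrix.sub_mul, Matrix.mul_sub, Matrix.add_mul, Matrix.mul_add, Matrix.one_mul,
      Matrix.mul_one, Matrix.mul_assoc, h4, h5]
    abel
  have hmain := hcb n (fun s => (Φ s)ᵀ) (fun i j => hΦd j i) 1 zero_le_one
    (by
      intro s hs u
      rw [one_pow, one_mul]
      refine contr_of_psd _ ?_ u
      have h1 := (hcontr s hs).transpose
      rw [Matrix.transpose_sub, Matrix.transpose_one, Matrix.transpose_mul] at h1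
      exact h1) (fun j a => y a j)
  have hx : ∀ i a, (∑ j, E (fun s => (Φ s)ᵀ i j) *ᵥ (fun b => y b j)) a = x a i := by
    intro i a
    have h1 : ∀ b, ∑ j, y b j • E (fun s => Φ s j i) =
        x b i • (1 : Matrix (Fin n) (Fin n) ℂ) - ∑ c, T b c • E (fun s => Ψ s c i)
          + T * E (fun s => Ψ s b i) := by
      intro b
      have e1 : ∑ j, y b j • E (fun s => Φ s j i) = E (fun s => ∑ j, y b j * Φ s j i) := by
        rw [hE.sum Finset.univ (fun j s => y b j * Φ s j i)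
          (fun j _ => (differentiableOn_const _).fun_mul (hΦd j i))]
        exact Finset.sum_congr rfl fun j _ => (hE.smul _ _ (hΦd j i)).symm
      have e2 : ∑ c, T b c • E (fun s => Ψ s c i) = E (fun s => ∑ c, T b c * Ψ s c i) := by
        rw [hE.sum Finset.univ (fun c s => T b c * Ψ s c i)
          (fun c _ => (differentiableOn_const _).fun_mul (hΨd c i))]
        exact Finset.sum_congr rfl fun c _ => (hE.smul _ _ (hΨd c i)).symm
      have d2 : DifferentiableOn ℂ (fun s => ∑ c, T b c * Ψ s c i) Ω :=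
        DifferentiableOn.fun_sum fun c _ => (differentiableOn_const _).fun_mul (hΨd c i)
      rw [e1, e2, ← hE.const, ← hmul _ (hΨd b i), ← hE.sub _ _ (differentiableOn_const _) d2,
        ← hE.add _ _ ((differentiableOn_const _).fun_sub d2) (hf.fun_mul (hΨd b i))]
      refine hE.congr _ _ fun s hs => ?_
      have := congrFun (congrFun (hid s hs) b) i
      simpa only [Matrix.mul_apply, Matrix.add_apply, Matrix.sub_apply, Matrix.smul_apply,
        smul_eq_mul] using this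
    have h2 : (∑ j, E (fun s => (Φ s)ᵀ i j) *ᵥ (fun b => y b j)) a =
        ∑ b, (∑ j, y b j • E (fun s => Φ s j i)) a b := by
      simp only [Finset.sum_apply, Matrix.mulVec, dotProduct, Matrix.transpose_apply,
        Matrix.sum_apply, Matrix.smul_apply, smul_eq_mul]
      rw [Finset.sum_comm]
      exact Finset.sum_congr rfl fun b _ => Finset.sum_congr rfl fun j _ => mul_comm _ _
    rw [h2]
    simp only [h1, Matrix.add_apply, Matrix.sub_apply, Finset.sum_add_distrib,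
      Finset.sum_sub_distrib]
    have h3 : ∑ b, (x b i • (1 : Matrix (Fin n) (Fin n) ℂ)) a b = x a i := by
      simp [Matrix.one_apply]
    have h4 : ∑ b, (∑ c, T b c • E (fun s => Ψ s c i)) a b =
        ∑ c, (T * E (fun s => Ψ s c i)) a c := by
      simp only [Matrix.sum_apply, Matrix.smul_apply, smul_eq_mul]
      rw [Finset.sum_comm]
      refine Finset.sum_congr rfl fun c _ => ?_
      rw [← hcomm _ (hΨd c i), Matrix.mul_apply]
      exact Finset.sum_congr rfl fun b _ => mul_comm _ _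
    rw [h3, h4]
    ring
  simp only [hx] at hmain
  norm_num at hmain
  exact hmain

end F180

end Crest.Agent.R132
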