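import Mathlib
import Crest.Agent.R132.Final0180A

/-!
Row 132: duality for the metric problem, strict feasibility and existence of an optimal metric.
-/

set_option autoImplicit false

open scoped Matrix ComplexOrder MatrixOrder Matrix.Norms.L2Operator
open Metric Set Crest.AnalysisR.NumRange Filter Topology

namespace Crest.Agent.R132

namespace F180

variable {n : ℕ}

theorem algebraMap_real_eq (r : ℝ) :
    algebraMap ℝ (Matrix (Fin n) (Fin n) ℂ) r = (r : ℂ) • (1 : Matrix (Fin n) (Fin n) ℂ) := by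
  rw [Algebra.algebraMap_eq_smul_one]
  ext i j
  simp

theorem isClosed_psd : IsClosed {P : Matrix (Fin n) (Fin n) ℂ | P.PosSemidef} := by
  have : {P : Matrix (Fin n) (Fin n) ℂ | P.PosSemidef} = Set.Ici 0 := by
    ext P
    simp only [Set.mem_ofPred_eq, Set.mem_Ici, Matrix.nonneg_iff_posSemidef]
  rw [this]
  exact isClosed_Ici

theorem psd_smul_one {r : ℝ} (hr : 0 ≤ r) :
    ((r : ℂ) • (1 : Matrix (Fin n) (Fin n) ℂ)).PosSemidef :=
  Matrix.PosSemidef.one.smul (Complex.zero_le_real.2 hr)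

theorem pd_smul_one {r : ℝ} (hr : 0 < r) :
    ((r : ℂ) • (1 : Matrix (Fin n) (Fin n) ℂ)).PosDef :=
  Matrix.PosDef.one.smul (Complex.zero_lt_real.2 hr)

/-- The order interval `1 ≤ H ≤ 4`. -/
def box (n : ℕ) : Set (Matrix (Fin n) (Fin n) ℂ) :=
  {H | (H - 1).PosSemidef ∧ (((4 : ℝ) : ℂ) • (1 : Matrix (Fin n) (Fin n) ℂ) - H).PosSemidef}

theorem isCompact_box : IsCompact (box n) := by
  have : ProperSpace (Matrix (Fin n) (Fin n) ℂ) := FiniteDimensional.proper ℂ _
  refine Metric.isCompact_of_isClosed_isBounded ?_ ?_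
  · exact (isClosed_psd.preimage (f := fun H : Matrix (Fin n) (Fin n) ℂ => H - 1)
      (by fun_prop)).inter (isClosed_psd.preimage
        (f := fun H : Matrix (Fin n) (Fin n) ℂ => ((4 : ℝ) : ℂ) • (1 : Matrix (Fin n) (Fin n) ℂ) - H)
        (by fun_prop))
  · refine (Metric.isBounded_closedBall (x := (0 : Matrix (Fin n) (Fin n) ℂ)) (r := 4)).subset ?_
    rintro H ⟨h1, h2⟩
    rw [mem_closedBall_zero_iff]
    have h0 : 0 ≤ H := by
      have := h1.add Matrix.PosSemidef.one
      rw [sub_add_cancel] at this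
      exact this.nonneg
    rw [CStarAlgebra.norm_le_iff_le_algebraMap H (by norm_num) h0, algebraMap_real_eq]
    exact h2

theorem psd_real_smul {P : Matrix (Fin n) (Fin n) ℂ} (hP : P.PosSemidef) {a : ℝ} (ha : 0 ≤ a) :
    (a • P).PosSemidef := by
  have := hP.smul (Complex.zero_le_real.2 ha)
  have h : a • P = (a : ℂ) • P := by
    ext i j
    simp
  rw [h]
  exact this

theorem convex_psd : Convex ℝ {P : Matrix (Fin n) (Fin n) ℂ | P.PosSemidef} := by
  intro P hP Q hQ a b ha hb _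
  exact (psd_real_smul hP ha).add (psd_real_smul hQ hb)

theorem convex_box : Convex ℝ (box n) := by
  intro P hP Q hQ a b ha hb hab
  have h1 : ∀ W : Matrix (Fin n) (Fin n) ℂ, W = a • W + b • W := fun W => by
    rw [← add_smul, hab, one_smul]
  constructor
  · have := (psd_real_smul hP.1 ha).add (psd_real_smul hQ.1 hb)
    convert this using 1
    rw [smul_sub, smul_sub]
    nth_rewrite 1 [h1 1]
    abel
  · have := (psd_real_smul hP.2 ha).add (psd_real_smul hQ.2 hb)
    convert this using 1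
    rw [smul_sub, smul_sub]
    nth_rewrite 1 [h1 (((4 : ℝ) : ℂ) • (1 : Matrix (Fin n) (Fin n) ℂ))]
    abel

theorem exists_trace_repr (L : Matrix (Fin n) (Fin n) ℂ →ₗ[ℂ] ℂ) :
    ∃ Z : Matrix (Fin n) (Fin n) ℂ, Z.IsHermitian ∧
      ∀ M : Matrix (Fin n) (Fin n) ℂ, M.IsHermitian → ((Z * M).trace).re = (L M).re := by
  set Z0 : Matrix (Fin n) (Fin n) ℂ := Matrix.of fun j i => L (Matrix.single i j 1) with hZ0
  have h0 : ∀ M : Matrix (Fin n) (Fin n) ℂ, (Z0 * M).trace = L M := by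
    intro M
    conv_rhs => rw [Matrix.matrix_eq_sum_single M]
    simp only [Matrix.trace, Matrix.diag_apply, Matrix.mul_apply, map_sum, hZ0, Matrix.of_apply]
    rw [Finset.sum_comm]
    refine Finset.sum_congr rfl fun i _ => Finset.sum_congr rfl fun j _ => ?_
    have : Matrix.single i j (M i j) = M i j • Matrix.single i j (1 : ℂ) := by
      rw [Matrix.smul_single, smul_eq_mul, mul_one]
    rw [this, map_smul, smul_eq_mul, mul_comm]
  refine ⟨(1 / 2 : ℂ) • (Z0 + Z0ᴴ), ?_, fun M hM => ?_⟩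
  · refine Matrix.IsHermitian.smul (Matrix.isHermitian_add_transpose_self Z0) ?_
    simp [IsSelfAdjoint]
  · have h1 : (Z0ᴴ * M).trace = star (Z0 * M).trace := by
      rw [← Matrix.trace_conjTranspose, Matrix.conjTranspose_mul, hM.eq, Matrix.trace_mul_comm]
    rw [Matrix.smul_mul, Matrix.add_mul, Matrix.trace_smul, Matrix.trace_add, h1, h0]
    simp
    ring

theorem exists_decomp (J : Matrix (Fin n) (Fin n) ℂ) (hJ : J.IsHermitian)
    (hneg : ∀ H ∈ box n, ((J * H).trace).re < 0) :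
    ∃ x y : Matrix (Fin n) (Fin n) ℂ, (y * yᴴ).PosDef ∧ J = y * yᴴ - x * xᴴ ∧
      4 * ∑ i, ∑ a, ‖y a i‖ ^ 2 < ∑ i, ∑ a, ‖x a i‖ ^ 2 := by
  set U : Matrix (Fin n) (Fin n) ℂ := (hJ.eigenvectorUnitary : Matrix (Fin n) (Fin n) ℂ) with hU
  set d : Fin n → ℝ := hJ.eigenvalues with hd
  have hU1 : Uᴴ * U = 1 := Unitary.coe_star_mul_self hJ.eigenvectorUnitary
  have hU2 : U * Uᴴ = 1 := Unitary.coe_mul_star_self hJ.eigenvectorUnitary
  set c : (Fin n → ℝ) → Matrix (Fin n) (Fin n) ℂ :=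
    fun g => U * Matrix.diagonal (fun i => (g i : ℂ)) * Uᴴ with hc
  have hJc : J = c d := by
    have := hJ.spectral_theorem
    rw [Unitary.conjStarAlgAut_apply] at this
    exact this
  have c_sub : ∀ g g' : Fin n → ℝ, c g - c g' = c (fun i => g i - g' i) := by
    intro g g'
    simp only [hc]
    rw [← Matrix.sub_mul, ← Matrix.mul_sub, Matrix.diagonal_sub]
    simp
  have c_mul : ∀ g g' : Fin n → ℝ, c g * c g' = c (fun i => g i * g' i) := by
    intro g g'
    simp only [hc, Matrix.mul_assoc]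
    rw [← Matrix.mul_assoc Uᴴ U, hU1, Matrix.one_mul, ← Matrix.mul_assoc (Matrix.diagonal _),
      Matrix.diagonal_mul_diagonal]
    simp
  have c_const : ∀ r : ℝ, c (fun _ => r) = (r : ℂ) • (1 : Matrix (Fin n) (Fin n) ℂ) := by
    intro r
    simp only [hc]
    rw [← Matrix.smul_one_eq_diagonal, Matrix.mul_smul, Matrix.mul_one, Matrix.smul_mul, hU2]
  have c_psd : ∀ g : Fin n → ℝ, (∀ i, 0 ≤ g i) → (c g).PosSemidef := by
    intro g hg
    refine Matrix.PosSemidef.mul_mul_conjTranspose_same (Matrix.PosSemidef.diagonal ?_) U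
    intro i
    exact Complex.zero_le_real.2 (hg i)
  have c_trace : ∀ g : Fin n → ℝ, (c g).trace = ((∑ i, g i : ℝ) : ℂ) := by
    intro g
    simp only [hc]
    rw [Matrix.trace_mul_comm, ← Matrix.mul_assoc, hU1, Matrix.one_mul, Matrix.trace_diagonal]
    simp
  have c_herm : ∀ g : Fin n → ℝ, (c g)ᴴ = c g := by
    intro g
    simp only [hc, Matrix.conjTranspose_mul, Matrix.conjTranspose_conjTranspose,
      Matrix.diagonal_conjTranspose, Matrix.mul_assoc]
    congr 3
    ext i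
    simp
  have c_sq : ∀ g : Fin n → ℝ, (∀ i, 0 ≤ g i) →
      c (fun i => Real.sqrt (g i)) * (c (fun i => Real.sqrt (g i)))ᴴ = c g := by
    intro g hg
    rw [c_herm, c_mul]
    congr 1
    ext i
    exact Real.mul_self_sqrt (hg i)
  have hH : c (fun i => if 0 ≤ d i then 4 else 1) ∈ box n := by
    constructor
    · have h1 : (1 : Matrix (Fin n) (Fin n) ℂ) = c (fun _ => 1) := by rw [c_const]; simp
      rw [h1, c_sub]
      refine c_psd _ fun i => ?_
      split_ifs <;> norm_num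
    · rw [← c_const, c_sub]
      refine c_psd _ fun i => ?_
      split_ifs <;> norm_num
  have h1 := hneg _ hH
  rw [hJc, c_mul, c_trace, Complex.ofReal_re] at h1
  set η : ℝ := -∑ i, d i * (if 0 ≤ d i then 4 else 1) with hη
  have hη0 : 0 < η := by linarith
  set ε : ℝ := η / (3 * n + 1) with hε
  have hε0 : 0 < ε := by positivity
  have hε1 : 3 * n * ε < η := by
    have : ε * (3 * n + 1) = η := by rw [hε]; field_simp
    nlinarith
  have hp : ∀ i, 0 ≤ max (d i) 0 + ε := fun i => by positivity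
  have hm : ∀ i, 0 ≤ max (-d i) 0 + ε := fun i => by positivity
  refine ⟨c (fun i => Real.sqrt (max (-d i) 0 + ε)), c (fun i => Real.sqrt (max (d i) 0 + ε)),
    ?_, ?_, ?_⟩
  · rw [c_sq _ hp]
    have h2 := (pd_smul_one (n := n) hε0).posSemidef_add (c_psd (fun i => max (d i) 0)
      (fun i => le_max_right _ _))
    convert h2 using 1
    rw [← c_const, ← sub_eq_iff_eq_add, c_sub]
    simp
  · rw [c_sq _ hp, c_sq _ hm, c_sub, hJc]
    congr 1
    ext i
    rcases le_total 0 (d i) with h | h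
    · rw [max_eq_left h, max_eq_right (by linarith)]; ring
    · rw [max_eq_right h, max_eq_left (by linarith)]; ring
  · have h2 := trace_mul_conjTranspose (c (fun i => Real.sqrt (max (-d i) 0 + ε)))
    have h3 := trace_mul_conjTranspose (c (fun i => Real.sqrt (max (d i) 0 + ε)))
    rw [c_sq _ hm, c_trace] at h2
    rw [c_sq _ hp, c_trace] at h3
    rw [← Complex.ofReal_injective h2, ← Complex.ofReal_injective h3]
    have h4 : ∑ i, d i * (if 0 ≤ d i then 4 else 1) =
        4 * ∑ i, max (d i) 0 - ∑ i, max (-d i) 0 := by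
      rw [Finset.mul_sum, ← Finset.sum_sub_distrib]
      refine Finset.sum_congr rfl fun i _ => ?_
      split_ifs with h
      · rw [max_eq_left h, max_eq_right (by linarith)]; ring
      · push Not at h
        rw [max_eq_right h.le, max_eq_left (by linarith)]; ring
    simp only [Finset.sum_add_distrib, Finset.sum_const, Finset.card_univ, Fintype.card_fin,
      nsmul_eq_mul]
    linarith

/-- Duality: the trace inequality gives a metric with `τ = 4`. -/
theorem feasible_four (T : Matrix (Fin n) (Fin n) ℂ)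
    (hT : ∀ x y Z : Matrix (Fin n) (Fin n) ℂ, Z.PosSemidef → (y * yᴴ).PosDef →
      x * xᴴ + Z = y * yᴴ + T * Z * Tᴴ → ∑ i, ∑ a, ‖x a i‖ ^ 2 ≤ 4 * ∑ i, ∑ a, ‖y a i‖ ^ 2) :
    ∃ H, MetricFeasible T H 4 := by
  by_contra hne
  push Not at hne
  set L : Matrix (Fin n) (Fin n) ℂ →ₗ[ℝ] Matrix (Fin n) (Fin n) ℂ :=
    { toFun := fun H => H - Tᴴ * H * T
      map_add' := fun P Q => by
        simp only [Matrix.mul_add, Matrix.add_mul]; abel
      map_smul' := fun a P => by
        simp only [Matrix.mul_smul, Matrix.smul_mul, RingHom.id_apply, smul_sub] } with hL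
  have hLc : Continuous L := by
    show Continuous fun H : Matrix (Fin n) (Fin n) ℂ => H - Tᴴ * H * T
    fun_prop
  have hdisj : Disjoint (L '' box n) {P : Matrix (Fin n) (Fin n) ℂ | P.PosSemidef} := by
    rw [Set.disjoint_left]
    rintro _ ⟨H, hH, rfl⟩ hP
    exact hne H ⟨hH.1, hH.2, hP⟩
  obtain ⟨g, u, v, h1, h2, h3⟩ := RCLike.geometric_hahn_banach_compact_closed (𝕜 := ℂ)
    (convex_box.linear_image L) (isCompact_box.image hLc) convex_psd isClosed_psd hdisj
  have hv : v < 0 := by simpa using h3 0 Matrix.PosSemidef.zero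
  have hg : ∀ P : Matrix (Fin n) (Fin n) ℂ, P.PosSemidef → 0 ≤ (g P).re := by
    intro P hP
    by_contra hlt
    push Not at hlt
    have ht : 0 ≤ v / (g P).re := div_nonneg_of_nonpos hv.le hlt.le
    have h4 := h3 _ (hP.smul (Complex.zero_le_real.2 ht))
    rw [map_smul, smul_eq_mul] at h4
    simp only [RCLike.re_to_complex, Complex.re_ofReal_mul] at h4
    rw [div_mul_cancel₀ _ hlt.ne] at h4
    exact lt_irrefl _ h4
  obtain ⟨Z, hZ, hZg⟩ := exists_trace_repr (g : Matrix (Fin n) (Fin n) ℂ →ₗ[ℂ] ℂ)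
  have hZp : Z.PosSemidef := by
    refine Matrix.PosSemidef.of_dotProduct_mulVec_nonneg hZ fun w => ?_
    have hP := Matrix.posSemidef_vecMulVec_self_star w
    have h4 := hg _ hP
    have h5 := hZg _ hP.isHermitian
    have h6 : (Z * Matrix.vecMulVec w (star w)).trace = star w ⬝ᵥ Z *ᵥ w := by
      rw [Matrix.mul_vecMulVec, Matrix.trace_vecMulVec, dotProduct_comm]
    rw [h6] at h5
    rw [Complex.nonneg_iff]
    refine ⟨by rw [h5]; exact h4, ?_⟩
    have h7 : star (star w ⬝ᵥ Z *ᵥ w) = star w ⬝ᵥ Z *ᵥ w := by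
      rw [← Matrix.star_dotProduct_star, star_star, Matrix.star_mulVec, hZ.eq,
        ← Matrix.dotProduct_mulVec]
    exact (Complex.conj_eq_iff_im.1 h7).symm
  have hJ : (Z - T * Z * Tᴴ).IsHermitian :=
    hZ.sub (hZp.mul_mul_conjTranspose_same T).isHermitian
  obtain ⟨x, y, hy, hxy, hlt⟩ := exists_decomp _ hJ (by
    intro H hH
    have hHh : H.IsHermitian := by
      have := hH.1.isHermitian.add Matrix.isHermitian_one
      rwa [sub_add_cancel] at this
    have h4 := h1 _ ⟨H, hH, rfl⟩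
    have h5 := hZg (L H) (hHh.sub (Matrix.isHermitian_conjTranspose_mul_mul T hHh))
    have h6 : (Z * L H).trace = ((Z - T * Z * Tᴴ) * H).trace := by
      show (Z * (H - Tᴴ * H * T)).trace = _
      rw [Matrix.mul_sub, Matrix.sub_mul, Matrix.trace_sub, Matrix.trace_sub, ← Matrix.mul_assoc,
        Matrix.trace_mul_comm _ T]
      simp only [Matrix.mul_assoc]
    rw [← h6, h5]
    have h7 : (g (L H)).re < u := h4
    show (g (L H)).re < 0
    linarith)
  have h8 := hT x y Z hZp hy (by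
    have : Z = y * yᴴ - x * xᴴ + T * Z * Tᴴ := by rw [← hxy]; abel
    nth_rewrite 1 [this]
    abel)
  linarith

theorem exists_optimal (hn : 1 ≤ n) (T : Matrix (Fin n) (Fin n) ℂ)
    (h : ∃ H, MetricFeasible T H 4) :
    ∃ (H : Matrix (Fin n) (Fin n) ℂ) (κsq : ℝ), IsOptimalMetric T H κsq ∧ 1 ≤ κsq ∧ κsq ≤ 4 := by
  have hge : ∀ H τ, MetricFeasible T H τ → 1 ≤ τ := by
    intro H τ hH
    have h1 := (hH.1.add hH.2.1).diag_nonneg (i := ⟨0, hn⟩)
    have h2 : (H - 1 + ((τ : ℂ) • (1 : Matrix (Fin n) (Fin n) ℂ) - H)) ⟨0, hn⟩ ⟨0, hn⟩ =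
        ((τ - 1 : ℝ) : ℂ) := by
      simp
    rw [h2] at h1
    have := Complex.zero_le_real.1 h1
    linarith
  set S : Set (Matrix (Fin n) (Fin n) ℂ × ℝ) :=
    (box n ×ˢ Set.Icc (1 : ℝ) 4) ∩ {q | MetricFeasible T q.1 q.2} with hS
  have hSc : IsCompact S := by
    refine (isCompact_box.prod isCompact_Icc).inter_right ?_
    refine (isClosed_psd.preimage (f := fun q : Matrix (Fin n) (Fin n) ℂ × ℝ => q.1 - 1)
      (by fun_prop)).inter ((isClosed_psd.preimage
        (f := fun q : Matrix (Fin n) (Fin n) ℂ × ℝ =>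
          (q.2 : ℂ) • (1 : Matrix (Fin n) (Fin n) ℂ) - q.1) (by fun_prop)).inter
        (isClosed_psd.preimage
          (f := fun q : Matrix (Fin n) (Fin n) ℂ × ℝ => q.1 - Tᴴ * q.1 * T) (by fun_prop)))
  have hmem : ∀ H τ, MetricFeasible T H τ → τ ≤ 4 → (H, τ) ∈ S := by
    intro H τ hH hτ
    refine ⟨⟨⟨hH.1, ?_⟩, hge H τ hH, hτ⟩, hH⟩
    have h1 := (psd_smul_one (n := n) (r := 4 - τ) (by linarith)).add hH.2.1
    convert h1 using 1
    rw [Complex.ofReal_sub, sub_smul]
    abel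
  obtain ⟨H0, hH0⟩ := h
  obtain ⟨q, hq, hmin⟩ := hSc.exists_isMinOn ⟨_, hmem H0 4 hH0 le_rfl⟩ continuous_snd.continuousOn
  refine ⟨q.1, q.2, ⟨hq.2, fun H' τ' hH' => ?_⟩, hq.1.2.1, hq.1.2.2⟩
  rcases le_total τ' 4 with h4 | h4
  · exact hmin (hmem H' τ' hH' h4)
  · exact hq.1.2.2.trans h4

theorem exists_pow_norm_lt_one (hn : 1 ≤ n) (T : Matrix (Fin n) (Fin n) ℂ)
    (hT : spectrum ℂ T ⊆ Metric.ball 0 1) : ∃ N : ℕ, ‖T ^ (N + 1)‖ < 1 := by
  have : Nonempty (Fin n) := ⟨⟨0, hn⟩⟩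
  have h1 : spectralRadius ℂ T < (1 : NNReal) := by
    refine spectrum.spectralRadius_lt_of_forall_lt T fun z hz => ?_
    have := mem_ball_zero_iff.1 (hT hz)
    exact_mod_cast this
  have h2 := (spectrum.pow_norm_pow_one_div_tendsto_nhds_spectralRadius T).eventually
    (gt_mem_nhds h1)
  obtain ⟨N, hN⟩ := eventually_atTop.1 h2
  refine ⟨N, ?_⟩
  have h3 := hN (N + 1) (Nat.le_succ N)
  rw [ENNReal.coe_one, ENNReal.ofReal_lt_one] at h3
  by_contra hge
  push Not at hge
  exact absurd (Real.one_le_rpow hge (by positivity)) (not_le.2 h3)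

theorem strictly_feasible (hn : 1 ≤ n) (T : Matrix (Fin n) (Fin n) ℂ)
    (hT : spectrum ℂ T ⊆ Metric.ball 0 1) :
    ∃ (H : Matrix (Fin n) (Fin n) ℂ) (τ : ℝ), MetricStrictlyFeasible T H τ := by
  obtain ⟨N, hN⟩ := exists_pow_norm_lt_one hn T hT
  set G : Matrix (Fin n) (Fin n) ℂ := ∑ j ∈ Finset.range (N + 1), (T ^ j)ᴴ * T ^ j with hG
  have hG1 : (G - 1).PosSemidef := by
    rw [hG, Finset.sum_range_succ']
    simp only [pow_zero, Matrix.conjTranspose_one, Matrix.mul_one, add_sub_cancel_right]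
    exact Matrix.posSemidef_sum _ fun j _ => Matrix.posSemidef_conjTranspose_mul_self _
  have hG2 : G - Tᴴ * G * T = 1 - (T ^ (N + 1))ᴴ * T ^ (N + 1) := by
    have h1 : Tᴴ * G * T = ∑ j ∈ Finset.range (N + 1), (T ^ (j + 1))ᴴ * T ^ (j + 1) := by
      rw [hG, Finset.mul_sum, Finset.sum_mul]
      refine Finset.sum_congr rfl fun j _ => ?_
      rw [pow_succ, Matrix.conjTranspose_mul]
      simp only [Matrix.mul_assoc]
    have h2 := Finset.sum_range_succ' (fun j => (T ^ j)ᴴ * T ^ j) (N + 1)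
    rw [Finset.sum_range_succ, ← hG, ← h1] at h2
    simp only [pow_zero, Matrix.conjTranspose_one, Matrix.mul_one] at h2
    rw [sub_eq_sub_iff_add_eq_add, h2, add_comm]
  have hG3 : (1 - (T ^ (N + 1))ᴴ * T ^ (N + 1)).PosDef := by
    have h1 : star (T ^ (N + 1)) * T ^ (N + 1) ≤ algebraMap ℝ _ (‖T ^ (N + 1)‖ ^ 2) :=
      CStarAlgebra.star_mul_le_algebraMap_norm_sq
    rw [algebraMap_real_eq, Matrix.le_iff, Matrix.star_eq_conjTranspose] at h1
    have h2 := (pd_smul_one (n := n) (r := 1 - ‖T ^ (N + 1)‖ ^ 2)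
      (by nlinarith [norm_nonneg (T ^ (N + 1))])).add_posSemidef h1
    convert h2 using 1
    rw [Complex.ofReal_sub, sub_smul, Complex.ofReal_one, one_smul]
    abel
  have hH1 : (G + G - 1).PosDef := by
    have := Matrix.PosDef.one.add_posSemidef (hG1.add hG1)
    convert this using 1
    abel
  have hHh : (G + G).IsHermitian := by
    have := hH1.isHermitian.add Matrix.isHermitian_one
    rwa [sub_add_cancel] at this
  refine ⟨G + G, ‖G + G‖ + 1, hH1, ?_, ?_⟩
  · have h1 : G + G ≤ algebraMap ℝ _ ‖G + G‖ := IsSelfAdjoint.le_algebraMap_norm_self hHh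
    rw [algebraMap_real_eq, Matrix.le_iff] at h1
    have h2 := Matrix.PosDef.one.add_posSemidef h1
    have h3 : ((‖G + G‖ + 1 : ℝ) : ℂ) • (1 : Matrix (Fin n) (Fin n) ℂ) - (G + G) =
        1 + (((‖G + G‖ : ℝ) : ℂ) • (1 : Matrix (Fin n) (Fin n) ℂ) - (G + G)) := by
      rw [Complex.ofReal_add, add_smul, Complex.ofReal_one, one_smul]
      abel
    rw [h3]
    exact h2
  · have h2 := hG3.add hG3
    rw [← hG2] at h2
    convert h2 using 1
    rw [Matrix.mul_add, Matrix.add_mul]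
    abel

end F180

end Crest.Agent.R132
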