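import Mathlib
import Crest.Agent.R132.Main
import Crest.Agent.R132.Final0180B

/-!
Row 132: the optimal metric statement, deduced from the complete Crouzeix estimate.
-/

set_option autoImplicit false

open scoped ComplexOrder
open Crest.AnalysisR.NumRange

namespace Crest.Agent.R132

theorem final0180
    (n : ℕ) (hn : 1 ≤ n) (A : Matrix (Fin n) (Fin n) ℂ)
    (Ω U : Set ℂ) (hΩ₁ : IsOpen Ω) (_hΩ₂ : Bornology.IsBounded Ω) (hΩ₃ : Convex ℝ Ω)
    (_hU : IsOpen U) (hΩU : closure Ω ⊆ U)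
    (f : ℂ → ℂ) (hf₁ : DifferentiableOn ℂ f U) (_hf₂ : Set.InjOn f U)
    (hf₃ : f '' Ω = Metric.ball 0 1)
    (hA : numRange A ⊆ Ω) (p : Polynomial ℂ) (hp : AgreesOnSpectrum A f p) :
    (∃ (H : Matrix (Fin n) (Fin n) ℂ) (τ : ℝ), MetricStrictlyFeasible (Polynomial.aeval A p) H τ) ∧
    ∃ (H : Matrix (Fin n) (Fin n) ℂ) (κsq : ℝ),
      IsOptimalMetric (Polynomial.aeval A p) H κsq ∧ 1 ≤ κsq ∧ κsq ≤ 4 := by
  obtain ⟨E, hE, hcb⟩ := main hn A hΩ₁ hΩ₃ hA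
  have hsp : spectrum ℂ A ⊆ Ω := (spectrum_subset_numRange A).trans hA
  have hf : DifferentiableOn ℂ f Ω := hf₁.mono (subset_closure.trans hΩU)
  have hT : E f = Polynomial.aeval A p := hE.agrees hΩ₁ hsp f hf p hp
  have hspT : spectrum ℂ (Polynomial.aeval A p) ⊆ Metric.ball 0 1 := by
    rw [← hT, ← hf₃]
    exact hE.spectrum_subset hΩ₁ hsp f hf
  refine ⟨F180.strictly_feasible hn _ hspT, F180.exists_optimal hn _ (F180.feasible_four _ ?_)⟩
  intro x y Z hZ hy h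
  refine F180.lurking hE hcb hf (fun s hs => ?_) (fun φ hφ => ?_) (fun φ hφ => ?_) x y Z hZ hy h
  · have h1 : f s ∈ Metric.ball (0 : ℂ) 1 := hf₃ ▸ Set.mem_image_of_mem f hs
    exact (mem_ball_zero_iff.1 h1).le
  · rw [← hT]
    exact hE.mul hΩ₁ hsp f φ hf hφ
  · rw [← hT, ← hE.mul hΩ₁ hsp f φ hf hφ, ← hE.mul hΩ₁ hsp φ f hφ hf]
    exact hE.congr _ _ fun s _ => mul_comm _ _

end Crest.Agent.R132
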