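import Mathlib

/-!
Row 132, statement S0181: change of variables along a `C¹` parametrisation of the unit circle.
-/

set_option autoImplicit false

open Metric Set Complex

namespace Crest.Agent.R132.P181

/-- A strictly increasing lift of a simple closed parametrisation of the circle advances by
exactly `2π`. -/
lemma lift_advance {α : ℝ → ℝ} (hα : Continuous α) (hlt : α 0 < α (2 * Real.pi))
    (hper : exp (α (2 * Real.pi) * I) = exp (α 0 * I))
    (hinj : ∀ θ ∈ Ioo (0 : ℝ) (2 * Real.pi), exp (α θ * I) ≠ exp (α 0 * I)) :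
    α (2 * Real.pi) = α 0 + 2 * Real.pi := by
  obtain ⟨m, hm⟩ := Complex.exp_eq_exp_iff_exists_int.mp hper
  have hm' : α (2 * Real.pi) = α 0 + m * (2 * Real.pi) := by
    have := congrArg Complex.im hm
    simpa using this
  have hpi := Real.pi_pos
  have hm0 : 0 < m := by
    have : (0 : ℝ) < m * (2 * Real.pi) := by linarith
    have : (0 : ℝ) < m := by
      by_contra h
      have h' : (m : ℝ) ≤ 0 := not_lt.mp h
      nlinarith
    exact_mod_cast this
  by_contra hne
  have hm1 : m ≠ 1 := by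
    rintro rfl
    apply hne
    simpa using hm'
  have hm2 : (2 : ℝ) ≤ m := by exact_mod_cast (show (2 : ℤ) ≤ m by omega)
  have hmem : α 0 + 2 * Real.pi ∈ Ioo (α 0) (α (2 * Real.pi)) := by
    constructor
    · linarith
    · rw [hm']; nlinarith
  obtain ⟨θ, hθ, hθ'⟩ := intermediate_value_Ioo (by linarith : (0 : ℝ) ≤ 2 * Real.pi)
    hα.continuousOn hmem
  apply hinj θ hθ
  rw [hθ']
  push_cast
  rw [add_mul, Complex.exp_add, Complex.exp_two_pi_mul_I, mul_one]

/-- Change of variables along a regular simple closed parametrisation of the unit circle. -/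
theorem integral_circle_param {u u' : ℝ → ℂ} (hu : ∀ θ, HasDerivAt u (u' θ) θ)
    (hu' : Continuous u') (hne : ∀ θ, u' θ ≠ 0) (hnorm : ∀ θ, ‖u θ‖ = 1)
    (hper : u (2 * Real.pi) = u 0) (hinj : ∀ θ ∈ Ioo (0 : ℝ) (2 * Real.pi), u θ ≠ u 0)
    {F : ℂ → ℂ} (hF : ContinuousOn F (sphere 0 1)) :
    ∫ θ in (0 : ℝ)..2 * Real.pi, (‖u' θ‖ : ℂ) * F (u θ)
      = ∫ θ in (0 : ℝ)..2 * Real.pi, F (circleMap 0 1 θ) := by
  have huc : Continuous u := continuous_iff_continuousAt.mpr fun θ => (hu θ).continuousAt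
  have hpi := Real.pi_pos
  set ω : ℝ → ℝ := fun θ => (u' θ * (starRingEnd ℂ) (u θ)).im with hω
  have hωc : Continuous ω := by
    simp only [hω]
    fun_prop
  have hmulconj : ∀ θ, u θ * (starRingEnd ℂ) (u θ) = 1 := by
    intro θ
    rw [Complex.mul_conj, Complex.normSq_eq_norm_sq, hnorm]
    simp
  have hre : ∀ θ, (u' θ * (starRingEnd ℂ) (u θ)).re = 0 := by
    intro θ
    have h1 : HasDerivAt (fun θ => u θ * (starRingEnd ℂ) (u θ))
        (u' θ * (starRingEnd ℂ) (u θ) + u θ * (starRingEnd ℂ) (u' θ)) θ :=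
      (hu θ).mul (hu θ).star
    have h2 : HasDerivAt (fun θ => u θ * (starRingEnd ℂ) (u θ)) 0 θ := by
      simp only [hmulconj]
      exact hasDerivAt_const _ _
    have h3 := congrArg Complex.re (h1.unique h2)
    simp only [add_re, mul_re, conj_re, conj_im, zero_re] at h3 ⊢
    linarith
  have hu'eq : ∀ θ, u' θ = (ω θ : ℂ) * I * u θ := by
    intro θ
    have h1 : u' θ * (starRingEnd ℂ) (u θ) = (ω θ : ℂ) * I := by
      apply Complex.ext
      · rw [hre]; simp
      · simp [hω]
    calc u' θ = u' θ * (u θ * (starRingEnd ℂ) (u θ)) := by rw [hmulconj, mul_one]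
      _ = (u' θ * (starRingEnd ℂ) (u θ)) * u θ := by ring
      _ = _ := by rw [h1]
  have hnorm' : ∀ θ, ‖u' θ‖ = |ω θ| := by
    intro θ
    rw [hu'eq, norm_mul, norm_mul, hnorm, Complex.norm_I, Complex.norm_real]
    simp
  have hωne : ∀ θ, ω θ ≠ 0 := by
    intro θ h
    apply hne θ
    rw [hu'eq, h]
    simp
  set α : ℝ → ℝ := fun θ => arg (u 0) + ∫ s in (0 : ℝ)..θ, ω s with hα
  have hαd : ∀ θ, HasDerivAt α (ω θ) θ := fun θ =>
    ((hωc.integral_hasStrictDerivAt 0 θ).hasDerivAt).const_add _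
  have hαc : Continuous α := continuous_iff_continuousAt.mpr fun θ => (hαd θ).continuousAt
  have hexp : ∀ θ, exp (α θ * I) = u θ := by
    have hd : ∀ θ, HasDerivAt (fun θ => u θ * exp (-(α θ * I))) 0 θ := by
      intro θ
      have h1 : HasDerivAt (fun θ => exp (-((α θ : ℂ) * I)))
          (exp (-(α θ * I)) * (-((ω θ : ℂ) * I))) θ :=
        (((hαd θ).ofReal_comp.mul_const I).neg).cexp
      have h2 := (hu θ).mul h1
      refine h2.congr_deriv ?_
      rw [hu'eq]
      ring
    have hconst := is_const_of_deriv_eq_zero (fun θ => (hd θ).differentiableAt)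
      (fun θ => (hd θ).deriv)
    intro θ
    have h0 : u 0 * exp (-(α 0 * I)) = 1 := by
      have : exp (arg (u 0) * I) = u 0 := by
        have := Complex.norm_mul_exp_arg_mul_I (u 0)
        rwa [hnorm, Complex.ofReal_one, one_mul] at this
      simp only [hα, intervalIntegral.integral_same, add_zero]
      nth_rewrite 1 [← this]
      rw [← Complex.exp_add]
      simp
    have h1 := hconst θ 0
    rw [h0] at h1
    calc exp (α θ * I) = (u θ * exp (-(α θ * I))) * exp (α θ * I) := by rw [h1, one_mul]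
      _ = u θ := by rw [mul_assoc, ← Complex.exp_add]; simp
  set g : ℝ → ℂ := fun s => F (circleMap 0 1 s) with hg
  have hgc : Continuous g := hF.comp_continuous (continuous_circleMap 0 1)
    (fun s => circleMap_mem_sphere 0 zero_le_one s)
  have hgp : Function.Periodic g (2 * Real.pi) := fun s => by
    simp only [hg, periodic_circleMap 0 1 s]
  have hgα : ∀ θ, g (α θ) = F (u θ) := by
    intro θ
    simp only [hg, circleMap, ← hexp θ]
    simp
  have hcv : ∫ θ in (0 : ℝ)..2 * Real.pi, ω θ • (g ∘ α) θ = ∫ s in α 0..α (2 * Real.pi), g s :=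
    intervalIntegral.integral_deriv_smul_comp (fun θ _ => hαd θ) hωc.continuousOn hgc
  have hsign : (∀ θ, 0 < ω θ) ∨ (∀ θ, ω θ < 0) := by
    by_contra h
    push Not at h
    obtain ⟨⟨a, ha⟩, ⟨b, hb⟩⟩ := h
    obtain ⟨c, hc⟩ := intermediate_value_univ a b hωc (show (0 : ℝ) ∈ Icc (ω a) (ω b) from ⟨ha, hb⟩)
    exact hωne c hc
  rcases hsign with hpos | hneg
  · have hmono : StrictMono α := strictMono_of_deriv_pos fun θ => by rw [(hαd θ).deriv]; exact hpos θ
    have hadv : α (2 * Real.pi) = α 0 + 2 * Real.pi :=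
      lift_advance hαc (hmono (by linarith)) (by rw [hexp, hexp, hper])
        (fun θ hθ => by rw [hexp, hexp]; exact hinj θ hθ)
    have h1 : ∀ θ, (‖u' θ‖ : ℂ) * F (u θ) = ω θ • (g ∘ α) θ := by
      intro θ
      rw [hnorm', abs_of_pos (hpos θ), Function.comp, hgα, Complex.real_smul]
    simp only [h1]
    rw [hcv, hadv, hgp.intervalIntegral_add_eq (α 0) 0, zero_add]
  · have hanti : StrictAnti α := strictAnti_of_deriv_neg fun θ => by rw [(hαd θ).deriv]; exact hneg θ
    have hconj : ∀ θ, exp (((-α θ : ℝ) : ℂ) * I) = (u θ)⁻¹ := by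
      intro θ
      rw [← hexp, ← Complex.exp_neg]
      push_cast
      ring_nf
    have hadv : -α (2 * Real.pi) = -α 0 + 2 * Real.pi :=
      lift_advance (α := fun θ => -α θ) hαc.neg (neg_lt_neg (hanti (by linarith)))
        (by rw [hconj, hconj, hper])
        (fun θ hθ => by rw [hconj, hconj]; exact fun h => hinj θ hθ (inv_injective h))
    have h1 : ∀ θ, (‖u' θ‖ : ℂ) * F (u θ) = -(ω θ • (g ∘ α) θ) := by
      intro θ
      rw [hnorm', abs_of_neg (hneg θ), Function.comp, hgα, Complex.real_smul]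
      push_cast
      ring
    simp only [h1]
    have h2 : α 0 = α (2 * Real.pi) + 2 * Real.pi := by linarith
    rw [intervalIntegral.integral_neg, hcv, ← intervalIntegral.integral_symm, h2,
      hgp.intervalIntegral_add_eq (α (2 * Real.pi)) 0, zero_add]

end Crest.Agent.R132.P181
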