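import Crest.Agent.R132.P181Poisson

/-!
Row 132, statement S0181: the Poisson integral of a matrix contraction is completely contractive.
-/

set_option autoImplicit false

open scoped Matrix ComplexOrder
open Metric Set Real

noncomputable section

namespace Crest.Agent.R132.P181

variable {n m : ℕ}

/-- The sesquilinear form of `P ⊗ w`. -/
def form (P : Matrix (Fin n) (Fin n) ℂ) (w : Matrix (Fin m) (Fin m) ℂ)
    (η y : Fin m → Fin n → ℂ) : ℂ :=
  ∑ c, ∑ d, ∑ a, ∑ b, (starRingEnd ℂ) (η c a) * y d b * (P a b * w c d)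

lemma form_sum {ι : Type*} (s : Finset ι) (P : ι → Matrix (Fin n) (Fin n) ℂ)
    (w : Matrix (Fin m) (Fin m) ℂ) (η y : Fin m → Fin n → ℂ) :
    form (∑ k ∈ s, P k) w η y = ∑ k ∈ s, form (P k) w η y := by
  simp only [form, Matrix.sum_apply, Finset.sum_mul, Finset.mul_sum]
  rw [Finset.sum_comm (s := s)]
  refine Finset.sum_congr rfl fun c _ => ?_
  rw [Finset.sum_comm (s := s)]
  refine Finset.sum_congr rfl fun d _ => ?_
  rw [Finset.sum_comm (s := s)]
  refine Finset.sum_congr rfl fun a _ => ?_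
  rw [Finset.sum_comm (s := s)]

lemma form_rankOne (v : Fin n → ℂ) (w : Matrix (Fin m) (Fin m) ℂ) (η y : Fin m → Fin n → ℂ) :
    form (Matrix.vecMulVec v (star v)) w η y =
      ∑ c, (starRingEnd ℂ) (star v ⬝ᵥ η c) * (w *ᵥ fun d => star v ⬝ᵥ y d) c := by
  simp only [form, Matrix.vecMulVec_apply, Matrix.mulVec, dotProduct, map_sum, map_mul,
    Finset.sum_mul, Finset.mul_sum, Pi.star_apply, Complex.star_def, Complex.conj_conj]
  refine Finset.sum_congr rfl fun c _ => Finset.sum_congr rfl fun d _ => ?_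
  rw [Finset.sum_comm]
  refine Finset.sum_congr rfl fun a _ => Finset.sum_congr rfl fun b _ => ?_
  ring

lemma re_conj_mul_le (x y : ℂ) : ((starRingEnd ℂ) x * y).re ≤ (‖x‖ ^ 2 + ‖y‖ ^ 2) / 2 := by
  have h1 : ((starRingEnd ℂ) x * y).re ≤ ‖x‖ * ‖y‖ := by
    refine (Complex.re_le_norm _).trans ?_
    rw [norm_mul, Complex.norm_conj]
  nlinarith [sq_nonneg (‖x‖ - ‖y‖)]

lemma re_conj_mul_self (x : ℂ) : ((starRingEnd ℂ) x * x).re = ‖x‖ ^ 2 := by
  rw [Complex.conj_mul', ← Complex.ofReal_pow, Complex.ofReal_re]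

lemma re_form_le {P : Matrix (Fin n) (Fin n) ℂ} (hP : P.PosSemidef)
    {w : Matrix (Fin m) (Fin m) ℂ} {M : ℝ}
    (hw : ∀ x : Fin m → ℂ, ∑ c, ‖(w *ᵥ x) c‖ ^ 2 ≤ M ^ 2 * ∑ d, ‖x d‖ ^ 2)
    (η y : Fin m → Fin n → ℂ) :
    (form P w η y).re ≤ ((form P 1 η η).re + M ^ 2 * (form P 1 y y).re) / 2 := by
  obtain ⟨k, v, rfl⟩ := Matrix.posSemidef_iff_eq_sum_vecMulVec.mp hP
  simp only [form_sum, Complex.re_sum, form_rankOne, Matrix.one_mulVec, re_conj_mul_self]
  rw [Finset.mul_sum, ← Finset.sum_add_distrib, Finset.sum_div]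
  refine Finset.sum_le_sum fun i _ => ?_
  refine (Finset.sum_le_sum fun c _ => re_conj_mul_le _ _).trans ?_
  rw [← Finset.sum_div, Finset.sum_add_distrib]
  have := hw fun d => star (v i) ⬝ᵥ y d
  linarith

lemma avg_form {B : Matrix (Fin n) (Fin n) ℂ} (hB : spectrum ℂ B ⊆ ball 0 1)
    {w : ℂ → Matrix (Fin m) (Fin m) ℂ}
    (hw : ∀ c d, ContinuousOn (fun ζ => w ζ c d) (sphere 0 1)) (η y : Fin m → Fin n → ℂ) :
    ContinuousOn (fun ζ => form (pker B ζ) (w ζ) η y) (sphere 0 1) ∧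
    circleAverage (fun ζ => form (pker B ζ) (w ζ) η y) 0 1 =
      ∑ c, ∑ a, (starRingEnd ℂ) (η c a) * (∑ d, pavg B (fun ζ => w ζ c d) *ᵥ y d) a := by
  have h0 : ∀ c d a b, ContinuousOn
      (fun ζ => (starRingEnd ℂ) (η c a) * y d b * (pker B ζ a b * w ζ c d)) (sphere 0 1) :=
    fun c d a b => continuousOn_const.mul ((continuousOn_pker hB a b).mul (hw c d))
  have h1 : ∀ c d a, ContinuousOn
      (fun ζ => ∑ b, (starRingEnd ℂ) (η c a) * y d b * (pker B ζ a b * w ζ c d)) (sphere 0 1) :=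
    fun c d a => continuousOn_finsetSum _ fun b _ => h0 c d a b
  have h2 : ∀ c d, ContinuousOn (fun ζ => ∑ a, ∑ b,
      (starRingEnd ℂ) (η c a) * y d b * (pker B ζ a b * w ζ c d)) (sphere 0 1) :=
    fun c d => continuousOn_finsetSum _ fun a _ => h1 c d a
  have h3 : ∀ c, ContinuousOn (fun ζ => ∑ d, ∑ a, ∑ b,
      (starRingEnd ℂ) (η c a) * y d b * (pker B ζ a b * w ζ c d)) (sphere 0 1) :=
    fun c => continuousOn_finsetSum _ fun d _ => h2 c d
  refine ⟨continuousOn_finsetSum _ fun c _ => h3 c, ?_⟩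
  simp only [form]
  rw [circleAverage_fun_sum fun c _ => circleIntegrable_of_continuousOn (h3 c)]
  refine Finset.sum_congr rfl fun c _ => ?_
  rw [circleAverage_fun_sum fun d _ => circleIntegrable_of_continuousOn (h2 c d)]
  simp only [Finset.sum_apply, Finset.mul_sum]
  rw [Finset.sum_comm]
  refine Finset.sum_congr rfl fun d _ => ?_
  rw [circleAverage_fun_sum fun a _ => circleIntegrable_of_continuousOn (h1 c d a)]
  refine Finset.sum_congr rfl fun a _ => ?_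
  rw [circleAverage_fun_sum fun b _ => circleIntegrable_of_continuousOn (h0 c d a b)]
  simp only [Matrix.mulVec, dotProduct, Finset.mul_sum]
  refine Finset.sum_congr rfl fun b _ => ?_
  have := circleAverage_fun_smul (a := (starRingEnd ℂ) (η c a) * y d b)
    (f := fun ζ => pker B ζ a b * w ζ c d) (c := 0) (R := 1)
  simp only [smul_eq_mul] at this
  rw [this, pavg_apply]
  ring

lemma avg_re {F : ℂ → ℂ} (hF : ContinuousOn F (sphere 0 1)) :
    circleAverage (fun ζ => (F ζ).re) 0 1 = (circleAverage F 0 1).re :=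
  Complex.reCLM.circleAverage_comp_comm (circleIntegrable_of_continuousOn hF)

lemma avg_form_one {B : Matrix (Fin n) (Fin n) ℂ} (hB : spectrum ℂ B ⊆ ball 0 1)
    (y : Fin m → Fin n → ℂ) :
    circleAverage (fun ζ => (form (pker B ζ) 1 y y).re) 0 1 = ∑ c, ∑ a, ‖y c a‖ ^ 2 := by
  obtain ⟨h1, h2⟩ := avg_form hB (w := fun _ => (1 : Matrix (Fin m) (Fin m) ℂ))
    (fun _ _ => continuousOn_const) y y
  rw [avg_re h1, h2]
  simp only [Complex.re_sum]
  refine Finset.sum_congr rfl fun c _ => Finset.sum_congr rfl fun a _ => ?_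
  have h3 : ∀ d, pavg B (fun _ => (1 : Matrix (Fin m) (Fin m) ℂ) c d) =
      (1 : Matrix (Fin m) (Fin m) ℂ) c d • (1 : Matrix (Fin n) (Fin n) ℂ) := by
    intro d
    rw [← pavg_one hB, ← pavg_smul]
    simp
  have h4 : (∑ d, pavg B (fun _ => (1 : Matrix (Fin m) (Fin m) ℂ) c d) *ᵥ y d) a = y c a := by
    simp only [h3, Matrix.smul_mulVec, Matrix.one_mulVec, Finset.sum_apply, Pi.smul_apply,
      smul_eq_mul]
    simp [Matrix.one_apply]
  rw [h4, re_conj_mul_self]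

theorem pavg_block_bound {B : Matrix (Fin n) (Fin n) ℂ} (hB : spectrum ℂ B ⊆ ball 0 1)
    (hB' : (1 - Bᴴ * B).PosSemidef) {w : ℂ → Matrix (Fin m) (Fin m) ℂ}
    (hw : ∀ c d, ContinuousOn (fun ζ => w ζ c d) (sphere 0 1)) {M : ℝ}
    (hM : ∀ ζ : ℂ, ‖ζ‖ = 1 → ∀ x : Fin m → ℂ,
      ∑ c, ‖(w ζ *ᵥ x) c‖ ^ 2 ≤ M ^ 2 * ∑ d, ‖x d‖ ^ 2) (y : Fin m → Fin n → ℂ) :
    ∑ c, ∑ a, ‖(∑ d, pavg B (fun ζ => w ζ c d) *ᵥ y d) a‖ ^ 2
      ≤ M ^ 2 * ∑ d, ∑ a, ‖y d a‖ ^ 2 := by
  set η : Fin m → Fin n → ℂ := fun c => ∑ d, pavg B (fun ζ => w ζ c d) *ᵥ y d with hη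
  obtain ⟨h1, h2⟩ := avg_form hB hw η y
  have h3 : circleAverage (fun ζ => (form (pker B ζ) (w ζ) η y).re) 0 1
      = ∑ c, ∑ a, ‖η c a‖ ^ 2 := by
    rw [avg_re h1, h2]
    simp only [Complex.re_sum]
    refine Finset.sum_congr rfl fun c _ => Finset.sum_congr rfl fun a _ => ?_
    exact re_conj_mul_self _
  have c1 : ∀ x : Fin m → Fin n → ℂ,
      ContinuousOn (fun ζ => (form (pker B ζ) 1 x x).re) (sphere 0 1) := fun x =>
    Complex.continuous_re.comp_continuousOn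
      (avg_form hB (w := fun _ => (1 : Matrix (Fin m) (Fin m) ℂ))
        (fun _ _ => continuousOn_const) x x).1
  have i1 : ∀ x : Fin m → Fin n → ℂ,
      CircleIntegrable (fun ζ => (form (pker B ζ) 1 x x).re) 0 1 := fun x =>
    (c1 x).circleIntegrable zero_le_one
  have i2 : CircleIntegrable (fun ζ => M ^ 2 • (form (pker B ζ) 1 y y).re) 0 1 :=
    ((c1 y).const_smul (M ^ 2)).circleIntegrable zero_le_one
  have h4 : circleAverage (fun ζ => (1 / 2 : ℝ) • ((form (pker B ζ) 1 η η).re +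
      M ^ 2 • (form (pker B ζ) 1 y y).re)) 0 1 =
      (1 / 2 : ℝ) • (∑ c, ∑ a, ‖η c a‖ ^ 2 + M ^ 2 • ∑ c, ∑ a, ‖y c a‖ ^ 2) := by
    rw [circleAverage_fun_smul, circleAverage_fun_add (i1 η) i2, circleAverage_fun_smul,
      avg_form_one hB, avg_form_one hB]
  have h5 := circleAverage_mono (c := 0) (R := 1)
    (f₁ := fun ζ => (form (pker B ζ) (w ζ) η y).re)
    (f₂ := fun ζ => (1 / 2 : ℝ) • ((form (pker B ζ) 1 η η).re +
      M ^ 2 • (form (pker B ζ) 1 y y).re))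
    ((Complex.continuous_re.comp_continuousOn h1).circleIntegrable zero_le_one)
    ((((c1 η).add ((c1 y).const_smul (M ^ 2))).const_smul (1 / 2 : ℝ)).circleIntegrable
      zero_le_one)
    (fun ζ hζ => by
      have := re_form_le (pker_posSemidef hB' ζ) (hM ζ (by simpa using hζ)) η y
      simp only [smul_eq_mul]
      linarith)
  rw [h3, h4] at h5
  simp only [smul_eq_mul] at h5
  change ∑ c, ∑ a, ‖η c a‖ ^ 2 ≤ _
  linarith

end Crest.Agent.R132.P181
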