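import Crest.Agent.R132.Main
import Crest.Agent.R132.P181Circle
import Crest.Agent.R132.P181Norm
import Crest.Agent.Lib.Complex.Univalent

/-!
Row 132: the statement S0181 (boundary density and the bound by the optimal metric).
-/

set_option autoImplicit false

open scoped Matrix ComplexOrder
open Metric Set Real Crest.AnalysisR.NumRange Crest.Agent.Lib.Complex

noncomputable section

namespace Crest.Agent.R132.P181

variable {n m : ℕ}

lemma aeval_conj_unit {S : Matrix (Fin n) (Fin n) ℂ} (hS : IsUnit S.det)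
    (A : Matrix (Fin n) (Fin n) ℂ) (q : Polynomial ℂ) :
    Polynomial.aeval (S * A * S⁻¹) q = S * Polynomial.aeval A q * S⁻¹ := by
  have h1 : S⁻¹ * S = 1 := Matrix.nonsing_inv_mul _ hS
  have h2 : S * S⁻¹ = 1 := Matrix.mul_nonsing_inv _ hS
  have hpow : ∀ k : ℕ, (S * A * S⁻¹) ^ k = S * A ^ k * S⁻¹ := by
    intro k
    induction k with
    | zero => simp [h2]
    | succ k ih =>
      rw [pow_succ, ih, pow_succ]
      calc S * A ^ k * S⁻¹ * (S * A * S⁻¹) = S * A ^ k * (S⁻¹ * S) * A * S⁻¹ := by noncomm_ring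
        _ = _ := by rw [h1]; noncomm_ring
  induction q using Polynomial.induction_on' with
  | add p q hp hq => rw [map_add, map_add, hp, hq, mul_add, add_mul]
  | monomial k c =>
    rw [Polynomial.aeval_monomial, Polynomial.aeval_monomial, hpow,
      Algebra.algebraMap_eq_smul_one]
    simp

lemma re_dot_self (x : Fin n → ℂ) : (star x ⬝ᵥ x).re = ∑ a, ‖x a‖ ^ 2 := by
  simp only [dotProduct, Complex.re_sum, Pi.star_apply, Complex.star_def, re_conj_mul_self]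

lemma re_dot_sq {S : Matrix (Fin n) (Fin n) ℂ} (hS : S.IsHermitian) (x : Fin n → ℂ) :
    (star x ⬝ᵥ ((S * S) *ᵥ x)).re = ∑ a, ‖(S *ᵥ x) a‖ ^ 2 := by
  rw [← re_dot_self, ← Matrix.mulVec_mulVec, Matrix.dotProduct_mulVec, Matrix.star_mulVec,
    hS.eq]

lemma nsq_le_of_psd {S : Matrix (Fin n) (Fin n) ℂ} (hS : S.IsHermitian)
    (h : (S * S - 1).PosSemidef) (x : Fin n → ℂ) :
    ∑ a, ‖x a‖ ^ 2 ≤ ∑ a, ‖(S *ᵥ x) a‖ ^ 2 := by
  have h1 := (Complex.nonneg_iff.mp (h.dotProduct_mulVec_nonneg x)).1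
  rw [Matrix.sub_mulVec, dotProduct_sub, Complex.sub_re, re_dot_sq hS, Matrix.one_mulVec,
    re_dot_self] at h1
  linarith

lemma nsq_le_of_psd' {S : Matrix (Fin n) (Fin n) ℂ} (hS : S.IsHermitian) {κ : ℝ}
    (h : ((κ : ℂ) • (1 : Matrix (Fin n) (Fin n) ℂ) - S * S).PosSemidef) (x : Fin n → ℂ) :
    ∑ a, ‖(S *ᵥ x) a‖ ^ 2 ≤ κ * ∑ a, ‖x a‖ ^ 2 := by
  have h1 := (Complex.nonneg_iff.mp (h.dotProduct_mulVec_nonneg x)).1
  rw [Matrix.sub_mulVec, dotProduct_sub, Complex.sub_re, re_dot_sq hS, Matrix.smul_mulVec,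
    Matrix.one_mulVec, dotProduct_smul, smul_eq_mul, Complex.re_ofReal_mul, re_dot_self] at h1
  linarith

lemma nsq_le_of_norm_le {ι : Type} [Fintype ι] [DecidableEq ι] {w : Matrix ι ι ℂ} {M : ℝ}
    (h : ‖Matrix.toEuclideanCLM (n := ι) (𝕜 := ℂ) w‖ ≤ M) (x : ι → ℂ) :
    ∑ c, ‖(w *ᵥ x) c‖ ^ 2 ≤ M ^ 2 * ∑ d, ‖x d‖ ^ 2 := by
  have h1 := (Matrix.toEuclideanCLM (n := ι) (𝕜 := ℂ) w).le_of_opNorm_le h (WithLp.toLp 2 x)
  rw [Matrix.toEuclideanCLM_toLp] at h1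
  have h2 := pow_le_pow_left₀ (norm_nonneg _) h1 2
  rw [mul_pow, EuclideanSpace.norm_sq_eq, EuclideanSpace.norm_sq_eq] at h2
  exact h2

lemma norm_le_of_nsq_le {ι : Type} [Fintype ι] [DecidableEq ι] {w : Matrix ι ι ℂ} {C : ℝ}
    (hC : 0 ≤ C) (h : ∀ x : ι → ℂ, ∑ c, ‖(w *ᵥ x) c‖ ^ 2 ≤ C ^ 2 * ∑ d, ‖x d‖ ^ 2) :
    ‖Matrix.toEuclideanCLM (n := ι) (𝕜 := ℂ) w‖ ≤ C := by
  refine ContinuousLinearMap.opNorm_le_bound _ hC fun x => ?_
  refine (pow_le_pow_iff_left₀ (norm_nonneg _) (by positivity) two_ne_zero).mp ?_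
  rw [mul_pow, EuclideanSpace.norm_sq_eq, EuclideanSpace.norm_sq_eq, Matrix.ofLp_toEuclideanCLM]
  exact h _

end Crest.Agent.R132.P181

namespace Crest.Agent.R132

open P181

theorem final0181
    (n : ℕ) (hn : 1 ≤ n) (A : Matrix (Fin n) (Fin n) ℂ)
    (Ω U : Set ℂ) (hΩ₁ : IsOpen Ω) (hΩ₂ : Bornology.IsBounded Ω) (hΩ₃ : Convex ℝ Ω)
    (hU : IsOpen U) (hΩU : closure Ω ⊆ U)
    (f : ℂ → ℂ) (hf₁ : DifferentiableOn ℂ f U) (hf₂ : Set.InjOn f U)
    (hf₃ : f '' Ω = Metric.ball 0 1)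
    (G : ℂ → ℂ) (r : ℝ) (hr₁ : 0 < r) (hr₂ : r < 1)
    (hG₁ : DifferentiableOn ℂ G {t : ℂ | r < ‖t‖}) (hG₂ : Set.InjOn G {t : ℂ | r < ‖t‖})
    (hG₃ : G '' {t : ℂ | 1 < ‖t‖} = (closure Ω)ᶜ)
    (hA : numRange A ⊆ Ω) (p : Polynomial ℂ) (hp : AgreesOnSpectrum A f p)
    (H : Matrix (Fin n) (Fin n) ℂ) (κsq : ℝ) (hH : IsOptimalMetric (Polynomial.aeval A p) H κsq)
    (S : Matrix (Fin n) (Fin n) ℂ) (hS₁ : S.PosSemidef) (hS₂ : S * S = H) :
    ∃ Λ : ℝ → Matrix (Fin n) (Fin n) ℂ, Continuous Λ ∧ Function.Periodic Λ (2 * Real.pi) ∧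
      (∀ θ, (Λ θ).PosSemidef) ∧
      (∀ a b, (2 * Real.pi : ℂ)⁻¹ * (∫ θ in (0 : ℝ)..2 * Real.pi, Λ θ a b)
        = (1 : Matrix (Fin n) (Fin n) ℂ) a b) ∧
      ∀ (m : ℕ), 1 ≤ m → ∀ (V : Set ℂ), IsOpen V → closure Ω ⊆ V →
        ∀ v : ℂ → Matrix (Fin m) (Fin m) ℂ, (∀ c d, DifferentiableOn ℂ (fun z => v z c d) V) →
        ∀ q : Fin m → Fin m → Polynomial ℂ,
          (∀ c d, AgreesOnSpectrum A (fun z => v z c d) (q c d)) →
          (∀ a b c d, Polynomial.aeval (S * A * S⁻¹) (q c d) a b =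
              (2 * Real.pi : ℂ)⁻¹ * (∫ θ in (0 : ℝ)..2 * Real.pi,
                Λ θ a b * v (G (Complex.exp ((θ : ℂ) * Complex.I))) c d)) ∧
          ∀ M : ℝ, (∀ z ∈ closure Ω, ‖Matrix.toEuclideanCLM (n := Fin m) (𝕜 := ℂ) (v z)‖ ≤ M) →
            ‖Matrix.toEuclideanCLM (n := Fin n × Fin m) (𝕜 := ℂ)
                (Matrix.of fun (i : Fin n × Fin m) (j : Fin n × Fin m) =>
                  Polynomial.aeval A (q i.2 j.2) i.1 j.1)‖ ≤ Real.sqrt κsq * M := by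
  obtain ⟨E, hE, -⟩ := main hn A hΩ₁ hΩ₃ hA
  have hΩU' : Ω ⊆ U := subset_closure.trans hΩU
  have hspecA : spectrum ℂ A ⊆ Ω := (spectrum_subset_numRange A).trans hA
  have hfΩ : DifferentiableOn ℂ f Ω := hf₁.mono hΩU'
  obtain ⟨⟨hH1, hH2, hH3⟩, -⟩ := hH
  set T := Polynomial.aeval A p with hT
  have hET : E f = T := hE.agrees hΩ₁ hspecA f hfΩ p hp
  have hspecT : spectrum ℂ T ⊆ ball 0 1 := by
    rw [← hET, ← hf₃]
    exact hE.spectrum_subset hΩ₁ hspecA f hfΩ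
  subst hS₂
  have hSh : S.IsHermitian := hS₁.isHermitian
  have hSdet : IsUnit S.det := by
    have h1 : (S * S).PosDef := by
      have := Matrix.PosDef.posSemidef_add hH1 (Matrix.PosDef.one (n := Fin n) (R := ℂ))
      rwa [sub_add_cancel] at this
    have h2 := (Matrix.isUnit_iff_isUnit_det _).mp h1.isUnit
    rw [Matrix.det_mul] at h2
    exact isUnit_of_mul_isUnit_left h2
  have hSS : S⁻¹ * S = 1 := Matrix.nonsing_inv_mul _ hSdet
  have hSS' : S * S⁻¹ = 1 := Matrix.mul_nonsing_inv _ hSdet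
  set B := S * T * S⁻¹ with hB
  have hspecB : spectrum ℂ B ⊆ ball 0 1 := by
    have hu : IsUnit S := (Matrix.isUnit_iff_isUnit_det _).mpr hSdet
    have h1 := spectrum.units_conjugate (R := ℂ) (a := T) (u := hu.unit)
    rw [Matrix.coe_units_inv, hu.unit_spec] at h1
    rw [hB, h1]
    exact hspecT
  have hBpsd : (1 - Bᴴ * B).PosSemidef := by
    have h1 := hH3.conjTranspose_mul_mul_same S⁻¹
    have hinv : (S⁻¹)ᴴ = S⁻¹ := hSh.inv.eq
    have h2 : (S⁻¹)ᴴ * (S * S - Tᴴ * (S * S) * T) * S⁻¹ = 1 - Bᴴ * B := by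
      rw [hB, Matrix.conjTranspose_mul, Matrix.conjTranspose_mul, hinv, hSh.eq]
      calc S⁻¹ * (S * S - Tᴴ * (S * S) * T) * S⁻¹
          = (S⁻¹ * S) * (S * S⁻¹) - S⁻¹ * (Tᴴ * S) * (S * T * S⁻¹) := by noncomm_ring
        _ = _ := by rw [hSS, hSS', one_mul]
    rwa [h2] at h1
  -- the inverse of `f`
  set g := Function.invFunOn f U with hg
  have hgf : ∀ z ∈ U, g (f z) = z := fun z hz => hf₂.leftInvOn_invFunOn hz
  have hclos : closedBall (0 : ℂ) 1 ⊆ f '' closure Ω := by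
    have hc : IsCompact (f '' closure Ω) :=
      hΩ₂.isCompact_closure.image_of_continuousOn (hf₁.continuousOn.mono hΩU)
    rw [← closure_ball _ one_ne_zero, ← hf₃]
    exact closure_minimal (image_mono subset_closure) hc.isClosed
  have hgmem : ∀ ζ ∈ closedBall (0 : ℂ) 1, g ζ ∈ closure Ω := by
    intro ζ hζ
    obtain ⟨z, hz, rfl⟩ := hclos hζ
    rwa [hgf z (hΩU hz)]
  have hfg : ∀ ζ ∈ closedBall (0 : ℂ) 1, f (g ζ) = ζ := by
    intro ζ hζ
    obtain ⟨z, hz, rfl⟩ := hclos hζ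
    rw [hgf z (hΩU hz)]
  have hgd : ∀ ζ ∈ closedBall (0 : ℂ) 1, DifferentiableAt ℂ g ζ := by
    intro ζ hζ
    obtain ⟨z, hz, rfl⟩ := hclos hζ
    exact (hasDerivAt_invFunOn hU hf₁ hf₂ (hΩU hz)).differentiableAt
  have hsph : ∀ ζ : ℂ, ‖ζ‖ = 1 → ζ ∈ closedBall (0 : ℂ) 1 := fun ζ h => by simp [h]
  -- boundary correspondence
  have hD : IsOpen {t : ℂ | r < ‖t‖} := isOpen_lt continuous_const continuous_norm
  have hDmem : ∀ t : ℂ, ‖t‖ = 1 → t ∈ {t : ℂ | r < ‖t‖} := fun t ht => by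
    simp only [mem_ofPred_eq, ht, hr₂]
  have hGd : ∀ t : ℂ, ‖t‖ = 1 → DifferentiableAt ℂ G t := fun t ht =>
    hG₁.differentiableAt (hD.mem_nhds (hDmem t ht))
  have hGcl : ∀ t : ℂ, ‖t‖ = 1 → G t ∈ closure Ω := by
    intro t ht
    by_contra h
    have h' : G t ∈ G '' {t : ℂ | 1 < ‖t‖} := by rw [hG₃]; exact h
    obtain ⟨t', ht', he⟩ := h'
    have h1 : t' = t := hG₂ (show r < ‖t'‖ from hr₂.trans ht') (hDmem t ht) he
    rw [h1, mem_ofPred_eq, ht] at ht'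
    exact lt_irrefl _ ht'
  have hGnot : ∀ t : ℂ, ‖t‖ = 1 → G t ∉ Ω := by
    intro t ht hmem
    have h1 : ∀ᶠ s in nhds t, G s ∈ Ω := (hGd t ht).continuousAt.eventually (hΩ₁.mem_nhds hmem)
    have h2 : t ∈ closure {t : ℂ | 1 < ‖t‖} := by
      have h3 : {t : ℂ | 1 < ‖t‖} = (closedBall (0 : ℂ) 1)ᶜ := by
        ext s; simp
      rw [h3, closure_compl, interior_closedBall _ one_ne_zero]
      simp [ht]
    obtain ⟨s, hs1, hs2⟩ := mem_closure_iff_nhds.mp h2 _ h1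
    have h4 : G s ∈ (closure Ω)ᶜ := by rw [← hG₃]; exact mem_image_of_mem _ hs2
    exact h4 (subset_closure hs1)
  have hτ : ∀ t : ℂ, ‖t‖ = 1 → ‖f (G t)‖ = 1 := by
    intro t ht
    apply le_antisymm
    · have h1 : f (G t) ∈ closure (f '' Ω) :=
        ((hf₁.continuousOn.mono hΩU) _ (hGcl t ht)).mono subset_closure |>.mem_closure_image
          (hGcl t ht)
      rw [hf₃, closure_ball _ one_ne_zero] at h1
      simpa using h1
    · by_contra h
      have h1 : f (G t) ∈ f '' Ω := by rw [hf₃]; simpa using h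
      obtain ⟨z, hz, he⟩ := h1
      have h2 : z = G t := hf₂ (hΩU' hz) (hΩU (hGcl t ht)) he
      exact hGnot t ht (h2 ▸ hz)
  -- the parametrisation of the unit circle
  have hcm : ∀ θ : ℝ, ‖circleMap 0 1 θ‖ = 1 := fun θ => by simp
  set u : ℝ → ℂ := fun θ => f (G (circleMap 0 1 θ)) with hu
  set u' : ℝ → ℂ := fun θ => deriv f (G (circleMap 0 1 θ)) *
    (deriv G (circleMap 0 1 θ) * (circleMap 0 1 θ * Complex.I)) with hu'
  have hGU : ∀ θ : ℝ, G (circleMap 0 1 θ) ∈ U := fun θ => hΩU (hGcl _ (hcm θ))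
  have hud : ∀ θ, HasDerivAt u (u' θ) θ := by
    intro θ
    have h1 := hasDerivAt_circleMap 0 1 θ
    have h2 := (hGd _ (hcm θ)).hasDerivAt.comp θ h1
    exact (hf₁.differentiableAt (hU.mem_nhds (hGU θ))).hasDerivAt.comp θ h2
  have hGc : Continuous fun θ : ℝ => G (circleMap 0 1 θ) :=
    hG₁.continuousOn.comp_continuous (continuous_circleMap 0 1) fun θ => hDmem _ (hcm θ)
  have hu'c : Continuous u' := by
    have h1 : Continuous fun θ : ℝ => deriv f (G (circleMap 0 1 θ)) :=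
      (hf₁.deriv hU).continuousOn.comp_continuous hGc hGU
    have h2 : Continuous fun θ : ℝ => deriv G (circleMap 0 1 θ) :=
      (hG₁.deriv hD).continuousOn.comp_continuous (continuous_circleMap 0 1)
        fun θ => hDmem _ (hcm θ)
    exact h1.mul (h2.mul ((continuous_circleMap 0 1).mul continuous_const))
  have huc : Continuous u := continuous_iff_continuousAt.mpr fun θ => (hud θ).continuousAt
  have hu'ne : ∀ θ, u' θ ≠ 0 := fun θ =>
    mul_ne_zero (deriv_ne_zero_of_injOn hU hf₁ hf₂ (hGU θ))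
      (mul_ne_zero (deriv_ne_zero_of_injOn hD hG₁ hG₂ (hDmem _ (hcm θ)))
        (mul_ne_zero (circleMap_ne_center one_ne_zero) Complex.I_ne_zero))
  have hunorm : ∀ θ, ‖u θ‖ = 1 := fun θ => hτ _ (hcm θ)
  have huper : ∀ θ, u (θ + 2 * π) = u θ := fun θ => by
    simp only [hu, periodic_circleMap 0 1 θ]
  have hu'per : ∀ θ, u' (θ + 2 * π) = u' θ := fun θ => by
    simp only [hu', periodic_circleMap 0 1 θ]
  have huinj : ∀ θ ∈ Ioo (0 : ℝ) (2 * π), u θ ≠ u 0 := by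
    intro θ hθ he
    have h1 := hG₂ (hDmem _ (hcm θ)) (hDmem _ (hcm 0)) (hf₂ (hGU θ) (hGU 0) he)
    have h2 := injOn_circleMap_of_abs_sub_le' (c := 0) (R := 1) (a := 0) (b := 2 * π)
      one_ne_zero (by simp) ⟨hθ.1.le, hθ.2⟩ ⟨le_rfl, Real.two_pi_pos⟩ h1
    exact hθ.1.ne' h2
  have hgu : ∀ θ : ℝ, g (u θ) = G (Complex.exp ((θ : ℂ) * Complex.I)) := by
    intro θ
    rw [hu, hgf _ (hGU θ)]
    simp [circleMap]
  set Λ : ℝ → Matrix (Fin n) (Fin n) ℂ := fun θ => ((‖u' θ‖ : ℝ) : ℂ) • pker B (u θ) with hΛ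
  have key : ∀ w : ℂ → ℂ, ContinuousOn w (sphere 0 1) → ∀ a b,
      (2 * Real.pi : ℂ)⁻¹ * (∫ θ in (0 : ℝ)..2 * Real.pi, Λ θ a b * w (u θ)) = pavg B w a b := by
    intro w hw a b
    have h1 := integral_circle_param hud hu'c hu'ne hunorm (by simpa using huper 0) huinj
      (F := fun ζ => pker B ζ a b * w ζ) ((continuousOn_pker hspecB a b).mul hw)
    rw [pavg_apply, circleAverage_def, ← h1, Complex.real_smul]
    congr 1
    · push_cast; rfl
    · congr 1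
      ext θ
      simp only [hΛ, Matrix.smul_apply, smul_eq_mul]
      ring
  refine ⟨Λ, ?_, ?_, ?_, ?_, ?_⟩
  · refine continuous_matrix fun a b => ?_
    simp only [hΛ, Matrix.smul_apply, smul_eq_mul]
    refine (Complex.continuous_ofReal.comp hu'c.norm).mul ?_
    exact (continuousOn_pker hspecB a b).comp_continuous huc fun θ => by simp [hunorm θ]
  · intro θ
    simp only [hΛ, huper θ, hu'per θ]
  · intro θ
    exact (pker_posSemidef hBpsd _).smul (by exact_mod_cast norm_nonneg _)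
  · intro a b
    have := key (fun _ => 1) continuousOn_const a b
    rw [pavg_one hspecB] at this
    simpa using this
  intro m _ V hV hΩV v hv q hq
  have hW : IsOpen (V ∩ U) := hV.inter hU
  have hΩW : closure Ω ⊆ V ∩ U := subset_inter hΩV hΩU
  have hΩW' : Ω ⊆ V ∩ U := subset_closure.trans hΩW
  have hcomp : ∀ φ : ℂ → ℂ, DifferentiableOn ℂ φ (V ∩ U) →
      ∀ ζ ∈ closedBall (0 : ℂ) 1, DifferentiableAt ℂ (fun ζ => φ (g ζ)) ζ := fun φ hφ ζ hζ =>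
    (hφ.differentiableAt (hW.mem_nhds (hΩW (hgmem ζ hζ)))).comp ζ (hgd ζ hζ)
  have hcalc : ∀ φ : ℂ → ℂ, DifferentiableOn ℂ φ (V ∩ U) →
      S * E φ * S⁻¹ = pavg B (fun ζ => φ (g ζ)) := by
    intro φ hφ
    rw [← sub_eq_zero]
    refine vanish hW (hf₁.mono inter_subset_right) (hf₂.mono inter_subset_right)
      (fun z hz => deriv_ne_zero_of_injOn hU hf₁ hf₂ hz.2) (B := B)
      (hspecB.trans (by rw [← hf₃]; exact image_mono hΩW'))
      (fun φ => S * E φ * S⁻¹ - pavg B (fun ζ => φ (g ζ))) ?_ ?_ ?_ ?_ ?_ φ hφ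
    · intro φ ψ h
      rw [hE.congr φ ψ (h.mono hΩW'),
        pavg_congr B (v := fun ζ => ψ (g ζ)) fun ζ hζ => h (hΩW (hgmem ζ (hsph ζ hζ)))]
    · intro φ ψ hφ hψ
      rw [hE.add φ ψ (hφ.mono hΩW') (hψ.mono hΩW'),
        pavg_add hspecB (continuousOn_of_diff (hcomp φ hφ)) (continuousOn_of_diff (hcomp ψ hψ))]
      noncomm_ring
    · intro c φ hφ
      rw [hE.smul c φ (hφ.mono hΩW'), pavg_smul B c (fun ζ => φ (g ζ)), smul_sub,
        Matrix.mul_smul, Matrix.smul_mul]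
    · rw [hE.one, pavg_one hspecB, mul_one, hSS', sub_self]
    · intro φ hφ
      rw [hE.mul hΩ₁ hspecA f φ hfΩ (hφ.mono hΩW'), hET,
        pavg_congr B (u := fun ζ => f (g ζ) * φ (g ζ)) (v := fun ζ => ζ * φ (g ζ))
          fun ζ hζ => by simp only [hfg ζ (hsph ζ hζ)],
        pavg_mul hspecB (hcomp φ hφ), mul_sub]
      congr 1
      calc S * (T * E φ) * S⁻¹ = S * T * (S⁻¹ * S) * E φ * S⁻¹ := by rw [hSS]; noncomm_ring
        _ = _ := by rw [hB]; noncomm_ring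
  have hvW : ∀ c d, DifferentiableOn ℂ (fun z => v z c d) (V ∩ U) := fun c d =>
    (hv c d).mono inter_subset_left
  have hmain : ∀ c d, S * Polynomial.aeval A (q c d) * S⁻¹ = pavg B (fun ζ => v (g ζ) c d) := by
    intro c d
    rw [← hE.agrees hΩ₁ hspecA _ ((hvW c d).mono hΩW') _ (hq c d)]
    exact hcalc _ (hvW c d)
  have hvc : ∀ c d, ContinuousOn (fun ζ => v (g ζ) c d) (sphere 0 1) := fun c d =>
    continuousOn_of_diff (hcomp _ (hvW c d))
  refine ⟨fun a b c d => ?_, fun M hM => ?_⟩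
  · rw [aeval_conj_unit hSdet, hmain, ← key _ (hvc c d)]
    simp only [hgu]
  · have hM0 : 0 ≤ M := (norm_nonneg _).trans (hM _ (hgmem 0 (by simp)))
    have hκ : 0 ≤ κsq := by
      have h1 := nsq_le_of_psd hSh hH1 (fun _ => 1)
      have h2 := nsq_le_of_psd' hSh hH2 (fun _ => 1)
      have h3 : (0 : ℝ) < ∑ _a : Fin n, ‖(1 : ℂ)‖ ^ 2 := by
        simp only [norm_one, one_pow, Finset.sum_const, Finset.card_univ, Fintype.card_fin,
          nsmul_eq_mul, mul_one]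
        exact_mod_cast hn
      nlinarith
    refine norm_le_of_nsq_le (by positivity) fun ξ => ?_
    have hb := pavg_block_bound hspecB hBpsd (w := fun ζ => v (g ζ)) hvc (M := M)
      (fun ζ hζ x => nsq_le_of_norm_le (hM _ (hgmem ζ (hsph ζ hζ))) x)
      (fun d => S *ᵥ fun b => ξ (b, d))
    set X : Fin m → Fin n → ℂ := fun c a =>
      ((Matrix.of fun (i : Fin n × Fin m) (j : Fin n × Fin m) =>
        Polynomial.aeval A (q i.2 j.2) i.1 j.1) *ᵥ ξ) (a, c) with hX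
    have hXc : ∀ c, X c = ∑ d, Polynomial.aeval A (q c d) *ᵥ fun b => ξ (b, d) := by
      intro c
      ext a
      simp only [hX, Matrix.mulVec, dotProduct, Matrix.of_apply, Finset.sum_apply,
        Fintype.sum_prod_type]
      rw [Finset.sum_comm]
    have hSX : ∀ c, S *ᵥ X c =
        ∑ d, pavg B (fun ζ => v (g ζ) c d) *ᵥ (S *ᵥ fun b => ξ (b, d)) := by
      intro c
      rw [hXc, Matrix.mulVec_sum]
      refine Finset.sum_congr rfl fun d _ => ?_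
      rw [← hmain, Matrix.mulVec_mulVec, Matrix.mulVec_mulVec, mul_assoc _ S⁻¹, hSS, mul_one]
    calc ∑ i : Fin n × Fin m, ‖X i.2 i.1‖ ^ 2 = ∑ c, ∑ a, ‖X c a‖ ^ 2 := by
          rw [Fintype.sum_prod_type, Finset.sum_comm]
      _ ≤ ∑ c, ∑ a, ‖(S *ᵥ X c) a‖ ^ 2 :=
          Finset.sum_le_sum fun c _ => nsq_le_of_psd hSh hH1 _
      _ ≤ M ^ 2 * ∑ d, ∑ a, ‖(S *ᵥ fun b => ξ (b, d)) a‖ ^ 2 := by
          simp only [hSX]; exact hb
      _ ≤ M ^ 2 * ∑ d, (κsq * ∑ b, ‖ξ (b, d)‖ ^ 2) :=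
          mul_le_mul_of_nonneg_left
            (Finset.sum_le_sum fun d _ => nsq_le_of_psd' hSh hH2 _) (sq_nonneg _)
      _ = (Real.sqrt κsq * M) ^ 2 * ∑ j, ‖ξ j‖ ^ 2 := by
          rw [mul_pow, Real.sq_sqrt hκ, ← Finset.mul_sum, Fintype.sum_prod_type, Finset.sum_comm]
          ring

end Crest.Agent.R132
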