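import Mathlib

/-!
Row 132, statement S0181: the operator valued Poisson kernel of a matrix contraction.
-/

set_option autoImplicit false

open scoped Matrix ComplexOrder
open Metric Set Real

noncomputable section

namespace Crest.Agent.R132.P181

variable {n : ℕ}

/-- The resolvent `(1 - w B)⁻¹`. -/
def res (B : Matrix (Fin n) (Fin n) ℂ) (w : ℂ) : Matrix (Fin n) (Fin n) ℂ := (1 - w • B)⁻¹

/-- The Poisson kernel of `B`. -/
def pker (B : Matrix (Fin n) (Fin n) ℂ) (ζ : ℂ) : Matrix (Fin n) (Fin n) ℂ :=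
  (res B ((starRingEnd ℂ) ζ))ᴴ * (1 - Bᴴ * B) * res B ((starRingEnd ℂ) ζ)

/-- The Poisson integral of `u`. -/
def pavg (B : Matrix (Fin n) (Fin n) ℂ) (u : ℂ → ℂ) : Matrix (Fin n) (Fin n) ℂ :=
  Matrix.of fun a b => circleAverage (fun ζ => pker B ζ a b * u ζ) 0 1

lemma pavg_apply (B : Matrix (Fin n) (Fin n) ℂ) (u : ℂ → ℂ) (a b : Fin n) :
    pavg B u a b = circleAverage (fun ζ => pker B ζ a b * u ζ) 0 1 := rfl

lemma isUnit_det_one_sub {B : Matrix (Fin n) (Fin n) ℂ} (hB : spectrum ℂ B ⊆ ball 0 1) {w : ℂ}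
    (hw : ‖w‖ ≤ 1) : IsUnit (1 - w • B).det := by
  rw [← Matrix.isUnit_iff_isUnit_det]
  rcases eq_or_ne w 0 with rfl | h0
  · simp
  have h1 : w⁻¹ ∉ spectrum ℂ B := by
    intro h
    have h2 := hB h
    rw [mem_ball_zero_iff, norm_inv] at h2
    have h3 : 0 < ‖w‖ := norm_pos_iff.mpr h0
    have := (inv_lt_one₀ h3).mp h2
    linarith
  rw [spectrum.notMem_iff] at h1
  have h2 : 1 - w • B = (Units.mk0 w h0) • (algebraMap ℂ _ w⁻¹ - B) := by
    rw [Units.smul_def, Units.val_mk0, smul_sub, Algebra.algebraMap_eq_smul_one, smul_smul,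
      mul_inv_cancel₀ h0, one_smul]
  rw [h2]
  exact h1.smul _

lemma one_sub_conjTranspose (B : Matrix (Fin n) (Fin n) ℂ) (w : ℂ) :
    (1 - (starRingEnd ℂ) w • B)ᴴ = 1 - w • Bᴴ := by
  simp [Matrix.conjTranspose_sub, Matrix.conjTranspose_smul]

lemma isUnit_det_one_sub' {B : Matrix (Fin n) (Fin n) ℂ} (hB : spectrum ℂ B ⊆ ball 0 1) {w : ℂ}
    (hw : ‖w‖ ≤ 1) : IsUnit (1 - w • Bᴴ).det := by
  rw [← one_sub_conjTranspose, Matrix.det_conjTranspose]
  exact (isUnit_det_one_sub hB (by simpa using hw)).star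

lemma res_conjTranspose (B : Matrix (Fin n) (Fin n) ℂ) (w : ℂ) :
    (res B ((starRingEnd ℂ) w))ᴴ = res Bᴴ w := by
  rw [res, Matrix.conjTranspose_nonsing_inv, one_sub_conjTranspose, res]

lemma differentiable_det {M : ℂ → Matrix (Fin n) (Fin n) ℂ}
    (h : ∀ a b, Differentiable ℂ (fun z => M z a b)) : Differentiable ℂ (fun z => (M z).det) := by
  simp only [Matrix.det_apply']
  refine Differentiable.fun_sum fun σ _ => Differentiable.const_mul ?_ _
  exact Differentiable.fun_finsetProd fun i _ => h _ _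

lemma differentiableAt_res (B : Matrix (Fin n) (Fin n) ℂ) {w : ℂ} (hw : IsUnit (1 - w • B).det)
    (a b : Fin n) : DifferentiableAt ℂ (fun z => res B z a b) w := by
  have h1 : ∀ a b, Differentiable ℂ
      (fun z : ℂ => ((1 : Matrix (Fin n) (Fin n) ℂ) - z • B) a b) := by
    intro a b
    simp only [Matrix.sub_apply, Matrix.smul_apply, smul_eq_mul]
    fun_prop
  have h2 := differentiable_det h1
  have h3 : Differentiable ℂ
      (fun z : ℂ => ((1 : Matrix (Fin n) (Fin n) ℂ) - z • B).adjugate a b) := by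
    simp only [Matrix.adjugate_apply]
    refine differentiable_det fun c d => ?_
    simp only [Matrix.updateRow_apply]
    split_ifs
    · exact differentiable_const _
    · exact h1 _ _
  simp only [res, Matrix.inv_def, Matrix.smul_apply, smul_eq_mul, Ring.inverse_eq_inv']
  exact ((h2 w).inv hw.ne_zero).mul (h3 w)

lemma res_zero (B : Matrix (Fin n) (Fin n) ℂ) : res B 0 = 1 := by simp [res]

lemma pker_posSemidef {B : Matrix (Fin n) (Fin n) ℂ} (hB : (1 - Bᴴ * B).PosSemidef) (ζ : ℂ) :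
    (pker B ζ).PosSemidef := hB.conjTranspose_mul_mul_same _

lemma pker_eq {B : Matrix (Fin n) (Fin n) ℂ} (hB : spectrum ℂ B ⊆ ball 0 1) {ζ : ℂ}
    (hζ : ‖ζ‖ = 1) : pker B ζ = res B ζ⁻¹ + res Bᴴ ζ - 1 := by
  have hc : ζ⁻¹ = (starRingEnd ℂ) ζ := Complex.inv_eq_conj hζ
  have h0 : ζ ≠ 0 := by rintro rfl; simp at hζ
  have h1 : (1 - ζ⁻¹ • B) * res B ζ⁻¹ = 1 :=
    Matrix.mul_nonsing_inv _ (isUnit_det_one_sub hB (by rw [norm_inv, hζ]; simp))
  have h2 : res Bᴴ ζ * (1 - ζ • Bᴴ) = 1 :=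
    Matrix.nonsing_inv_mul _ (isUnit_det_one_sub' hB hζ.le)
  have h3 : 1 - Bᴴ * B = (1 - ζ⁻¹ • B) + (1 - ζ • Bᴴ) - (1 - ζ • Bᴴ) * (1 - ζ⁻¹ • B) := by
    simp only [sub_mul, mul_sub, one_mul, mul_one, Matrix.smul_mul, Matrix.mul_smul, smul_smul,
      inv_mul_cancel₀ h0, one_smul]
    abel
  rw [pker, res_conjTranspose, ← hc, h3]
  calc res Bᴴ ζ * ((1 - ζ⁻¹ • B) + (1 - ζ • Bᴴ) - (1 - ζ • Bᴴ) * (1 - ζ⁻¹ • B)) * res B ζ⁻¹
      = res Bᴴ ζ * ((1 - ζ⁻¹ • B) * res B ζ⁻¹) + (res Bᴴ ζ * (1 - ζ • Bᴴ)) * res B ζ⁻¹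
        - (res Bᴴ ζ * (1 - ζ • Bᴴ)) * ((1 - ζ⁻¹ • B) * res B ζ⁻¹) := by noncomm_ring
    _ = _ := by rw [h1, h2]; simp only [mul_one, one_mul]; abel

lemma continuousOn_res_inv {B : Matrix (Fin n) (Fin n) ℂ} (hB : spectrum ℂ B ⊆ ball 0 1)
    (a b : Fin n) : ContinuousOn (fun ζ : ℂ => res B ζ⁻¹ a b) (sphere 0 1) := by
  intro ζ hζ
  have hζ' : ‖ζ‖ = 1 := by simpa using hζ
  have h0 : ζ ≠ 0 := by rintro rfl; simp at hζ'
  have h1 := (differentiableAt_res B
    (isUnit_det_one_sub hB (w := ζ⁻¹) (by rw [norm_inv, hζ']; simp)) a b).continuousAt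
  exact (ContinuousAt.comp (f := fun ζ : ℂ => ζ⁻¹) h1 (continuousAt_inv₀ h0)).continuousWithinAt

lemma continuousOn_res' {B : Matrix (Fin n) (Fin n) ℂ} (hB : spectrum ℂ B ⊆ ball 0 1)
    (a b : Fin n) : ContinuousOn (fun ζ : ℂ => res Bᴴ ζ a b) (sphere 0 1) := by
  intro ζ hζ
  have hζ' : ‖ζ‖ = 1 := by simpa using hζ
  exact (differentiableAt_res Bᴴ (isUnit_det_one_sub' hB hζ'.le) a b).continuousAt.continuousWithinAt

lemma continuousOn_pker {B : Matrix (Fin n) (Fin n) ℂ} (hB : spectrum ℂ B ⊆ ball 0 1)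
    (a b : Fin n) : ContinuousOn (fun ζ : ℂ => pker B ζ a b) (sphere 0 1) := by
  refine ContinuousOn.congr (f := fun ζ => res B ζ⁻¹ a b + res Bᴴ ζ a b
    - (1 : Matrix (Fin n) (Fin n) ℂ) a b) ?_ ?_
  · exact ((continuousOn_res_inv hB a b).add (continuousOn_res' hB a b)).sub continuousOn_const
  · intro ζ hζ
    have hζ' : ‖ζ‖ = 1 := by simpa using hζ
    simp only [pker_eq hB hζ', Matrix.sub_apply, Matrix.add_apply]

lemma circleIntegrable_of_continuousOn {F : ℂ → ℂ} (hF : ContinuousOn F (sphere 0 1)) :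
    CircleIntegrable F 0 1 := hF.circleIntegrable zero_le_one

lemma avg_of_diff {F : ℂ → ℂ} (hF : ∀ z ∈ closedBall (0 : ℂ) 1, DifferentiableAt ℂ F z) :
    circleAverage F 0 1 = F 0 := by
  apply DiffContOnCl.circleAverage
  apply DifferentiableOn.diffContOnCl
  rw [abs_one, closure_ball _ one_ne_zero]
  exact fun z hz => (hF z hz).differentiableWithinAt

lemma avg_congr {F G : ℂ → ℂ} (h : ∀ z : ℂ, ‖z‖ = 1 → F z = G z) :
    circleAverage F 0 1 = circleAverage G 0 1 :=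
  circleAverage_congr_sphere fun z hz => h z (by simpa using hz)

lemma continuousOn_of_diff {u : ℂ → ℂ} (hu : ∀ z ∈ closedBall (0 : ℂ) 1, DifferentiableAt ℂ u z) :
    ContinuousOn u (sphere 0 1) := fun z hz =>
  (hu z (sphere_subset_closedBall hz)).continuousAt.continuousWithinAt

lemma pavg_eq {B : Matrix (Fin n) (Fin n) ℂ} (hB : spectrum ℂ B ⊆ ball 0 1) {u : ℂ → ℂ}
    (hu : ∀ z ∈ closedBall (0 : ℂ) 1, DifferentiableAt ℂ u z) (a b : Fin n) :
    pavg B u a b = circleAverage (fun ζ => res B ζ⁻¹ a b * u ζ) 0 1 := by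
  have huc := continuousOn_of_diff hu
  have h1 : pavg B u a b = circleAverage (fun ζ => res B ζ⁻¹ a b * u ζ +
      (res Bᴴ ζ a b - (1 : Matrix (Fin n) (Fin n) ℂ) a b) * u ζ) 0 1 := by
    rw [pavg_apply]
    refine avg_congr fun ζ hζ => ?_
    simp only [pker_eq hB hζ, Matrix.sub_apply, Matrix.add_apply]
    ring
  have i1 : CircleIntegrable (fun ζ => res B ζ⁻¹ a b * u ζ) 0 1 :=
    circleIntegrable_of_continuousOn ((continuousOn_res_inv hB a b).mul huc)
  have i2 : CircleIntegrable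
      (fun ζ => (res Bᴴ ζ a b - (1 : Matrix (Fin n) (Fin n) ℂ) a b) * u ζ) 0 1 :=
    circleIntegrable_of_continuousOn
      (((continuousOn_res' hB a b).sub continuousOn_const).mul huc)
  rw [h1, circleAverage_fun_add i1 i2,
    avg_of_diff (F := fun ζ => (res Bᴴ ζ a b - (1 : Matrix (Fin n) (Fin n) ℂ) a b) * u ζ)]
  · simp [res_zero]
  · intro z hz
    exact ((differentiableAt_res Bᴴ (isUnit_det_one_sub' hB (by simpa using hz)) a b).sub_const
      _).mul (hu z hz)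

lemma pavg_one {B : Matrix (Fin n) (Fin n) ℂ} (hB : spectrum ℂ B ⊆ ball 0 1) :
    pavg B (fun _ => 1) = 1 := by
  ext a b
  rw [pavg_eq hB (fun _ _ => differentiableAt_const _)]
  simp only [mul_one]
  rw [circleAverage_zero_one_congr_inv (f := fun w => res B w a b), avg_of_diff, res_zero]
  intro z hz
  exact differentiableAt_res B (isUnit_det_one_sub hB (by simpa using hz)) a b

lemma pavg_mul {B : Matrix (Fin n) (Fin n) ℂ} (hB : spectrum ℂ B ⊆ ball 0 1) {u : ℂ → ℂ}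
    (hu : ∀ z ∈ closedBall (0 : ℂ) 1, DifferentiableAt ℂ u z) :
    pavg B (fun ζ => ζ * u ζ) = B * pavg B u := by
  have huc := continuousOn_of_diff hu
  ext a b
  rw [pavg_eq hB (u := fun ζ => ζ * u ζ) (fun z hz => differentiableAt_id.mul (hu z hz)),
    Matrix.mul_apply]
  simp only [pavg_eq hB hu]
  have h1 : circleAverage (fun ζ => res B ζ⁻¹ a b * (ζ * u ζ)) 0 1 =
      circleAverage (fun ζ => (1 : Matrix (Fin n) (Fin n) ℂ) a b * (ζ * u ζ) +
        ∑ j, B a j • (res B ζ⁻¹ j b * u ζ)) 0 1 := by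
    refine avg_congr fun ζ hζ => ?_
    have h0 : ζ ≠ 0 := by rintro rfl; simp at hζ
    have h1 : (1 - ζ⁻¹ • B) * res B ζ⁻¹ = 1 :=
      Matrix.mul_nonsing_inv _ (isUnit_det_one_sub hB (by rw [norm_inv, hζ]; simp))
    have h2 : res B ζ⁻¹ = 1 + ζ⁻¹ • (B * res B ζ⁻¹) := by
      rw [sub_mul, one_mul, Matrix.smul_mul] at h1
      rw [← h1]
      abel
    have h3 : res B ζ⁻¹ a b = (1 : Matrix (Fin n) (Fin n) ℂ) a b +
        ζ⁻¹ * ∑ j, B a j * res B ζ⁻¹ j b := by
      conv_lhs => rw [h2]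
      simp [Matrix.mul_apply]
    rw [h3]
    simp only [smul_eq_mul, ← mul_assoc, ← Finset.sum_mul]
    field_simp
  have hi : ∀ j, CircleIntegrable (fun ζ => B a j • (res B ζ⁻¹ j b * u ζ)) 0 1 := fun j =>
    circleIntegrable_of_continuousOn
      (((continuousOn_res_inv hB j b).mul huc).const_smul (B a j))
  have i1 : CircleIntegrable (fun ζ => (1 : Matrix (Fin n) (Fin n) ℂ) a b * (ζ * u ζ)) 0 1 :=
    circleIntegrable_of_continuousOn (continuousOn_const.mul (continuousOn_id.mul huc))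
  have i2 : CircleIntegrable (fun ζ => ∑ j, B a j • (res B ζ⁻¹ j b * u ζ)) 0 1 :=
    circleIntegrable_of_continuousOn (continuousOn_finsetSum _ fun j _ =>
      ((continuousOn_res_inv hB j b).mul huc).const_smul (B a j))
  rw [h1, circleAverage_fun_add i1 i2,
    circleAverage_fun_sum fun j _ => hi j,
    avg_of_diff (F := fun ζ => (1 : Matrix (Fin n) (Fin n) ℂ) a b * (ζ * u ζ))]
  · simp only [zero_mul, mul_zero, zero_add]
    refine Finset.sum_congr rfl fun j _ => ?_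
    rw [circleAverage_fun_smul, smul_eq_mul]
  · intro z hz
    exact (differentiableAt_id.mul (hu z hz)).const_mul _

lemma pavg_congr (B : Matrix (Fin n) (Fin n) ℂ) {u v : ℂ → ℂ} (h : ∀ z : ℂ, ‖z‖ = 1 → u z = v z) :
    pavg B u = pavg B v := by
  ext a b
  rw [pavg_apply, pavg_apply]
  exact avg_congr fun z hz => by rw [h z hz]

lemma pavg_add {B : Matrix (Fin n) (Fin n) ℂ} (hB : spectrum ℂ B ⊆ ball 0 1) {u v : ℂ → ℂ}
    (hu : ContinuousOn u (sphere 0 1)) (hv : ContinuousOn v (sphere 0 1)) :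
    pavg B (fun ζ => u ζ + v ζ) = pavg B u + pavg B v := by
  ext a b
  simp only [pavg, Matrix.of_apply, Matrix.add_apply, mul_add]
  exact circleAverage_fun_add
    (circleIntegrable_of_continuousOn ((continuousOn_pker hB a b).mul hu))
    (circleIntegrable_of_continuousOn ((continuousOn_pker hB a b).mul hv))

lemma pavg_smul (B : Matrix (Fin n) (Fin n) ℂ) (c : ℂ) (u : ℂ → ℂ) :
    pavg B (fun ζ => c * u ζ) = c • pavg B u := by
  ext a b
  simp only [pavg, Matrix.of_apply, Matrix.smul_apply]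
  rw [← circleAverage_fun_smul]
  congr 1
  ext ζ
  simp only [smul_eq_mul]
  ring

end Crest.Agent.R132.P181
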